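import Vale.Agent.P158b.ProbB

/-! Counting walks; paths with many exceptional edges. -/

open MeasureTheory ProbabilityTheory Finset
open scoped Classical

namespace Vale.Agent.P158b

/-- encode a walk by its start and its list of steps (pad with zero steps) -/
theorem exists_fam (S0 : Finset V) (R J : ℕ) :
    ∃ 𝓕 : Finset (Finset V), 𝓕.card ≤ S0.card * (2 * R + 1) ^ (2 * J) ∧
      (∀ A ∈ 𝓕, A.card ≤ J + 1) ∧
      ∀ (f : ℕ → V) (J' : ℕ), J' ≤ J → f 0 ∈ S0 → (∀ i, i < J' → Near R (f i) (f (i + 1))) →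
        (range (J' + 1)).image f ∈ 𝓕 := by
  let g : V × (Fin J → V) → ℕ → V := fun p k =>
    p.1 + ∑ i ∈ range k, if h : i < J then p.2 ⟨i, h⟩ else 0
  refine ⟨(S0 ×ˢ Fintype.piFinset fun _ : Fin J => box 0 R).image fun p =>
    (range (J + 1)).image (g p), ?_, ?_, ?_⟩
  · refine card_image_le.trans ?_
    rw [card_product, Fintype.card_piFinset, prod_const, card_box, card_univ, Fintype.card_fin,
      pow_mul]
  · intro A hA
    obtain ⟨p, -, rfl⟩ := mem_image.1 hA
    exact card_image_le.trans (card_range _).le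
  · intro f J' hJ h0 hf
    refine mem_image.2 ⟨(f 0, fun i => f (min (i + 1) J') - f (min i J')),
      mem_product.2 ⟨h0, Fintype.mem_piFinset.2 fun i => mem_box.2 ?_⟩, ?_⟩
    · dsimp only
      by_cases hi : (i : ℕ) < J'
      · have := hf i hi
        rw [min_eq_left (show (i : ℕ) + 1 ≤ J' from hi), min_eq_left hi.le]
        simp only [Near, Prod.fst_sub, Prod.snd_sub, Prod.fst_zero, Prod.snd_zero] at this ⊢
        omega
      · rw [min_eq_right (by omega), min_eq_right (by omega), sub_self]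
        exact Near.refl _ _
    · have h1 : ∀ k, k ≤ J →
          g (f 0, fun i => f (min (i + 1) J') - f (min i J')) k = f (min k J') := fun k hk => by
        have h2 := sum_range_sub (fun i => f (min i J')) k
        rw [Nat.zero_min] at h2
        simp only [g]
        rw [sum_congr rfl fun i hi => dif_pos ((mem_range.1 hi).trans_le hk), h2, add_sub_cancel]
      ext x
      simp only [mem_image, mem_range]
      constructor
      · rintro ⟨k, hk, rfl⟩
        exact ⟨min k J', by omega, (h1 k (by omega)).symm⟩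
      · rintro ⟨k, hk, rfl⟩
        exact ⟨k, by omega, by rw [h1 k (by omega), min_eq_left (by omega)]⟩

/-- `exists_fam {x} 1 n`, `count_bound`, `card_edgesOf`, `card_thick`: the probability is at most
`9 ^ n * 2 ^ (4 (2r+1)^2 (n+1)) * η0 ^ (δ n)` -/
theorem many_small (r : ℕ) {δ : ℝ} (hδ : 0 < δ) :
    ∃ η0 C : ℝ, 0 < η0 ∧ 0 < C ∧ ∀ (G : Measure ℝ) [IsProbabilityMeasure G] (B : Set ℝ),
      MeasurableSet B → G.real B ≤ η0 →
      ∀ (n : ℕ) (x : V), (PP G).real {ω | Many B r n (δ * n) x ω} ≤ C * (1 / 2) ^ n := by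
  set K := 4 * (2 * r + 1) ^ 2 with hK
  have hb : (0 : ℝ) < (18 * 2 ^ K)⁻¹ := by positivity
  have hb1 : ((18 : ℝ) * 2 ^ K)⁻¹ ≤ 1 :=
    inv_le_one_of_one_le₀ (by linarith [one_le_pow₀ (n := K) (show (1 : ℝ) ≤ 2 by norm_num)])
  refine ⟨((18 : ℝ) * 2 ^ K)⁻¹ ^ δ⁻¹, 2 ^ K, Real.rpow_pos_of_pos hb _, by positivity,
    fun G _ B hB hG n x => ?_⟩
  obtain ⟨𝓕, h1, h2, h3⟩ := exists_fam {x} 1 n
  have hsub : {ω | Many B r n (δ * n) x ω} ⊆ ⋃ A ∈ 𝓕,
      {ω : Env | δ * n ≤ (((edgesOf (thick r A)).filter fun e => ω e ∈ B).card : ℝ)} := by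
    rintro ω ⟨f, hf0, hf, hk⟩
    exact Set.mem_iUnion₂.2 ⟨_, h3 f n le_rfl (mem_singleton.2 hf0) hf, hk⟩
  refine (measureReal_mono hsub (measure_ne_top _ _)).trans ((measureReal_biUnion_finset_le _ _).trans ?_)
  have h4 : ∀ A ∈ 𝓕, (PP G).real
      {ω : Env | δ * n ≤ (((edgesOf (thick r A)).filter fun e => ω e ∈ B).card : ℝ)} ≤
      2 ^ (K * (n + 1)) * ((18 : ℝ) * 2 ^ K)⁻¹ ^ n := fun A hA => by
    refine (count_bound _ hB (Real.rpow_pos_of_pos hb _) (Real.rpow_le_one hb.le hb1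
      (by positivity)) hG (by positivity)).trans ?_
    rw [← Real.rpow_mul hb.le, inv_mul_cancel_left₀ hδ.ne', Real.rpow_natCast]
    refine mul_le_mul_of_nonneg_right (pow_le_pow_right₀ (by norm_num) ?_) (by positivity)
    refine (card_edgesOf _).trans ?_
    rw [hK, mul_assoc]
    exact Nat.mul_le_mul_left _ ((card_thick _ _).trans (Nat.mul_le_mul_left _ (h2 A hA)))
  refine (sum_le_card_nsmul _ _ _ h4).trans ?_
  rw [nsmul_eq_mul]
  have h5 : (𝓕.card : ℝ) ≤ 9 ^ n := by
    rw [card_singleton, one_mul, pow_mul] at h1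
    exact_mod_cast h1
  refine (mul_le_mul_of_nonneg_right h5 (by positivity)).trans (le_of_eq ?_)
  have h6 : (9 : ℝ) * (2 ^ K * (18 * 2 ^ K)⁻¹) = 1 / 2 := by
    field_simp
    norm_num
  rw [← h6, mul_pow, mul_pow, pow_mul, pow_succ]
  ring

/-- Deterministic use of `¬ Many`: along the first `m ≤ n` steps of an injective walk from `x`
fewer than `k` edges are exceptional (extend the walk by a constant; the edges are distinct
elements of `edgesOf (thick r _)`). -/
theorem card_lt_of_not_many {B : Set ℝ} {r n m : ℕ} {k : ℝ} {ω : Env} {f : ℕ → V} (hmn : m ≤ n)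
    (hadj : ∀ i, i < m → Adj (f i) (f (i + 1)))
    (hinj : ∀ i j, i ≤ m → j ≤ m → f i = f j → i = j) (h : ¬ Many B r n k (f 0) ω) :
    (((range m).filter fun i => ω s(f i, f (i + 1)) ∈ B).card : ℝ) < k := by
  unfold Many at h
  push Not at h
  refine lt_of_le_of_lt ?_ (h (fun i => f (min i m)) (by rw [Nat.zero_min]) fun i _ => ?_)
  · refine Nat.cast_le.2 (card_le_card_of_injOn (fun i => s(f i, f (i + 1))) (fun i hi => ?_)
      fun i hi j hj hij => ?_)
    · obtain ⟨hi, hB⟩ := mem_filter.1 (mem_coe.1 hi)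
      rw [mem_range] at hi
      refine mem_coe.2 (mem_filter.2 ⟨mem_edgesOf.2 ⟨f i, mem_thick.2 ⟨f i, mem_image.2
        ⟨i, mem_range.2 (by omega), by rw [min_eq_left hi.le]⟩, Near.refl _ _⟩, _, hadj i hi, rfl⟩,
        hB⟩)
    · have hi := mem_range.1 (mem_filter.1 (mem_coe.1 hi)).1
      have hj := mem_range.1 (mem_filter.1 (mem_coe.1 hj)).1
      rcases Sym2.eq_iff.1 hij with h1 | h1
      · exact hinj i j hi.le hj.le h1.1
      · have := hinj i (j + 1) hi.le hj h1.1
        have := hinj (i + 1) j hi hj.le h1.2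
        omega
  · by_cases hi : i < m
    · rw [min_eq_left hi.le, min_eq_left (Nat.succ_le_of_lt hi)]
      exact (hadj i hi).near
    · rw [min_eq_right (by omega), min_eq_right (by omega)]
      exact Near.refl _ _

/-- a path of length at least `n` from a point with `¬ Many` is heavy -/
theorem wt_ge_of_not_many {κ : ℝ} (hκ : 0 ≤ κ) {t ω : Env} (ht : ∀ e, 0 ≤ t e)
    (hω : ∀ e, κ ≤ ω e → κ ≤ t e) {S : Set V} {a b : V} {l : List V} (hl : IsPth S a b l) {n : ℕ}
    (hn : n ≤ len l) (h : ¬ Many (Set.Iio κ) 0 n (1 / 2 * n) a ω) : κ * n / 2 ≤ wt t l := by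
  rw [← hl.start] at h
  have hB : ∀ z, z ∉ Set.Iio κ → κ ≤ z := fun z hz => not_lt.1 hz
  generalize Set.Iio κ = B at h hB
  have h1 := card_lt_of_not_many (f := vx l) le_rfl
    (fun i hi => hl.chain.1 i (Nat.zero_le _) (hi.trans_le hn))
    (fun i j hi hj => hl.inj i j (hi.trans hn) (hj.trans hn)) h
  have h2 := card_filter_add_card_filter_not (s := range n)
    fun i => ω s(vx l i, vx l (i + 1)) ∈ B
  rw [card_range] at h2
  have h3 := card_nsmul_le_sum ((range n).filter fun i => ¬ω s(vx l i, vx l (i + 1)) ∈ B)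
    (fun i => t s(vx l i, vx l (i + 1))) κ fun i hi => hω _ (hB _ (mem_filter.1 hi).2)
  rw [nsmul_eq_mul] at h3
  have h4 : ∑ i ∈ (range n).filter fun i => ¬ω s(vx l i, vx l (i + 1)) ∈ B,
      t s(vx l i, vx l (i + 1)) ≤ wt t l :=
    sum_le_sum_of_subset_of_nonneg (fun i hi => mem_Ico.2
      ⟨Nat.zero_le _, (mem_range.1 (mem_filter.1 hi).1).trans_le hn⟩) fun i _ _ => ht _
  have h5 := congrArg (fun k : ℕ => (k : ℝ)) h2
  simp only [Nat.cast_add] at h5
  refine le_trans ?_ (h3.trans h4)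
  rw [mul_comm _ κ, mul_div_assoc]
  exact mul_le_mul_of_nonneg_left (by linarith) hκ

theorem fam_tend (C : ℝ) {c : ℝ} (hc : 0 < c) (d : ℕ) :
    Filter.Tendsto (fun y : ℝ => C * y ^ d * Real.exp (-c * y)) Filter.atTop (nhds 0) := by
  have h1 := (tendsto_rpow_mul_exp_neg_mul_atTop_nhds_zero d c hc).const_mul C
  simpa only [Real.rpow_natCast, mul_zero, ← mul_assoc] using h1

/-- polynomial times geometric tends to zero -/
theorem poly_geom_small (C c : ℝ) (hc : 0 < c) (d : ℕ) {η : ℝ} (hη : 0 < η) :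
    ∃ N0 : ℕ, ∀ N : ℕ, N0 ≤ N → C * (N + 1) ^ d * Real.exp (-c * N) ≤ η := by
  have h1 := (fam_tend (C * Real.exp c) hc d).comp
    (Filter.tendsto_atTop_add_const_right _ 1 tendsto_natCast_atTop_atTop)
  obtain ⟨N0, h2⟩ := Filter.eventually_atTop.1 (h1.eventually (ge_mem_nhds hη))
  refine ⟨N0, fun N hN => le_trans (le_of_eq ?_) (h2 N hN)⟩
  rw [Function.comp_apply, show -c * N = c + -c * (N + 1) by ring, Real.exp_add]
  ring

end Vale.Agent.P158b
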