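import Vale.Agent.P158b.UL
import Vale.Agent.P158b.Fam

/-! The basic good event. -/

open MeasureTheory ProbabilityTheory Finset
open scoped Classical

namespace Vale.Agent.P158b

theorem half_pow_le (n N : ℕ) (h : N ≤ 2 * n) :
    (1 / 2 : ℝ) ^ n ≤ Real.exp (-(Real.log 2 / 2) * N) := by
  have h2 : (0 : ℝ) < Real.log 2 := Real.log_pos (by norm_num)
  have e : (1 / 2 : ℝ) ^ n = Real.exp (-(Real.log 2) * n) := by
    rw [mul_comm, Real.exp_nat_mul, Real.exp_neg, Real.exp_log (by norm_num), one_div]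
  rw [e, Real.exp_le_exp]
  have : (N : ℝ) ≤ 2 * n := by exact_mod_cast h
  nlinarith

theorem many_box {C η : ℝ} (hC : 0 < C) (hη : 0 < η) : ∃ N0 : ℕ, ∀ N : ℕ, N0 ≤ N →
    ∀ (P : Measure Env) [IsProbabilityMeasure P] (E : V → Set Env) (n : ℕ), N ≤ 2 * n →
      (∀ x, P.real (E x) ≤ C * (1 / 2) ^ n) → P.real {ω | ∃ x ∈ box 0 N, ω ∈ E x} ≤ η := by
  have h2 : (0 : ℝ) < Real.log 2 / 2 := by
    have := Real.log_pos (show (1 : ℝ) < 2 by norm_num)
    positivity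
  obtain ⟨N0, h⟩ := poly_geom_small (4 * C) (Real.log 2 / 2) h2 2 hη
  refine ⟨N0, fun N hN P _ E n hn hE => le_trans (prob_fin' P _ E fun x _ => hE x) ?_⟩
  refine le_trans ?_ (h N hN)
  rw [card_box]
  push_cast
  have a1 := half_pow_le n N hn
  have a2 : (2 * (N : ℝ) + 1) ^ 2 ≤ 4 * (N + 1) ^ 2 := by
    have : (0 : ℝ) ≤ N := Nat.cast_nonneg N
    nlinarith
  calc _ ≤ 4 * ((N : ℝ) + 1) ^ 2 * (C * Real.exp (-(Real.log 2 / 2) * N)) :=
        mul_le_mul a2 (mul_le_mul_of_nonneg_left a1 hC.le) (by positivity) (by positivity)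
    _ = _ := by ring

theorem len_ge_of_bd {S : Set V} {N n : ℕ} {a z : V} {l : List V} (hl : IsPth S a z l)
    (ha : Bd 0 N a) (hz : Near n z 0) : N - n ≤ len l := by
  have h := hl.chain.near (le_refl 0) (Nat.zero_le _) le_rfl
  rw [hl.start, hl.stop, Nat.sub_zero] at h
  obtain ⟨-, ho⟩ := ha
  unfold Near at h hz
  unfold Out at ho
  simp only [Prod.fst_zero, Prod.snd_zero] at *
  omega

theorem base_prob (M : Model) {μ : Seminorm ℝ (ℝ × ℝ)} (hμ : Shape M μ) :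
    ∃ C1 c2 : ℝ, 0 < C1 ∧ 0 < c2 ∧ ∀ η : ℝ, 0 < η → ∃ N0 : ℕ, ∀ N : ℕ, N0 ≤ N →
      (PP M.G).real {ω | ¬ Base (M.Ψ ω) C1 c2 N} ≤ η := by
  obtain ⟨η0, C, hη0, hC, hmany⟩ := many_small 0 (δ := 1 / 2) (by norm_num)
  obtain ⟨κ, hκ, hκ1, hlow⟩ := M.low_small hη0
  have hm := M.m_nonneg
  obtain ⟨C1, hC1⟩ := exists_nat_gt (2 * (4 * M.m + 1) / κ)
  have hC1' : 2 * (4 * M.m + 1) < C1 * κ := by rwa [div_lt_iff₀ hκ] at hC1
  have hC1p : (0 : ℝ) < C1 := lt_trans (by positivity) hC1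
  have hC1n : 1 ≤ C1 := by exact_mod_cast hC1p
  refine ⟨C1, κ / (8 * (M.m + 1)), hC1p, by positivity, fun η hη => ?_⟩
  obtain ⟨N1, h1⟩ := ul_two M hμ (δ := κ / 16) (η := η / 3) (by positivity) (by positivity)
  obtain ⟨N2, h2⟩ := many_box (η := η / 3) hC (by positivity)
  obtain ⟨N3, h3⟩ := exists_nat_ge (16 / κ)
  refine ⟨N1 + N2 + N3 + 8, fun N hN => ?_⟩
  have hN1 : 1 ≤ N := by omega
  have hNr : (0 : ℝ) < N := by exact_mod_cast hN1
  have p1 := h1 N (by omega) N hN1 le_rfl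
  have p2 := h2 N (by omega) (PP M.G) _ (C1 * N) (by nlinarith)
    (hmany M.G _ measurableSet_Iio hlow (C1 * N))
  have p3 := h2 N (by omega) (PP M.G) _ (N - (N / 8 + 1)) (by omega)
    (hmany M.G _ measurableSet_Iio hlow (N - (N / 8 + 1)))
  have p0 : (PP M.G).real {ω | ¬ Uniq Set.univ (M.Ψ ω)} = 0 := by
    rw [measureReal_eq_zero_iff, ← ae_iff]
    exact uniq_ae M
  refine le_trans (measureReal_mono ?_) (le_trans (measureReal_union_le _ _)
    (le_trans (add_le_add p0.le (le_trans (measureReal_union_le _ _) (add_le_add p1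
      (le_trans (measureReal_union_le _ _) (add_le_add p2 p3))))) (le_of_eq (by ring))))
  intro ω hω
  by_contra hc
  have ht := M.nonneg ω
  have hl : ∀ e, κ ≤ ω e → κ ≤ M.Ψ ω e := fun e he => M.le_of_le hκ1 he
  have hT : ∀ a b, Bd 0 N a → Bd 0 N b →
      T (bx 0 N) (M.Ψ ω) a b ≤ 2 * M.m * N * ‖nv N a b‖ + κ / 16 * N := by
    intro a b ha hb
    have q1 : |T (bx 0 N) (M.Ψ ω) a b - μ (cv b - cv a)| ≤ κ / 16 * N :=
      not_lt.mp fun h => hc (Or.inr (Or.inl ⟨a, b, ha, hb, h⟩))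
    have q2 := hμ.bound (cv b - cv a)
    have q3 : ‖cv b - cv a‖ = N * ‖nv N a b‖ := by
      unfold nv
      rw [norm_smul, norm_inv, Real.norm_natCast]
      field_simp
    rw [q3] at q2
    have := (abs_le.mp q1).2
    linarith
  refine hω ⟨Uniq.mono (not_not.mp fun h => hc (Or.inl h)) (Set.subset_univ _), ?_, ?_⟩
  · intro a b l ha hb hg
    by_contra hlen
    have q0 : C1 * N ≤ len l := by
      have : ((C1 * N : ℕ) : ℝ) ≤ len l := by push_cast; linarith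
      exact_mod_cast this
    have q1 := wt_ge_of_not_many hκ.le ht hl hg.1 q0
      fun h => hc (Or.inr (Or.inr (Or.inl ⟨a, mem_box.mpr ha.1, h⟩)))
    rw [hg.wt_eq ht] at q1
    have q2 := hT a b ha hb
    have q3 := norm_nv_le ha.1 hb.1
    have q4 : 2 * M.m * N * ‖nv N a b‖ ≤ 2 * M.m * N * 2 :=
      mul_le_mul_of_nonneg_left q3 (by positivity)
    push_cast at q1
    have q5 := mul_lt_mul_of_pos_right hC1' hNr
    have q6 : κ / 16 * N ≤ N := by nlinarith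
    nlinarith
  · intro a b z ha hb hz hex
    have hzN : Near N z 0 := hz.mono (by omega)
    have q1 : κ * ((N - (N / 8 + 1) : ℕ) : ℝ) / 2 ≤ T (bx 0 N) (M.Ψ ω) a z :=
      le_T (reach_bx ha.1 hzN) fun l hp => wt_ge_of_not_many hκ.le ht hl hp
        (len_ge_of_bd hp ha hz) fun h => hc (Or.inr (Or.inr (Or.inr ⟨a, mem_box.mpr ha.1, h⟩)))
    have q2 := hT a b ha hb
    have q3 := T_nonneg (bx 0 N) ht z b
    have q4 : 3 * (N : ℝ) ≤ 4 * ((N - (N / 8 + 1) : ℕ) : ℝ) := by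
      have : 3 * N ≤ 4 * (N - (N / 8 + 1)) := by omega
      exact_mod_cast this
    have q5 : 16 ≤ κ * N := by
      have : 16 / κ ≤ N := le_trans h3 (by exact_mod_cast (by omega))
      rw [div_le_iff₀ hκ] at this
      linarith
    have q6 : κ * (3 * N) ≤ κ * (4 * ((N - (N / 8 + 1) : ℕ) : ℝ)) :=
      mul_le_mul_of_nonneg_left q4 hκ.le
    have q7 : κ / 4 * N ≤ 2 * (M.m + 1) * ‖nv N a b‖ * N := by
      have := mul_nonneg hNr.le (norm_nonneg (nv N a b))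
      nlinarith
    have q8 := le_of_mul_le_mul_right q7 hNr
    rw [div_le_iff₀ (by positivity)]
    linarith

end Vale.Agent.P158b
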