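import Vale.Agent.P158b.PathA

/-! The boundary parametrisation and the rotation lemma. -/

open MeasureTheory ProbabilityTheory Finset
open scoped Classical

namespace Vale.Agent.P158b

theorem bv_period (N : ℕ) (α k : ℤ) : bv N (α + 8 * N * k) = bv N α := by
  unfold bv
  rw [Int.add_mul_emod_self_left]

private theorem emod_bounds {N : ℕ} (hN : 1 ≤ N) (α : ℤ) :
    0 ≤ α % (8 * N) ∧ α % (8 * N) < 8 * N :=
  ⟨Int.emod_nonneg _ (by omega), Int.emod_lt_of_pos _ (by omega)⟩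

private theorem emod_succ {N : ℕ} (hN : 1 ≤ N) (α : ℤ) :
    ((α + 1) % (8 * N) = α % (8 * N) + 1 ∧ α % (8 * N) + 1 < 8 * N) ∨
      ((α + 1) % (8 * N) = 0 ∧ α % (8 * N) + 1 = 8 * N) := by
  obtain ⟨h0, h1⟩ := emod_bounds hN α
  have h : (α + 1) % (8 * N) = (α % (8 * N) + 1) % (8 * N) := by
    rw [Int.emod_add_emod]
  rcases lt_or_eq_of_le (Int.add_one_le_of_lt h1) with h2 | h2
  · left
    exact ⟨by rw [h, Int.emod_eq_of_lt (by omega) h2], h2⟩
  · right
    exact ⟨by rw [h, h2, Int.emod_self], h2⟩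

theorem bv_bd {N : ℕ} (hN : 1 ≤ N) (α : ℤ) : Bd 0 N (bv N α) := by
  obtain ⟨h0, h1⟩ := emod_bounds hN α
  unfold bv Bd Near Out
  generalize α % (8 * N) = r at h0 h1
  split_ifs <;> simp only [Prod.fst_zero, Prod.snd_zero] <;> omega

theorem bv_adj {N : ℕ} (hN : 1 ≤ N) (α : ℤ) : Adj (bv N α) (bv N (α + 1)) := by
  obtain ⟨h0, h1⟩ := emod_bounds hN α
  have h2 := emod_succ hN α
  unfold bv Adj
  generalize α % (8 * N) = r at h0 h1 h2
  generalize (α + 1) % (8 * N) = s at h2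
  split_ifs <;> dsimp only <;> omega

private theorem bv_of_lt {N : ℕ} {α : ℤ} (h0 : 0 ≤ α) (h1 : α < 8 * N) :
    bv N α = if α < 2 * N then (-(N : ℤ) + α, -(N : ℤ))
      else if α < 4 * N then ((N : ℤ), -(N : ℤ) + (α - 2 * N))
      else if α < 6 * N then ((N : ℤ) - (α - 4 * N), (N : ℤ))
      else (-(N : ℤ), (N : ℤ) - (α - 6 * N)) := by
  unfold bv
  rw [Int.emod_eq_of_lt h0 h1]

theorem bv_surj {N : ℕ} (hN : 1 ≤ N) {x : V} (hx : Bd 0 N x) :
    ∃ α : ℤ, 0 ≤ α ∧ α < 8 * N ∧ bv N α = x := by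
  obtain ⟨x, y⟩ := x
  unfold Bd Near Out at hx
  simp only [Prod.fst_zero, Prod.snd_zero] at hx
  by_cases h1 : y = -N ∧ x < N
  · refine ⟨x + N, by omega, by omega, ?_⟩
    rw [bv_of_lt (by omega) (by omega), if_pos (by omega)]
    exact Prod.ext (by dsimp only; omega) (by dsimp only; omega)
  by_cases h2 : x = N ∧ y < N
  · refine ⟨y + 3 * N, by omega, by omega, ?_⟩
    rw [bv_of_lt (by omega) (by omega), if_neg (by omega), if_pos (by omega)]
    exact Prod.ext (by dsimp only; omega) (by dsimp only; omega)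
  by_cases h3 : y = N ∧ -N < x
  · refine ⟨5 * N - x, by omega, by omega, ?_⟩
    rw [bv_of_lt (by omega) (by omega), if_neg (by omega), if_neg (by omega), if_pos (by omega)]
    exact Prod.ext (by dsimp only; omega) (by dsimp only; omega)
  · refine ⟨7 * N - y, by omega, by omega, ?_⟩
    rw [bv_of_lt (by omega) (by omega), if_neg (by omega), if_neg (by omega), if_neg (by omega)]
    exact Prod.ext (by dsimp only; omega) (by dsimp only; omega)

private theorem bv_near_nat {N : ℕ} (hN : 1 ≤ N) (α : ℤ) (n : ℕ) :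
    Near n (bv N α) (bv N (α + n)) := by
  induction n with
  | zero =>
    rw [Nat.cast_zero, add_zero]
    exact Near.refl _ _
  | succ n ih =>
    have h := ih.trans (bv_adj hN (α + n)).near
    rw [Nat.cast_succ, ← add_assoc]
    exact h

theorem bv_near {N : ℕ} (hN : 1 ≤ N) (α β : ℤ) : Near (β - α).natAbs (bv N α) (bv N β) := by
  rcases le_total α β with h | h
  · have h1 := bv_near_nat hN α (β - α).natAbs
    have h2 : α + ((β - α).natAbs : ℤ) = β := by omega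
    rwa [h2] at h1
  · have h1 := bv_near_nat hN β (β - α).natAbs
    have h2 : β + ((β - α).natAbs : ℤ) = α := by omega
    rw [h2] at h1
    exact h1.symm

theorem card_bd (c : V) (n : ℕ) : ((box c n).filter (Bd c n)).card ≤ 8 * n + 1 := by
  rcases Nat.eq_zero_or_pos n with rfl | hn
  · refine (card_filter_le _ _).trans ?_
    rw [card_box]
    norm_num
  · have hsub : (box c n).filter (Bd c n) ⊆
        (Ico (0 : ℤ) (8 * n)).image fun α => bv n α + c := by
      intro x hx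
      have hb : Bd c n x := (mem_filter.1 hx).2
      have hb' : Bd 0 n (x - c) := by
        unfold Bd Near Out at hb ⊢
        simp only [Prod.fst_zero, Prod.snd_zero, Prod.fst_sub, Prod.snd_sub]
        omega
      obtain ⟨α, h0, h1, h2⟩ := bv_surj hn hb'
      exact mem_image.2 ⟨α, mem_Ico.2 ⟨h0, h1⟩, by rw [h2, sub_add_cancel]⟩
    refine (card_le_card hsub).trans (card_image_le.trans ?_)
    rw [Int.card_Ico]
    omega

theorem norm_nv_le {N : ℕ} {a b : V} (ha : Near N a 0) (hb : Near N b 0) : ‖nv N a b‖ ≤ 2 := by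
  have h := near_iff_norm.1 (hb.trans ha.symm)
  unfold nv
  rw [norm_smul, norm_inv, Real.norm_natCast]
  rcases Nat.eq_zero_or_pos N with rfl | hN
  · simp
  · have hN' : (0 : ℝ) < N := by exact_mod_cast hN
    rw [inv_mul_le_iff₀ hN']
    push_cast at h
    linarith

private theorem reach_ring_le {N : ℕ} (hN : 1 ≤ N) {S : Set V} (hS : ∀ x, Bd 0 N x → x ∈ S)
    (α : ℤ) (n : ℕ) : Reach S (bv N α) (bv N (α + n)) := by
  have hc : Chain S (fun k : ℕ => bv N (α + k)) 0 n := by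
    refine ⟨fun k _ _ => ?_, fun k _ _ => hS _ (bv_bd hN _)⟩
    have h := bv_adj hN (α + k)
    simp only [Nat.cast_succ, ← add_assoc]
    exact h
  have h := reach_of_chain (Nat.zero_le n) hc
  simp only [Nat.cast_zero, add_zero] at h
  exact h

/-- two boundary points are joined by a walk on the boundary -/
theorem reach_ring {N : ℕ} (hN : 1 ≤ N) {S : Set V} (hS : ∀ x, Bd 0 N x → x ∈ S) {a b : V}
    (ha : Bd 0 N a) (hb : Bd 0 N b) : Reach S a b := by
  obtain ⟨α, -, -, rfl⟩ := bv_surj hN ha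
  obtain ⟨β, -, -, rfl⟩ := bv_surj hN hb
  rcases le_total α β with h | h
  · have h1 := reach_ring_le hN hS α (β - α).natAbs
    have h2 : α + ((β - α).natAbs : ℤ) = β := by omega
    rwa [h2] at h1
  · have h1 := reach_ring_le hN hS β (β - α).natAbs
    have h2 : β + ((β - α).natAbs : ℤ) = α := by omega
    rw [h2] at h1
    exact h1.symm

private theorem near_one {N : ℕ} (hN : 1 ≤ N) {α β : ℤ} (k : ℤ) (h1 : β + 8 * N * k ≤ α + 1)
    (h2 : α ≤ β + 8 * N * k + 1) : Near 1 (bv N α) (bv N β) := by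
  rw [← bv_period N β k]
  exact (bv_near hN _ _).mono (by omega)

private theorem rotation_aux {N : ℕ} (hN : 1 ≤ N) (P : V → V → Prop)
    (h1 : ∀ a b c, P a b → P c a → False) (h2 : ∀ a b, P a b → ¬ Near 1 a b) {α0 β0 : ℤ}
    (h3 : α0 ≤ β0) (h4 : β0 ≤ α0 + 8 * N) (hab : P (bv N α0) (bv N β0)) :
    ∃ α β : ℤ, α + 1 < β ∧ β + 1 < α + 8 * N ∧ P (bv N α) (bv N β) ∧
      ¬ P (bv N α) (bv N (β + 1)) ∧ ¬ P (bv N (α + 1)) (bv N β) := by
  have hr : ∀ α β : ℤ, α ≤ β → β ≤ α + 8 * N → P (bv N α) (bv N β) →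
      α + 1 < β ∧ β + 1 < α + 8 * N := by
    intro α β ha hb hP
    constructor
    · by_contra hc
      exact h2 _ _ hP (near_one hN 0 (by omega) (by omega))
    · by_contra hc
      exact h2 _ _ hP (near_one hN (-1) (by omega) (by omega))
  obtain ⟨h5, h6⟩ := hr _ _ h3 h4 hab
  set A : Finset (ℤ × ℤ) := (Ico α0 β0 ×ˢ Icc α0 (β0 + 8 * N)).filter fun c =>
    c.1 ≤ c.2 ∧ c.2 ≤ c.1 + 8 * N ∧ P (bv N c.1) (bv N c.2) with hA
  have hmem : ∀ α β : ℤ, (α, β) ∈ A ↔
      α0 ≤ α ∧ α < β0 ∧ α ≤ β ∧ β ≤ α + 8 * N ∧ P (bv N α) (bv N β) := by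
    intro α β
    rw [hA, mem_filter, mem_product, mem_Ico, mem_Icc]
    constructor
    · rintro ⟨⟨⟨a1, a2⟩, -⟩, a3, a4, a5⟩
      exact ⟨a1, a2, a3, a4, a5⟩
    · rintro ⟨a1, a2, a3, a4, a5⟩
      exact ⟨⟨⟨a1, a2⟩, by dsimp only; omega, by dsimp only; omega⟩, a3, a4, a5⟩
  have hne : A.Nonempty := ⟨(α0, β0), (hmem _ _).2 ⟨le_rfl, by omega, h3, h4, hab⟩⟩
  obtain ⟨⟨α, β⟩, hc, hmax⟩ := exists_max_image A (fun c => c.1 + c.2) hne
  obtain ⟨a1, a2, a3, a4, a5⟩ := (hmem _ _).1 hc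
  obtain ⟨a6, a7⟩ := hr _ _ a3 a4 a5
  refine ⟨α, β, a6, a7, a5, fun hP => ?_, fun hP => ?_⟩
  · have h := hmax _ ((hmem α (β + 1)).2 ⟨a1, a2, by omega, by omega, hP⟩)
    dsimp only at h
    omega
  · rcases lt_or_eq_of_le (Int.add_one_le_of_lt a2) with h7 | h7
    · have h := hmax _ ((hmem (α + 1) β).2 ⟨by omega, h7, by omega, by omega, hP⟩)
      dsimp only at h
      omega
    · rw [h7] at hP
      exact h1 _ _ _ hP hab

/-- Rotation lemma. Lift `a, b` to `α0 < β0 < α0 + 8N`. Among the finitely many pairs with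
`α0 ≤ α < β0`, `α + 1 < β`, `β + 1 < α + 8N` and `P (bv α) (bv β)` take one with maximal `α + β`.
`h1` forbids the reversed orientation for the two neighbours, and `α + 1 = β0` (because of
`P (bv α0) (bv β0)`); `h2` keeps the neighbours in range. Normalise with `bv_period`. -/
theorem rotation {N : ℕ} (hN : 1 ≤ N) (P : V → V → Prop) (h1 : ∀ a b c, P a b → P c a → False)
    (h2 : ∀ a b, P a b → ¬ Near 1 a b) {a b : V} (ha : Bd 0 N a) (hb : Bd 0 N b) (hab : P a b) :
    ∃ α β : ℤ, 0 ≤ α ∧ α < 8 * N ∧ α + 1 < β ∧ β + 1 < α + 8 * N ∧ P (bv N α) (bv N β) ∧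
      ¬ P (bv N α) (bv N (β + 1)) ∧ ¬ P (bv N (β + 1)) (bv N α) ∧
      ¬ P (bv N (α + 1)) (bv N β) ∧ ¬ P (bv N β) (bv N (α + 1)) := by
  obtain ⟨α0, p1, p2, rfl⟩ := bv_surj hN ha
  obtain ⟨β0, q1, q2, rfl⟩ := bv_surj hN hb
  have key : ∃ α β : ℤ, α + 1 < β ∧ β + 1 < α + 8 * N ∧ P (bv N α) (bv N β) ∧
      ¬ P (bv N α) (bv N (β + 1)) ∧ ¬ P (bv N (α + 1)) (bv N β) := by
    rcases le_total α0 β0 with h | h
    · exact rotation_aux hN P h1 h2 h (by omega) hab
    · rw [← bv_period N β0 1] at hab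
      exact rotation_aux hN P h1 h2 (by omega) (by omega) hab
  obtain ⟨α, β, a1, a2, a3, a4, a5⟩ := key
  obtain ⟨b1, b2⟩ := emod_bounds hN α
  have hdiv : α % (8 * N) = α + 8 * N * (-(α / (8 * N))) := by
    have := Int.emod_add_mul_ediv α (8 * N)
    linarith
  generalize -(α / (8 * N)) = k at hdiv
  have e1 : bv N (α + 8 * N * k + 1) = bv N (α + 1) := by
    rw [add_right_comm, bv_period]
  have e2 : bv N (β + 8 * N * k + 1) = bv N (β + 1) := by
    rw [add_right_comm, bv_period]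
  refine ⟨α + 8 * N * k, β + 8 * N * k, by omega, by omega, by omega, by omega, ?_⟩
  rw [e1, e2, bv_period, bv_period]
  exact ⟨a3, a4, fun h => h1 _ _ _ a3 h, a5, fun h => h1 _ _ _ h a3⟩

end Vale.Agent.P158b
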