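import Vale.Agent.P158b.L1
import Vale.Agent.P158b.Bdry

/-! Uniform convergence in probability over boundary points. -/

open MeasureTheory ProbabilityTheory Finset
open scoped Classical

namespace Vale.Agent.P158b

theorem markov_real {P : Measure Env} [IsProbabilityMeasure P] {f : Env → ℝ} (h0 : ∀ ω, 0 ≤ f ω)
    (hi : Integrable f P) {a b : ℝ} (ha : 0 < a) (hb : ∫ ω, f ω ∂P ≤ b) :
    P.real {ω | a ≤ f ω} ≤ b / a := by
  have := mul_meas_ge_le_integral_of_nonneg (Filter.Eventually.of_forall h0) hi a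
  rw [le_div_iff₀ ha]
  linarith

theorem prob_fin' {ι : Type} (P : Measure Env) [IsProbabilityMeasure P] (I : Finset ι)
    (E : ι → Set Env) {p : ℝ} (h : ∀ i ∈ I, P.real (E i) ≤ p) :
    P.real {ω | ∃ i ∈ I, ω ∈ E i} ≤ I.card * p := by
  have e1 : {ω | ∃ i ∈ I, ω ∈ E i} = ⋃ i ∈ I, E i := by
    ext ω
    simp only [Set.mem_ofPred_eq, Set.mem_iUnion, exists_prop]
  rw [e1]
  refine le_trans (measureReal_biUnion_finset_le I E) ?_
  rw [← nsmul_eq_mul]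
  exact Finset.sum_le_card_nsmul _ _ _ h

theorem ring_walk {t : Env} (ht : ∀ e, 0 ≤ t e) {h N : ℕ} (hh : 1 ≤ h) (hN : h ≤ N) {α β : ℤ}
    (h0 : 0 ≤ α) (hab : α ≤ β) (hb : β ≤ 8 * h) (K : ℝ) :
    T (bx 0 N) t (bv h α) (bv h β) ≤ ((β : ℝ) - α) * K +
      ∑ γ ∈ Ico (0 : ℤ) (8 * h), max (t s(bv h γ, bv h (γ + 1)) - K) 0 := by
  obtain ⟨n, rfl⟩ : ∃ n : ℕ, β = α + n := ⟨(β - α).toNat, by omega⟩
  have hc : Chain (bx 0 N) (fun k : ℕ => bv h (α + k)) 0 n := by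
    refine ⟨fun k _ _ => ?_, fun k _ _ => (bv_bd hh _).1.mono hN⟩
    have := bv_adj hh (α + k)
    push_cast
    rwa [← add_assoc]
  have h1 := T_le_W ht (Nat.zero_le n) hc
  simp only [Nat.cast_zero, add_zero] at h1
  refine le_trans h1 ?_
  unfold W
  have h2 : ∑ k ∈ Ico 0 n, t s(bv h (α + (k : ℕ)), bv h (α + ((k + 1 : ℕ) : ℤ))) ≤
      ∑ k ∈ Ico 0 n, (K + max (t s(bv h (α + (k : ℕ)), bv h (α + k + 1)) - K) 0) := by
    refine Finset.sum_le_sum fun k _ => ?_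
    push_cast
    rw [← add_assoc]
    have := le_max_left (t s(bv h (α + k), bv h (α + k + 1)) - K) 0
    linarith
  refine le_trans h2 ?_
  rw [Finset.sum_add_distrib, Finset.sum_const, Nat.card_Ico, nsmul_eq_mul]
  refine add_le_add (le_of_eq (by rw [Nat.sub_zero]; push_cast; ring)) ?_
  have h3 : ∑ k ∈ Ico 0 n, max (t s(bv h (α + (k : ℕ)), bv h (α + k + 1)) - K) 0 =
      ∑ γ ∈ (Ico 0 n).image (fun k : ℕ => α + k), max (t s(bv h γ, bv h (γ + 1)) - K) 0 := by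
    rw [Finset.sum_image]
    intro a _ b _ hab
    have : α + (a : ℤ) = α + b := hab
    omega
  rw [h3]
  refine Finset.sum_le_sum_of_subset_of_nonneg ?_ fun _ _ _ => le_max_right _ _
  intro γ hγ
  obtain ⟨k, hk, rfl⟩ := Finset.mem_image.mp hγ
  rw [Finset.mem_Ico] at hk ⊢
  omega

theorem ring_small (M : Model) {δ η : ℝ} (hδ : 0 < δ) (hη : 0 < η) :
    ∃ ζ : ℝ, 0 < ζ ∧ ∃ N0 : ℕ, ∀ N : ℕ, N0 ≤ N → ∀ h : ℕ, 1 ≤ h → h ≤ N →
      (PP M.G).real {ω | ∃ α β : ℤ, 0 ≤ α ∧ α ≤ β ∧ β ≤ 8 * h ∧ (β : ℝ) - α ≤ ζ * N ∧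
        δ * N < T (bx 0 N) (M.Ψ ω) (bv h α) (bv h β)} ≤ η := by
  obtain ⟨K, hK, hT⟩ := tail_mean_small M (η := δ * η / 16) (by positivity)
  refine ⟨δ / (2 * K), by positivity, 1, fun N hN h hh hhN => ?_⟩
  have hNr : (0 : ℝ) < N := by exact_mod_cast hN
  have hi : ∀ γ ∈ Ico (0 : ℤ) (8 * h),
      Integrable (fun ω => max (M.Ψ ω s(bv h γ, bv h (γ + 1)) - K) 0) (PP M.G) :=
    fun γ _ => ((M.integ _ _ (bv_adj hh γ)).sub (integrable_const K)).pos_part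
  have hm : ∫ ω, ∑ γ ∈ Ico (0 : ℤ) (8 * h), max (M.Ψ ω s(bv h γ, bv h (γ + 1)) - K) 0 ∂(PP M.G) ≤
      δ * N / 2 * η := by
    rw [integral_finsetSum _ hi]
    refine le_trans (Finset.sum_le_card_nsmul _ _ _ fun γ _ => hT _ _ (bv_adj hh γ)) ?_
    rw [Int.card_Ico, nsmul_eq_mul]
    have e1 : (8 * (h : ℤ) - 0).toNat = 8 * h := by omega
    rw [e1]
    have : (h : ℝ) ≤ N := by exact_mod_cast hhN
    push_cast
    have h2 : 0 < δ * η := by positivity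
    nlinarith
  have hk := markov_real (fun ω => Finset.sum_nonneg fun γ _ => le_max_right _ _)
    (integrable_finsetSum _ hi) (a := δ * N / 2) (by positivity) hm
  refine le_trans (measureReal_mono ?_) (le_trans hk (le_of_eq (by field_simp)))
  rintro ω ⟨α, β, a0, a1, a2, a3, a4⟩
  have h1 := ring_walk (M.nonneg ω) hh hhN a0 a1 a2 K
  have h2 : ((β : ℝ) - α) * K ≤ δ / (2 * K) * N * K := mul_le_mul_of_nonneg_right a3 hK.le
  have h3 : δ / (2 * K) * N * K = δ * N / 2 := by field_simp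
  show δ * N / 2 ≤ _
  linarith

theorem net_close {μ : Seminorm ℝ (ℝ × ℝ)} {m : ℝ} (hm0 : 0 ≤ m) (hm : ∀ x, μ x ≤ m * ‖x‖)
    {t : Env} (ht : ∀ e, 0 ≤ t e) {N K : ℕ} {x x' y y' : V} (hx : Near N x 0) (hx' : Near N x' 0)
    (hy : Near N y 0) (hy' : Near N y' 0) {a : ℝ} (h1 : T (bx 0 N) t x' x ≤ a)
    (h2 : T (bx 0 N) t y' y ≤ a) (k1 : Near K x' x) (k2 : Near K y' y)
    (h3 : |T (bx 0 N) t x' y' - μ (cv y' - cv x')| ≤ a) (h4 : 2 * m * K ≤ a) :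
    |T (bx 0 N) t x y - μ (cv y - cv x)| ≤ 4 * a := by
  have t1 := T_triangle ht (reach_bx hx hx') (reach_bx hx' hy)
  have t2 := T_triangle ht (reach_bx hx' hy') (reach_bx hy' hy)
  have t3 := T_triangle ht (reach_bx hx' hx) (reach_bx hx hy')
  have t4 := T_triangle ht (reach_bx hx hy) (reach_bx hy hy')
  have s1 := T_symm (bx 0 N) ht x x'
  have s2 := T_symm (bx 0 N) ht y y'
  have n1 := near_iff_norm.mp k1
  have n2 := near_iff_norm.mp k2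
  have u : |μ (cv y' - cv x') - μ (cv y - cv x)| ≤ a := by
    have v1 := abs_sub_map_le_sub μ (cv y' - cv x') (cv y - cv x)
    have e : cv y' - cv x' - (cv y - cv x) = (cv y' - cv y) - (cv x' - cv x) := by abel
    have v2 := hm (cv y' - cv x' - (cv y - cv x))
    have v3 : ‖cv y' - cv x' - (cv y - cv x)‖ ≤ 2 * K := by
      rw [e]
      have := norm_sub_le (cv y' - cv y) (cv x' - cv x)
      linarith
    have v4 := mul_le_mul_of_nonneg_left v3 hm0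
    linarith
  have b1 := abs_le.mp h3
  have b2 := abs_le.mp u
  rw [abs_le]
  constructor <;> linarith [b1.1, b1.2, b2.1, b2.2]

theorem ring_net {h K : ℕ} (hh : 1 ≤ h) (hK : 1 ≤ K) {x : V} (hx : Bd 0 h x) :
    ∃ i ∈ range (8 * h / K + 1), ∃ α : ℤ, bv h α = x ∧ (K * i : ℤ) ≤ α ∧ α ≤ 8 * h ∧
      α - K * i ≤ K := by
  obtain ⟨α, a0, a1, rfl⟩ := bv_surj hh hx
  obtain ⟨n, rfl⟩ : ∃ n : ℕ, α = n := ⟨α.toNat, by omega⟩
  have h1 := Nat.div_add_mod n K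
  have h2 := Nat.mod_lt n hK
  refine ⟨n / K, Finset.mem_range.mpr (Nat.lt_succ_of_le (Nat.div_le_div_right (by omega))), n, rfl,
    ?_, a1.le, ?_⟩
  · have : K * (n / K) ≤ n := by omega
    exact_mod_cast this
  · have : n ≤ K + K * (n / K) := by omega
    have h3 : (n : ℤ) ≤ K + K * ((n / K : ℕ) : ℤ) := by exact_mod_cast this
    linarith

theorem net_prob (M : Model) {μ : Seminorm ℝ (ℝ × ℝ)} {N : ℕ} {a b : ℝ} (ha : 0 < a)
    (hb : ∀ x y, Near N x 0 → Near N y 0 →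
      ∫ ω, |T (bx 0 N) (M.Ψ ω) x y - μ (cv y - cv x)| ∂(PP M.G) ≤ b) {ι : Type} (I : Finset ι)
    (X Y : ι → V) (hX : ∀ i, Near N (X i) 0) (hY : ∀ i, Near N (Y i) 0) :
    (PP M.G).real {ω | ∃ i ∈ I, ω ∈ {ω | a ≤ |T (bx 0 N) (M.Ψ ω) (X i) (Y i) -
      μ (cv (Y i) - cv (X i))|}} ≤ I.card * (b / a) :=
  prob_fin' _ _ _ fun i _ => markov_real (fun _ => abs_nonneg _)
    ((integrable_T M (reach_bx (hX i) (hY i))).sub (integrable_const _)).abs ha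
    (hb _ _ (hX i) (hY i))

/-- common choice of the mesh -/
theorem mesh (M : Model) {μ : Seminorm ℝ (ℝ × ℝ)} (hμ : Shape M μ) {δ η : ℝ} (hδ : 0 < δ)
    (hη : 0 < η) : ∃ N0 : ℕ, ∀ N : ℕ, N0 ≤ N → 1 ≤ N ∧ ∃ (K : ℕ) (b : ℝ), 1 ≤ K ∧
      2 * (2 * M.m) * K ≤ δ * N ∧ 0 ≤ b ∧
      ((8 * N / K + 1 : ℕ) : ℝ) ^ 2 * (b / (δ * N)) ≤ η ∧
      (∀ x y, Near N x 0 → Near N y 0 →
        ∫ ω, |T (bx 0 N) (M.Ψ ω) x y - μ (cv y - cv x)| ∂(PP M.G) ≤ b) ∧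
      ∀ h : ℕ, 1 ≤ h → h ≤ N →
        (PP M.G).real {ω | ∃ α β : ℤ, 0 ≤ α ∧ α ≤ β ∧ β ≤ 8 * h ∧ β - α ≤ K ∧
          δ * N < T (bx 0 N) (M.Ψ ω) (bv h α) (bv h β)} ≤ η := by
  obtain ⟨ζ, hζ, N1, h1⟩ := ring_small M hδ hη
  have hm := M.m_nonneg
  set z := min ζ (δ / (4 * (M.m + 1))) with hz
  have hz0 : 0 < z := lt_min hζ (by positivity)
  obtain ⟨N2, h2⟩ := l1_conv M hμ (δ := δ * η / (16 / z + 1) ^ 2) (by positivity)
  obtain ⟨N3, h3⟩ := exists_nat_ge (2 / z)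
  refine ⟨N1 + N2 + N3 + 1, fun N hN => ⟨by omega, ⌊z * N⌋₊, δ * η / (16 / z + 1) ^ 2 * N, ?_⟩⟩
  have hNr : (0 : ℝ) < N := by exact_mod_cast (by omega)
  have h4 : 2 ≤ z * N := by
    have : 2 / z ≤ N := le_trans h3 (by exact_mod_cast (by omega))
    rw [div_le_iff₀ hz0] at this
    linarith
  have f1 : (⌊z * N⌋₊ : ℝ) ≤ z * N := Nat.floor_le (by positivity)
  have f2 : z * N < ⌊z * N⌋₊ + 1 := Nat.lt_floor_add_one _
  have f3 : (0 : ℝ) < ⌊z * N⌋₊ := by linarith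
  refine ⟨by exact_mod_cast f3, ?_, by positivity, ?_, h2 N (by omega), fun h hh hhN => ?_⟩
  · have g1 : z ≤ δ / (4 * (M.m + 1)) := min_le_right _ _
    rw [le_div_iff₀ (by positivity)] at g1
    have g2 : 2 * (2 * M.m) * (⌊z * N⌋₊ : ℝ) ≤ 4 * (M.m + 1) * (z * N) :=
      mul_le_mul (by linarith) f1 f3.le (by positivity)
    nlinarith
  · have g1 : ((8 * N / ⌊z * N⌋₊ + 1 : ℕ) : ℝ) ≤ 16 / z + 1 := by
      push_cast
      have g2 : ((8 * N / ⌊z * N⌋₊ : ℕ) : ℝ) ≤ ((8 * N : ℕ) : ℝ) / (⌊z * N⌋₊ : ℝ) := Nat.cast_div_le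
      have g3 : ((8 * N : ℕ) : ℝ) / (⌊z * N⌋₊ : ℝ) ≤ 16 / z := by
        rw [div_le_div_iff₀ f3 hz0]
        push_cast
        linarith
      linarith
    calc _ ≤ (16 / z + 1) ^ 2 * (δ * η / (16 / z + 1) ^ 2 * N / (δ * N)) :=
          mul_le_mul_of_nonneg_right (pow_le_pow_left₀ (Nat.cast_nonneg _) g1 2) (by positivity)
      _ = η := by field_simp
  · refine le_trans (measureReal_mono ?_) (h1 N (by omega) h hh hhN)
    rintro ω ⟨α, β, a0, a1, a2, a3, a4⟩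
    refine ⟨α, β, a0, a1, a2, ?_, a4⟩
    have g1 : (β : ℝ) - α ≤ (⌊z * N⌋₊ : ℝ) := by exact_mod_cast a3
    have g2 : z * N ≤ ζ * N := mul_le_mul_of_nonneg_right (min_le_left _ _) hNr.le
    linarith

theorem near_net {h K : ℕ} (hh : 1 ≤ h) {α β : ℤ} (h1 : α ≤ β) (h2 : β - α ≤ K) :
    Near K (bv h α) (bv h β) := (bv_near hh α β).mono (by omega)

theorem ul_two (M : Model) {μ : Seminorm ℝ (ℝ × ℝ)} (hμ : Shape M μ) {δ η : ℝ} (hδ : 0 < δ)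
    (hη : 0 < η) : ∃ N0 : ℕ, ∀ N : ℕ, N0 ≤ N → ∀ h : ℕ, 1 ≤ h → h ≤ N →
      (PP M.G).real {ω | ∃ x y, Bd 0 h x ∧ Bd 0 N y ∧
        δ * N < |T (bx 0 N) (M.Ψ ω) x y - μ (cv y - cv x)|} ≤ η := by
  obtain ⟨N0, h0⟩ := mesh M hμ (δ := δ / 4) (η := η / 3) (by positivity) (by positivity)
  refine ⟨N0, fun N hN h hh hhN => ?_⟩
  obtain ⟨hN1, K, b, hK, k1, hb0, k2, k3, k4⟩ := h0 N hN
  have hNr : (0 : ℝ) < N := by exact_mod_cast hN1
  have p1 := k4 h hh hhN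
  have p2 := k4 N hN1 le_rfl
  have p3 := net_prob M (μ := μ) (a := δ / 4 * N) (by positivity) k3
    (range (8 * N / K + 1) ×ˢ range (8 * N / K + 1)) (fun i => bv h (K * i.1))
    (fun i => bv N (K * i.2)) (fun i => (bv_bd hh _).1.mono hhN) (fun i => (bv_bd hN1 _).1)
  rw [Finset.card_product, Finset.card_range, Nat.cast_mul, ← sq] at p3
  refine le_trans (measureReal_mono ?_) (le_trans (measureReal_union_le _ _)
    (le_trans (add_le_add p1 (le_trans (measureReal_union_le _ _)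
      (add_le_add p2 (le_trans p3 k2)))) (le_of_eq (by ring))))
  rintro ω ⟨x, y, hx, hy, hlt⟩
  by_contra hc
  obtain ⟨i, hi, α, rfl, a1, a2, a3⟩ := ring_net hh hK hx
  obtain ⟨j, hj, β, rfl, b1, b2, b3⟩ := ring_net hN1 hK hy
  have hi' : i ∈ range (8 * N / K + 1) := by
    rw [Finset.mem_range] at hi ⊢
    have := Nat.div_le_div_right (c := K) (Nat.mul_le_mul_left 8 hhN)
    omega
  have q := net_close (by linarith [M.m_nonneg]) hμ.bound (M.nonneg ω) (hx.1.mono hhN)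
    ((bv_bd hh (K * i)).1.mono hhN) hy.1 (bv_bd hN1 (K * j)).1 (a := δ / 4 * N)
    (not_lt.mp fun hh' => hc (Or.inl ⟨_, _, by positivity, a1, a2, a3, hh'⟩))
    (not_lt.mp fun hh' => hc (Or.inr (Or.inl ⟨_, _, by positivity, b1, b2, b3, hh'⟩)))
    (near_net hh a1 a3) (near_net hN1 b1 b3)
    (le_of_lt (not_le.mp fun hh' => hc (Or.inr (Or.inr
      ⟨(i, j), Finset.mem_product.mpr ⟨hi', hj⟩, hh'⟩)))) k1
  linarith

theorem ul_one (M : Model) {μ : Seminorm ℝ (ℝ × ℝ)} (hμ : Shape M μ) {δ η : ℝ} (hδ : 0 < δ)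
    (hη : 0 < η) : ∃ N0 : ℕ, ∀ N : ℕ, N0 ≤ N → ∀ x, Near N x 0 →
      (PP M.G).real {ω | ∃ y, Bd 0 N y ∧
        δ * N < |T (bx 0 N) (M.Ψ ω) x y - μ (cv y - cv x)|} ≤ η := by
  obtain ⟨N0, h0⟩ := mesh M hμ (δ := δ / 4) (η := η / 2) (by positivity) (by positivity)
  refine ⟨N0, fun N hN x hx => ?_⟩
  obtain ⟨hN1, K, b, hK, k1, hb0, k2, k3, k4⟩ := h0 N hN
  have hNr : (0 : ℝ) < N := by exact_mod_cast hN1
  have p2 := k4 N hN1 le_rfl
  have p3 := net_prob M (μ := μ) (a := δ / 4 * N) (by positivity) k3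
    (range (8 * N / K + 1)) (fun _ => x) (fun i => bv N (K * i)) (fun _ => hx)
    (fun i => (bv_bd hN1 _).1)
  rw [Finset.card_range] at p3
  have k5 : ((8 * N / K + 1 : ℕ) : ℝ) * (b / (δ / 4 * N)) ≤ η / 2 := by
    refine le_trans (mul_le_mul_of_nonneg_right ?_ (by positivity)) k2
    exact_mod_cast Nat.le_self_pow two_ne_zero _
  refine le_trans (measureReal_mono ?_) (le_trans (measureReal_union_le _ _)
    (le_trans (add_le_add p2 (le_trans p3 k5)) (le_of_eq (by ring))))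
  rintro ω ⟨y, hy, hlt⟩
  by_contra hc
  obtain ⟨j, hj, β, rfl, b1, b2, b3⟩ := ring_net hN1 hK hy
  have q := net_close (by linarith [M.m_nonneg]) hμ.bound (M.nonneg ω) hx hx hy.1
    (bv_bd hN1 (K * j)).1 (a := δ / 4 * N)
    (by rw [T_self (M.nonneg ω) hx]; positivity)
    (not_lt.mp fun hh' => hc (Or.inl ⟨_, _, by positivity, b1, b2, b3, hh'⟩))
    (Near.refl K x) (near_net hN1 b1 b3)
    (le_of_lt (not_le.mp fun hh' => hc (Or.inr ⟨j, hj, hh'⟩))) k1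
  linarith

end Vale.Agent.P158b
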