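import Vale.Agent.P158b.BlockA
import Vale.Agent.P158b.UL

/-! Few bad blocks along any sequence of blocks. -/

open MeasureTheory ProbabilityTheory Finset
open scoped Classical

namespace Vale.Agent.P158b

private theorem noBadSeq_mono {B B' : V → Prop} (hB : ∀ q, B q → B' q) {N : ℕ} {J0 j0 : ℝ}
    (h : NoBadSeq B' N J0 j0) : NoBadSeq B N J0 j0 := fun J q h1 h2 h3 =>
  lt_of_le_of_lt (Nat.cast_le.2 (card_le_card fun x hx =>
    mem_filter.2 ⟨(mem_filter.1 hx).1, hB x (mem_filter.1 hx).2⟩)) (h J q h1 h2 h3)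

private theorem bd_sub {c x : V} {n : ℕ} (h : Bd c n x) : Bd 0 n (x - c) := by
  simp only [Bd, Near, Out, Prod.fst_sub, Prod.snd_sub, Prod.fst_zero, Prod.snd_zero] at h ⊢
  omega

private theorem cv_sub_sub (c x y : V) : cv (y - c) - cv (x - c) = cv y - cv x := by
  simp only [cv, Prod.fst_sub, Prod.snd_sub, Prod.mk_sub_mk, Int.cast_sub, Prod.mk.injEq]
  constructor <;> ring

/-- a single block is rarely bad for the local weights -/
private theorem badBlk_loc_small (M : Model) {μ : Seminorm ℝ (ℝ × ℝ)} (hμ : Shape M μ) {δ η : ℝ}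
    (hδ : 0 < δ) (hη : 0 < η) : ∃ h : ℕ, 1 ≤ h ∧ ∀ q,
      (PP M.G).real {ω | BadBlk (M.loc h ω) μ δ h q} ≤ η := by
  obtain ⟨N1, hN1⟩ := ul_two M hμ hδ (half_pos hη)
  obtain ⟨N2, hN2⟩ := poly_geom_small (144 * |M.C|) (Real.log 2) (Real.log_pos one_lt_two) 2
    (half_pos hη)
  refine ⟨N1 + N2 + 1, by omega, fun q => ?_⟩
  set h : ℕ := N1 + N2 + 1 with hh
  set c : V := ctr h q with hc
  have hE := hN1 (3 * h) (by omega) h (by omega) (by omega)
  set E : Set Env := {ω | ∃ x y, Bd 0 h x ∧ Bd 0 (3 * h) y ∧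
    δ * (3 * h : ℕ) < |T (bx 0 (3 * h)) (M.Ψ ω) x y - μ (cv y - cv x)|} with hEdef
  have hsub : {ω | BadBlk (M.loc h ω) μ δ h q} ⊆
      (⋃ e ∈ edgesOf (box c (3 * h)), {ω | M.loc h ω e ≠ M.Ψ ω e}) ∪ trans c ⁻¹' E := by
    rintro ω ⟨x, y, hx, hy, hT⟩
    by_cases hall : ∀ e ∈ edgesOf (box c (3 * h)), M.loc h ω e = M.Ψ ω e
    · right
      refine ⟨x - c, y - c, bd_sub hx, bd_sub hy, ?_⟩
      have e1 : T (bx c (3 * h)) (M.loc h ω) x y = T (bx c (3 * h)) (M.Ψ ω) x y :=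
        T_congr (fun a b ha _ hab => hall _ (mem_edgesOf.2 ⟨a, mem_box.2 ha, b, hab, rfl⟩)) x y
      have e2 := T_trans_bx (M.Ψ ω) 0 (x - c) (y - c) c (3 * h)
      rw [zero_add, sub_add_cancel, sub_add_cancel] at e2
      rw [M.cov, ← e2, ← e1, cv_sub_sub]
      refine lt_abs.2 (Or.inr ?_)
      push_cast
      linarith
    · left
      push Not at hall
      obtain ⟨e, he, hne⟩ := hall
      exact Set.mem_biUnion he hne
  have h1 : (PP M.G).real (trans c ⁻¹' E) ≤ η / 2 := by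
    refine le_trans ?_ hE
    have := Measure.le_map_apply (trans_mp M.G c).measurable.aemeasurable E (μ := PP M.G)
    rw [(trans_mp M.G c).map_eq] at this
    exact ENNReal.toReal_mono (measure_ne_top _ _) this
  have h2 : (PP M.G).real (⋃ e ∈ edgesOf (box c (3 * h)), {ω | M.loc h ω e ≠ M.Ψ ω e}) ≤ η / 2 := by
    refine (measureReal_biUnion_finset_le _ _).trans ?_
    refine (sum_le_card_nsmul _ _ (|M.C| * (1 / 2) ^ h) fun e he => ?_).trans ?_
    · obtain ⟨x, -, y, hxy, rfl⟩ := mem_edgesOf.1 he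
      exact (M.loc_prob h x y hxy).trans
        (mul_le_mul_of_nonneg_right (le_abs_self _) (by positivity))
    · refine le_trans ?_ (hN2 h (by omega))
      have hcard : ((edgesOf (box c (3 * h))).card : ℝ) ≤ 4 * (2 * (3 * h) + 1) ^ 2 := by
        have := card_edgesOf (box c (3 * h))
        rw [card_box] at this
        exact_mod_cast this
      have e : Real.exp (-Real.log 2 * h) = (1 / 2) ^ h := by
        rw [mul_comm, Real.exp_nat_mul, Real.exp_neg, Real.exp_log two_pos, one_div]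
      have hh0 : (0 : ℝ) ≤ h := Nat.cast_nonneg h
      rw [nsmul_eq_mul, e]
      calc ((edgesOf (box c (3 * h))).card : ℝ) * (|M.C| * (1 / 2) ^ h)
          ≤ (144 * (h + 1) ^ 2) * (|M.C| * (1 / 2) ^ h) :=
            mul_le_mul_of_nonneg_right (hcard.trans (by nlinarith)) (by positivity)
        _ = 144 * |M.C| * (h + 1) ^ 2 * (1 / 2) ^ h := by ring
  refine (measureReal_mono hsub (measure_ne_top _ _)).trans ((measureReal_union_le _ _).trans ?_)
  linarith

/-- `block_abs` with `A q = {BadBlk (loc h ω) μ δ h q}`: measurable (countable union), local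
(`T_loc_dep`), contains `BadBlk (Ψ ω)` (`T_mono_wt`), and has small probability: off
`∃ e ∈ edgesOf (box (ctr h q) (3h)), loc h ω e ≠ Ψ ω e` (probability `≤ 4 (6h+1)^2 C 2⁻ʰ`) it is
`BadBlk (Ψ ω)` (`T_congr`), which is a translate of the event of `ul_two` with `N = 3 h`. -/
theorem block_small (M : Model) {μ : Seminorm ℝ (ℝ × ℝ)} (hμ : Shape M μ) {δ ζ C : ℝ}
    (hδ : 0 < δ) (hζ : 0 < ζ) (hC : 0 ≤ C) : ∃ h : ℕ, 1 ≤ h ∧ ∀ η : ℝ, 0 < η →
      ∃ N0 : ℕ, ∀ N : ℕ, N0 ≤ N → (PP M.G).real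
        {ω | ¬ NoBadSeq (BadBlk (M.Ψ ω) μ δ h) N (C * N / h) (ζ * N / h)} ≤ η := by
  obtain ⟨η1, hη1, H⟩ := block_abs hζ hC
  obtain ⟨h, hh, hp⟩ := badBlk_loc_small M hμ hδ hη1
  refine ⟨h, hh, fun η hη => ?_⟩
  have hm : ∀ q, MeasurableSet {ω | BadBlk (M.loc h ω) μ δ h q} := fun q => by
    refine measurableSet_setOfPred.2 (Measurable.exists fun x => Measurable.exists fun y =>
      measurable_const.and (measurable_const.and (measurableSet_setOfPred.1 ?_)))
    exact measurableSet_lt ((measurable_T _ x y).comp (M.loc_meas h)) measurable_const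
  have hd : ∀ q (ω ω' : Env), (∀ e ∈ edgesOf (box (ctr h q) (4 * h)), ω e = ω' e) →
      ω ∈ {ω | BadBlk (M.loc h ω) μ δ h q} → ω' ∈ {ω | BadBlk (M.loc h ω) μ δ h q} := by
    rintro q ω ω' he ⟨x, y, hx, hy, hT⟩
    refine ⟨x, y, hx, hy, ?_⟩
    rw [show 4 * h = 3 * h + h by ring] at he
    rw [← T_loc_dep M (ctr h q) x y (3 * h) h he]
    exact hT
  obtain ⟨N0, hN0⟩ := H M.G h hh (fun q => {ω | BadBlk (M.loc h ω) μ δ h q}) hm hp hd η hη
  refine ⟨N0, fun N hN => le_trans (measureReal_mono ?_ (measure_ne_top _ _)) (hN0 N hN)⟩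
  intro ω hω hc
  refine hω (noBadSeq_mono (fun q hq => ?_) hc)
  obtain ⟨x, y, hx, hy, hT⟩ := hq
  exact ⟨x, y, hx, hy, (T_mono_wt _ (M.loc_nonneg h ω) (M.loc_le h ω) x y).trans_lt hT⟩

end Vale.Agent.P158b
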