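import Vale.Agent.P158b.Fam

/-! A Peierls bound for sequences of bad blocks. -/

open MeasureTheory ProbabilityTheory Finset
open scoped Classical

namespace Vale.Agent.P158b

/-- distinct blocks of the same colour have disjoint edge sets -/
private theorem blk_disjoint {h : ℕ} (hh : 1 ≤ h) {q q' : V} (hne : q ≠ q')
    (h1 : q.1 % 5 = q'.1 % 5) (h2 : q.2 % 5 = q'.2 % 5) :
    Disjoint (edgesOf (box (ctr h q) (4 * h))) (edgesOf (box (ctr h q') (4 * h))) := by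
  rw [Finset.disjoint_left]
  intro e he he'
  obtain ⟨x, hx, y, hxy, rfl⟩ := mem_edgesOf.1 he
  obtain ⟨x', hx', y', hxy', e'⟩ := mem_edgesOf.1 he'
  have hn : Near 1 x x' := by
    rcases Sym2.eq_iff.1 e' with ⟨e1, _⟩ | ⟨_, e2⟩
    · rw [e1]; exact Near.refl _ _
    · rw [← e2]; exact hxy.near
  have a1 := mem_box.1 hx
  have a2 := mem_box.1 hx'
  have hh' : (1 : ℤ) ≤ h := by exact_mod_cast hh
  simp only [Near, ctr] at hn a1 a2
  push_cast at hn a1 a2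
  obtain ⟨b1, b2, b3, b4⟩ := hn
  obtain ⟨c1, c2, c3, c4⟩ := a1
  obtain ⟨d1, d2, d3, d4⟩ := a2
  have key : q.1 + 5 ≤ q'.1 ∨ q'.1 + 5 ≤ q.1 ∨ q.2 + 5 ≤ q'.2 ∨ q'.2 + 5 ≤ q.2 := by
    have : q.1 ≠ q'.1 ∨ q.2 ≠ q'.2 := by
      by_contra hc
      push Not at hc
      exact hne (Prod.ext hc.1 hc.2)
    omega
  rcases key with k | k | k | k <;> nlinarith

/-- a large set of blocks has a large subset of one colour -/
private theorem blk_colour (B : Finset V) {b : ℝ} (hb : 25 * b ≤ B.card) :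
    ∃ I ⊆ B, b ≤ I.card ∧ ∀ q ∈ I, ∀ q' ∈ I, q.1 % 5 = q'.1 % 5 ∧ q.2 % 5 = q'.2 % 5 := by
  have hmap : ∀ q ∈ B, (q.1 % 5, q.2 % 5) ∈ (Ico (0 : ℤ) 5 ×ˢ Ico (0 : ℤ) 5) := by
    intro q _
    simp only [mem_product, mem_Ico]
    omega
  have hne : (Ico (0 : ℤ) 5 ×ˢ Ico (0 : ℤ) 5).Nonempty := ⟨(0, 0), by simp⟩
  have hc : (Ico (0 : ℤ) 5 ×ˢ Ico (0 : ℤ) 5).card = 25 := by simp
  obtain ⟨y, -, hy⟩ := exists_le_card_fiber_of_nsmul_le_card_of_maps_to (b := b) hmap hne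
    (by rw [hc, nsmul_eq_mul]; exact_mod_cast hb)
  refine ⟨_, filter_subset _ _, hy, fun q hq q' hq' => ?_⟩
  have e := (mem_filter.1 hq).2.trans (mem_filter.1 hq').2.symm
  exact ⟨congrArg Prod.fst e, congrArg Prod.snd e⟩

/-- `exists_fam (box 0 N) 2 ⌊C N / h⌋₊`; a set with at least `ζ N / h` bad blocks has a colour class
(coordinates mod 5) with at least `ζ N / (25 h)` of them; union over the subsets;
`inter_le_of_dep` with `edgesOf_box_disjoint`-type disjointness (centres at distance `≥ 10 h`).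
The bound is `2 (2N+1)^2 * 50 ^ (C N / h) * η1 ^ (ζ N / (25 h))`; choose `η1` with
`50 ^ C * η1 ^ (ζ / 25) ≤ exp (-1)`; `poly_geom_small`. -/
theorem block_abs {ζ C : ℝ} (hζ : 0 < ζ) (hC : 0 ≤ C) :
    ∃ η1 : ℝ, 0 < η1 ∧ ∀ (G : Measure ℝ) [IsProbabilityMeasure G] (h : ℕ), 1 ≤ h →
      ∀ (A : V → Set Env), (∀ q, MeasurableSet (A q)) → (∀ q, (PP G).real (A q) ≤ η1) →
      (∀ q (ω ω' : Env), (∀ e ∈ edgesOf (box (ctr h q) (4 * h)), ω e = ω' e) → ω ∈ A q →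
        ω' ∈ A q) →
      ∀ η : ℝ, 0 < η → ∃ N0 : ℕ, ∀ N : ℕ, N0 ≤ N →
        (PP G).real {ω | ¬ NoBadSeq (fun q => ω ∈ A q) N (C * N / h) (ζ * N / h)} ≤ η := by
  have hL : 0 ≤ Real.log 50 := Real.log_nonneg (by norm_num)
  set a : ℝ := 25 / ζ * (1 + C * Real.log 50) with ha
  have ha0 : 0 ≤ a := by positivity
  refine ⟨Real.exp (-a), Real.exp_pos _, fun G _ h hh A hA hp hdep η hη => ?_⟩
  have hh0 : (0 : ℝ) < h := by exact_mod_cast hh
  obtain ⟨N0, hN0⟩ := poly_geom_small 8 (1 / h) (by positivity) 2 hη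
  refine ⟨N0, fun N hN => le_trans ?_ (hN0 N hN)⟩
  set J0 : ℕ := ⌊C * N / h⌋₊ with hJ0
  have hJ : (J0 : ℝ) ≤ C * N / h := Nat.floor_le (by positivity)
  obtain ⟨F, hF1, hF2, hF3⟩ := exists_fam (box 0 N) 2 J0
  set b : ℝ := ζ * N / (25 * h) with hb
  let good : Finset V → Prop := fun I =>
    b ≤ I.card ∧ ∀ q ∈ I, ∀ q' ∈ I, q.1 % 5 = q'.1 % 5 ∧ q.2 % 5 = q'.2 % 5
  have hsub : {ω | ¬ NoBadSeq (fun q => ω ∈ A q) N (C * N / h) (ζ * N / h)} ⊆
      ⋃ S ∈ F, ⋃ I ∈ S.powerset.filter good, {ω | ∀ q ∈ I, ω ∈ A q} := by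
    intro ω hω
    simp only [NoBadSeq, Set.mem_ofPred_eq, not_forall, not_lt] at hω
    obtain ⟨J, q, hJ1, hq0, hq, hcard⟩ := hω
    have hS := hF3 q J (Nat.le_floor hJ1) (mem_box.2 hq0) hq
    obtain ⟨I, hI1, hI2, hI3⟩ := blk_colour _ (b := b) (le_trans (le_of_eq (by
      rw [hb]; field_simp)) hcard)
    simp only [Set.mem_iUnion]
    exact ⟨_, hS, I, mem_filter.2 ⟨mem_powerset.2 (hI1.trans (filter_subset _ _)), hI2, hI3⟩,
      fun x hx => (mem_filter.1 (hI1 hx)).2⟩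
  have hone : ∀ I, good I → (PP G).real {ω | ∀ q ∈ I, ω ∈ A q} ≤ Real.exp (-(a * b)) := by
    intro I hI
    refine (inter_le_of_dep I A (fun q => edgesOf (box (ctr h q) (4 * h))) (fun q _ => hA q)
      (fun q hq q' hq' hne => blk_disjoint hh hne (hI.2 q hq q' hq').1 (hI.2 q hq q' hq').2)
      (fun q _ => hdep q) (Real.exp_pos _).le (fun q _ => hp q)).trans ?_
    rw [← Real.exp_nat_mul]
    exact Real.exp_le_exp.2 (by nlinarith [mul_le_mul_of_nonneg_left hI.1 ha0])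
  have hS : ∀ S ∈ F, (PP G).real (⋃ I ∈ S.powerset.filter good, {ω | ∀ q ∈ I, ω ∈ A q}) ≤
      2 ^ (J0 + 1) * Real.exp (-(a * b)) := by
    intro S hS
    refine (measureReal_biUnion_finset_le _ _).trans ?_
    refine (sum_le_card_nsmul _ _ _ fun I hI => hone I (mem_filter.1 hI).2).trans ?_
    rw [nsmul_eq_mul]
    refine mul_le_mul_of_nonneg_right ?_ (Real.exp_pos _).le
    have : (S.powerset.filter good).card ≤ 2 ^ (J0 + 1) :=
      (card_filter_le _ _).trans (by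
        rw [card_powerset]; exact Nat.pow_le_pow_right (by norm_num) (hF2 S hS))
    exact_mod_cast this
  refine (measureReal_mono hsub (measure_ne_top _ _)).trans ((measureReal_biUnion_finset_le _ _).trans ?_)
  refine (sum_le_card_nsmul _ _ _ hS).trans ?_
  rw [nsmul_eq_mul]
  have hF1' : (F.card : ℝ) ≤ (2 * N + 1) ^ 2 * 25 ^ J0 := by
    rw [card_box, pow_mul] at hF1
    exact_mod_cast hF1
  have h50 : (50 : ℝ) ^ J0 * Real.exp (-(a * b)) ≤ Real.exp (-(1 / h) * N) := by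
    rw [← Real.exp_log (show (0 : ℝ) < 50 by norm_num), ← Real.exp_nat_mul, ← Real.exp_add]
    refine Real.exp_le_exp.2 ?_
    have e : a * b = N / h + C * N / h * Real.log 50 := by
      rw [ha, hb]; field_simp
    have := mul_le_mul_of_nonneg_right hJ hL
    rw [e]
    have e2 : -(1 / (h : ℝ)) * N = -(N / h) := by ring
    rw [e2]
    linarith
  have hN' : (0 : ℝ) ≤ N := Nat.cast_nonneg N
  calc (F.card : ℝ) * (2 ^ (J0 + 1) * Real.exp (-(a * b)))
      ≤ (2 * N + 1) ^ 2 * 25 ^ J0 * (2 ^ (J0 + 1) * Real.exp (-(a * b))) :=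
        mul_le_mul_of_nonneg_right hF1' (by positivity)
    _ = 2 * (2 * N + 1) ^ 2 * (50 ^ J0 * Real.exp (-(a * b))) := by
        rw [show (50 : ℝ) = 25 * 2 by norm_num, mul_pow]; ring
    _ ≤ 8 * (N + 1) ^ 2 * Real.exp (-(1 / h) * N) :=
        mul_le_mul (by nlinarith) h50 (by positivity) (by positivity)

end Vale.Agent.P158b
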