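import Vale.Agent.P158b.PathB

/-! Staircases, translations, extraction of chords, measurability. -/

open MeasureTheory ProbabilityTheory Finset
open scoped Classical

namespace Vale.Agent.P158b

private theorem sign_cases (d : ℤ) :
    (0 < d ∧ d.sign = 1) ∨ (d = 0 ∧ d.sign = 0) ∨ (d < 0 ∧ d.sign = -1) := by
  rcases lt_trichotomy d 0 with h | h | h
  · exact Or.inr (Or.inr ⟨h, Int.sign_eq_neg_one_of_neg h⟩)
  · exact Or.inr (Or.inl ⟨h, by rw [h]; rfl⟩)
  · exact Or.inl ⟨h, Int.sign_eq_one_of_pos h⟩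

private theorem stair_cases (x y : V) (k : ℕ) :
    (k ≤ (y.1 - x.1).natAbs ∧ (stair x y k).2 = x.2 ∧
      ((x.1 < y.1 ∧ (stair x y k).1 = x.1 + k) ∨ (x.1 = y.1 ∧ (stair x y k).1 = x.1) ∨
        (y.1 < x.1 ∧ (stair x y k).1 = x.1 - k))) ∨
    ((y.1 - x.1).natAbs < k ∧ (stair x y k).1 = y.1 ∧
      ((x.2 < y.2 ∧ (stair x y k).2 = x.2 + (k - (y.1 - x.1).natAbs)) ∨
        (x.2 = y.2 ∧ (stair x y k).2 = x.2) ∨
        (y.2 < x.2 ∧ (stair x y k).2 = x.2 - (k - (y.1 - x.1).natAbs)))) := by
  unfold stair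
  split_ifs with h
  · refine Or.inl ⟨h, rfl, ?_⟩
    rcases sign_cases (y.1 - x.1) with ⟨h1, h2⟩ | ⟨h1, h2⟩ | ⟨h1, h2⟩ <;> simp only [h2] <;> omega
  · refine Or.inr ⟨not_le.1 h, rfl, ?_⟩
    rcases sign_cases (y.2 - x.2) with ⟨h1, h2⟩ | ⟨h1, h2⟩ | ⟨h1, h2⟩ <;> simp only [h2] <;> omega

theorem stair_zero (x y : V) : stair x y 0 = x := by
  have := stair_cases x y 0
  exact Prod.ext (by omega) (by omega)

theorem stair_end (x y : V) : stair x y (dl1 x y) = y := by
  have := stair_cases x y (dl1 x y)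
  have e : dl1 x y = (x.1 - y.1).natAbs + (x.2 - y.2).natAbs := rfl
  exact Prod.ext (by omega) (by omega)

/-- the staircase stays in every box containing both ends -/
theorem stair_chain {c x y : V} {n : ℕ} (hx : Near n x c) (hy : Near n y c) :
    Chain (bx c n) (stair x y) 0 (dl1 x y) := by
  have e : dl1 x y = (x.1 - y.1).natAbs + (x.2 - y.2).natAbs := rfl
  refine ⟨fun k _ hk => ?_, fun k _ hk => ?_⟩
  · have h1 := stair_cases x y k
    have h2 := stair_cases x y (k + 1)
    unfold Adj
    omega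
  · have h1 := stair_cases x y k
    change Near n _ c
    unfold Near at hx hy ⊢
    omega

theorem stair_inj (x y : V) {i j : ℕ} (hi : i ≤ dl1 x y) (hj : j ≤ dl1 x y)
    (h : stair x y i = stair x y j) : i = j := by
  have e : dl1 x y = (x.1 - y.1).natAbs + (x.2 - y.2).natAbs := rfl
  have h1 := stair_cases x y i
  have h2 := stair_cases x y j
  rw [h] at h1
  omega

theorem dl1_le {r : ℕ} {x y : V} (h : Near r x y) : dl1 x y ≤ 2 * r := by
  unfold Near at h
  unfold dl1
  omega

theorem reach_bx {c x y : V} {n : ℕ} (hx : Near n x c) (hy : Near n y c) :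
    Reach (bx c n) x y := by
  have := reach_of_chain (Nat.zero_le _) (stair_chain hx hy)
  rwa [stair_zero, stair_end] at this

theorem reach_univ (x y : V) : Reach Set.univ x y := by
  have hy : Near (dl1 x y) y x := by
    unfold Near dl1
    omega
  obtain ⟨l, hl⟩ := reach_bx (Near.refl (dl1 x y) x) hy
  exact ⟨l, hl.mono (Set.subset_univ _)⟩

private theorem chain_edge {S : Set V} {x y : V} (hx : x ∈ S) (hy : y ∈ S) (h : Adj x y) :
    Chain S (fun k => if k = 0 then x else y) 0 1 := by
  refine ⟨fun k _ hk => ?_, fun k _ _ => ?_⟩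
  · have : k = 0 := by omega
    subst this
    simpa using h
  · beta_reduce
    split_ifs
    · exact hx
    · exact hy

private theorem W_succ (t : Env) (f : ℕ → V) (i : ℕ) :
    W t f i (i + 1) = t s(f i, f (i + 1)) := by
  simp [W]

theorem T_adj_le {S : Set V} {t : Env} (ht : ∀ e, 0 ≤ t e) {x y : V} (hx : x ∈ S) (hy : y ∈ S)
    (h : Adj x y) : T S t x y ≤ t s(x, y) := by
  have := T_le_W ht zero_le_one (chain_edge hx hy h)
  rw [show (1 : ℕ) = 0 + 1 from rfl, W_succ] at this
  simpa using this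

private theorem vx_map {l : List V} (hl : l ≠ []) (g : V → V) {i : ℕ} (hi : i ≤ len l) :
    vx (l.map g) i = g (vx l i) := by
  have h1 : 0 < l.length := List.length_pos_iff.2 hl
  have h2 : i < l.length := by
    unfold len at hi
    omega
  unfold vx
  rw [List.getD_eq_getElem _ _ h2, List.getD_eq_getElem _ _ (by simpa using h2), List.getElem_map]

private theorem len_map (l : List V) (g : V → V) : len (l.map g) = len l := by
  simp [len]

private theorem pth_map {S S' : Set V} {v a b : V} {l : List V} (hS : ∀ x ∈ S, x + v ∈ S')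
    (h : IsPth S a b l) : IsPth S' (a + v) (b + v) (l.map fun x => x + v) where
  ne := by simpa using h.ne
  start := by rw [vx_map h.ne _ (Nat.zero_le _), h.start]
  stop := by rw [len_map, vx_map h.ne _ le_rfl, h.stop]
  chain := by
    rw [len_map]
    refine ⟨fun k h0 hk => ?_, fun k h0 hk => ?_⟩
    · rw [vx_map h.ne _ hk.le, vx_map h.ne _ (show k + 1 ≤ len l from hk)]
      have := h.chain.1 k h0 hk
      unfold Adj at this ⊢
      simp only [Prod.fst_add, Prod.snd_add]
      omega
    · rw [vx_map h.ne _ hk]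
      exact hS _ (h.chain.2 k h0 hk)
  inj i j hi hj hij := by
    rw [len_map] at hi hj
    rw [vx_map h.ne _ hi, vx_map h.ne _ hj] at hij
    exact h.inj i j hi hj (add_right_cancel hij)

private theorem wt_map (t : Env) (v : V) {l : List V} (hl : l ≠ []) :
    wt t (l.map fun x => x + v) = wt (trans v t) l := by
  unfold wt W
  rw [len_map]
  refine sum_congr rfl fun k hk => ?_
  have hk' := (mem_Ico.1 hk).2
  rw [vx_map hl _ hk'.le, vx_map hl _ hk']
  rfl

private theorem trans_neg (t : Env) (v : V) : trans (-v) (trans v t) = t := by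
  funext e
  unfold trans
  rw [Sym2.map_map]
  have : ((fun x : V => x + v) ∘ fun x => x + -v) = id := by
    funext x
    simp
  rw [this, Sym2.map_id, id]

private theorem T_trans {S S' : Set V} {v : V} (hS : ∀ x, x ∈ S ↔ x + v ∈ S') (t : Env)
    (a b : V) : T S' t (a + v) (b + v) = T S (trans v t) a b := by
  unfold T iInf
  congr 1
  ext r
  constructor
  · rintro ⟨⟨l, hl⟩, rfl⟩
    have h1 := pth_map (S' := S) (v := -v) (fun x hx => (hS _).2 (by simpa using hx)) hl
    rw [add_neg_cancel_right, add_neg_cancel_right] at h1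
    refine ⟨⟨_, h1⟩, ?_⟩
    beta_reduce
    rw [wt_map _ _ hl.ne, trans_neg]
  · rintro ⟨⟨l, hl⟩, rfl⟩
    exact ⟨⟨_, pth_map (fun x hx => (hS x).1 hx) hl⟩, wt_map _ _ hl.ne⟩

private theorem near_add {r : ℕ} {x y : V} (v : V) : Near r (x + v) (y + v) ↔ Near r x y := by
  unfold Near
  simp only [Prod.fst_add, Prod.snd_add]
  omega

private theorem bd_add {n : ℕ} {c x : V} (v : V) : Bd (c + v) n (x + v) ↔ Bd c n x := by
  unfold Bd Near Out
  simp only [Prod.fst_add, Prod.snd_add]
  omega

/-- translation covariance (map paths by `List.map (· + v)`; `vx` commutes on `[0, len]`) -/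
theorem T_trans_bx (t : Env) (c a b v : V) (n : ℕ) :
    T (bx (c + v) n) t (a + v) (b + v) = T (bx c n) (trans v t) a b :=
  T_trans (fun _ => (near_add v).symm) t a b

theorem T_trans_univ (t : Env) (a b v : V) :
    T Set.univ t (a + v) (b + v) = T Set.univ (trans v t) a b :=
  T_trans (fun _ => Iff.rfl) t a b

theorem covE_trans (t : Env) (c x w v : V) (n : ℕ) :
    CovE (c + v) n (x + v) (w + v) t ↔ CovE c n x w (trans v t) := by
  have e : trans v t s(x, w) = t s(x + v, w + v) := rfl
  constructor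
  · rintro ⟨a, b, ha, hb, h⟩
    obtain ⟨a, rfl⟩ : ∃ a', a = a' + v := ⟨a - v, (sub_add_cancel a v).symm⟩
    obtain ⟨b, rfl⟩ : ∃ b', b = b' + v := ⟨b - v, (sub_add_cancel b v).symm⟩
    rw [T_trans_bx, T_trans_bx, T_trans_bx, ← e] at h
    exact ⟨a, b, (bd_add v).1 ha, (bd_add v).1 hb, h⟩
  · rintro ⟨a, b, ha, hb, h⟩
    refine ⟨a + v, b + v, (bd_add v).2 ha, (bd_add v).2 hb, ?_⟩
    rw [T_trans_bx, T_trans_bx, T_trans_bx, ← e]
    exact h

theorem ca_trans (t : Env) (x w v : V) : CA (x + v) (w + v) t ↔ CA x w (trans v t) :=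
  forall_congr' fun n => imp_congr_right fun _ => covE_trans t x x w v n

private theorem near_of_not_out {c x : V} {n : ℕ} (h : ¬ Out c n x) : Near n x c := by
  unfold Out at h
  unfold Near
  omega

private theorem near_of_adj {c x y : V} {n : ℕ} (h : ¬ Out c n x) (hxy : Adj x y) :
    Near n y c := by
  unfold Out at h
  unfold Adj at hxy
  unfold Near
  omega

/-- Extraction of a chord from a minimal walk. Take the last position `j0 ≤ i` and the first
position `j1 ≥ i + 1` with `Out c n`; the walk on `[j0, j1]` stays in the closed box and its ends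
are `Bd c n`. `T_le_W` bounds the two left-hand passage times by `W j0 i`, `W (i+1) j1`; and
`W j0 j1 ≤ T S (f j0) (f j1) ≤ T (bx c n) ..` by the triangle inequality and `T_mono_set`. -/
theorem extract {S : Set V} {t : Env} (ht : ∀ e, 0 ≤ t e) {c : V} {n : ℕ} (hS : bx c n ⊆ S)
    {f : ℕ → V} {L i : ℕ} (hi : i < L) (hc : Chain S f 0 L)
    (hmin : W t f 0 L ≤ T S t (f 0) (f L)) (hx : Near n (f i) c) (hw : Near n (f (i + 1)) c)
    (h0 : Out c n (f 0)) (hL : Out c n (f L)) : CovE c n (f i) (f (i + 1)) t := by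
  obtain ⟨j0, hj0, ho0, hn0⟩ : ∃ j0, j0 ≤ i ∧ Out c n (f j0) ∧
      ∀ k, j0 < k → k ≤ i → ¬ Out c n (f k) :=
    ⟨Nat.findGreatest (fun j => Out c n (f j)) i, Nat.findGreatest_le i,
      Nat.findGreatest_spec (P := fun j => Out c n (f j)) (Nat.zero_le i) h0,
      fun k h1 h2 => Nat.findGreatest_is_greatest (P := fun j => Out c n (f j)) h1 h2⟩
  obtain ⟨j1, hj1, hj1', ho1, hn1⟩ : ∃ j1, i + 1 ≤ j1 ∧ j1 ≤ L ∧ Out c n (f j1) ∧
      ∀ k, i + 1 ≤ k → k < j1 → ¬ Out c n (f k) := by
    have hex : ∃ j, i + 1 ≤ j ∧ Out c n (f j) := ⟨L, hi, hL⟩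
    exact ⟨Nat.find hex, (Nat.find_spec hex).1, Nat.find_min' hex ⟨hi, hL⟩, (Nat.find_spec hex).2,
      fun k h1 h2 h3 => Nat.find_min hex h2 ⟨h1, h3⟩⟩
  have hin : ∀ k, j0 ≤ k → k ≤ j1 → Near n (f k) c := by
    intro k h1 h2
    rcases lt_trichotomy k i with h | rfl | h
    · exact near_of_adj (hn0 (k + 1) (by omega) (by omega))
        (hc.1 k (Nat.zero_le _) (by omega)).symm
    · exact hx
    · rcases Nat.exists_eq_add_of_lt h with ⟨d, rfl⟩
      rcases d with _ | d
      · exact hw
      · exact near_of_adj (hn1 (i + (d + 1)) (by omega) (by omega))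
          (hc.1 _ (Nat.zero_le _) (by omega))
  have hch : Chain (bx c n) f j0 j1 :=
    ⟨fun k _ h2 => hc.1 k (Nat.zero_le _) (by omega), hin⟩
  have hjj : j0 ≤ j1 := by omega
  refine ⟨f j0, f j1, ⟨hin j0 le_rfl hjj, ho0⟩, ⟨hin j1 hjj le_rfl, ho1⟩, ?_⟩
  have a1 := T_le_W ht hj0 (hch.mono subset_rfl le_rfl (by omega : i ≤ j1))
  have a2 := T_le_W ht hj1 (hch.mono subset_rfl (by omega : j0 ≤ i + 1) le_rfl)
  have a3 := W_succ t f i
  have a4 := W_add t f hj0 (Nat.le_succ i)
  have a5 := W_add t f (by omega : j0 ≤ i + 1) hj1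
  have a6 := W_add t f (Nat.zero_le j0) hjj
  have a7 := W_add t f (Nat.zero_le j1) hj1'
  have c1 : Chain S f 0 j0 := hc.mono subset_rfl le_rfl (by omega)
  have c2 : Chain S f j0 j1 := hc.mono subset_rfl (Nat.zero_le _) hj1'
  have c3 : Chain S f j1 L := hc.mono subset_rfl (Nat.zero_le _) le_rfl
  have c4 : Chain S f 0 j1 := hc.mono subset_rfl le_rfl hj1'
  have b1 := T_triangle ht (reach_of_chain (Nat.zero_le _) c4) (reach_of_chain hj1' c3)
  have b2 := T_triangle ht (reach_of_chain (Nat.zero_le _) c1) (reach_of_chain hjj c2)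
  have b3 := T_le_W ht (Nat.zero_le _) c1
  have b4 := T_le_W ht hj1' c3
  have b5 := T_mono_set ht hS (reach_of_chain hjj hch)
  rw [Nat.succ_eq_add_one] at a4
  linarith

/-- Use `CovE x (2 n) x w`, concatenate minimal paths `a → x` and `w → b` (`exists_min`) with the
edge into one walk and apply `extract` (its ends are `Out 0 n`, `bx 0 n ⊆ bx x (2 n)`). -/
theorem CA.covE {t : Env} (ht : ∀ e, 0 ≤ t e) {x w : V} (hxw : Adj x w) (h : CA x w t) {n : ℕ}
    (hn : 1 ≤ n) (hx : Near n x 0) (hw : Near n w 0) : CovE 0 n x w t := by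
  obtain ⟨a, b, ha, hb, hle⟩ := h (2 * n) (by omega)
  have hsub : bx 0 n ⊆ bx x (2 * n) := fun y hy => by
    have := Near.trans (show Near n y 0 from hy) hx.symm
    rwa [← two_mul] at this
  have hxx : Near (2 * n) x x := Near.refl _ x
  have hout : ∀ y, Out x (2 * n) y → Out 0 n y := by
    intro y hy
    unfold Out at hy ⊢
    unfold Near at hx
    simp only [Prod.fst_zero, Prod.snd_zero] at hx ⊢
    omega
  obtain ⟨p, hp, hp'⟩ := exists_min (bx_finite x (2 * n)) t (reach_bx ha.1 hxx)
  obtain ⟨q, hq, hq'⟩ := exists_min (bx_finite x (2 * n)) t (reach_bx (hsub hw) hb.1)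
  obtain ⟨F, hF, f1, f2, f3⟩ := exists_concat hp.chain (chain_edge hxx (hsub hw) hxw)
    (by simpa using hp.stop)
  have e1 : F (len p + 1) = w := by simpa using f2 1 le_rfl
  obtain ⟨H, hH, g1, g2, g3⟩ := exists_concat hF hq.chain (e1.trans hq.start.symm)
  have e2 : H 0 = a := by rw [g1 0 (Nat.zero_le _), f1 0 (Nat.zero_le _), hp.start]
  have e3 : H (len p + 1 + len q) = b := by rw [g2 _ le_rfl, hq.stop]
  have e4 : H (len p) = x := by rw [g1 _ (Nat.le_succ _), f1 _ le_rfl, hp.stop]
  have e5 : H (len p + 1) = w := by rw [g1 _ le_rfl, e1]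
  have e6 : W t (fun k => if k = 0 then x else w) 0 1 = t s(x, w) := by
    simpa using W_succ t (fun k => if k = 0 then x else w) 0
  have := extract ht hsub (by omega : len p < len p + 1 + len q) hH
    (by
      rw [g3, f3, e2, e3, e6]
      unfold wt at hp' hq'
      rw [hp', hq']
      exact hle)
    (by rwa [e4]) (by rwa [e5]) (by rw [e2]; exact hout a ha.2) (by rw [e3]; exact hout b hb.2)
  rwa [e4, e5] at this

/-- an injective sequence leaves the finite box in both directions; `extract` with `S = univ` -/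
theorem Big.ca {t : Env} (ht : ∀ e, 0 ≤ t e) {v : ℤ → V} (h : Big t v) : CA (v 0) (v 1) t := by
  intro n hn
  have key : ∀ g : ℕ → ℤ, Function.Injective g → ∃ m, Out (v 0) n (v (g m)) := by
    intro g hg
    obtain ⟨m, hm⟩ := ((bx_finite (v 0) n).preimage (h.1.comp hg).injOn).exists_notMem
    refine ⟨m, ?_⟩
    by_contra h1
    exact hm (near_of_not_out h1)
  obtain ⟨m1, h1⟩ := key (fun m => -(m : ℤ)) fun a b hab => by
    beta_reduce at hab
    omega
  obtain ⟨m2, h2⟩ := key (fun m => (m : ℤ) + 1) fun a b hab => by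
    beta_reduce at hab
    omega
  have e0 : -(m1 : ℤ) + ((m1 : ℕ) : ℤ) = 0 := by omega
  have e1 : -(m1 : ℤ) + ((m1 + 1 : ℕ) : ℤ) = 1 := by omega
  have e2 : -(m1 : ℤ) + ((0 : ℕ) : ℤ) = -(m1 : ℤ) := by omega
  have e3 : -(m1 : ℤ) + ((m1 + 1 + m2 : ℕ) : ℤ) = (m2 : ℤ) + 1 := by omega
  have h01 : Adj (v 0) (v 1) := by simpa using h.2.1 0
  have := extract (S := Set.univ) (c := v 0) (n := n) ht (Set.subset_univ _)
    (f := fun k => v (-(m1 : ℤ) + k)) (by omega : m1 < m1 + 1 + m2)
    ⟨fun k _ _ => by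
      have := h.2.1 (-(m1 : ℤ) + k)
      rw [add_assoc] at this
      exact_mod_cast this, fun _ _ _ => Set.mem_univ _⟩
    (by
      rw [e2]
      exact h.2.2 _ _)
    (by
      rw [e0]
      exact Near.refl _ _)
    (by
      rw [e1]
      exact h01.near.symm.mono hn)
    (by
      rw [e2]
      exact h1)
    (by
      rw [e3]
      exact h2)
  beta_reduce at this
  rwa [e0, e1] at this

theorem measurable_W (f : ℕ → V) (i j : ℕ) : Measurable fun t : Env => W t f i j :=
  Finset.measurable_sum _ fun _ _ => measurable_pi_apply _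

theorem measurable_wt (l : List V) : Measurable fun t : Env => wt t l := measurable_W _ _ _

theorem measurable_T (S : Set V) (a b : V) : Measurable fun t : Env => T S t a b :=
  Measurable.iInf fun l : {l : List V // IsPth S a b l} => measurable_wt l.1

theorem measurableSet_isGeo (S : Set V) (a b : V) (l : List V) :
    MeasurableSet {t : Env | IsGeo S t a b l} :=
  measurableSet_setOfPred.2 (measurable_const.and (Measurable.forall fun q => measurable_const.imp
    (measurable_const.imp (measurableSet_setOfPred.1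
      (measurableSet_lt (measurable_wt l) (measurable_wt q))))))

theorem measurableSet_covE (c x w : V) (n : ℕ) : MeasurableSet {t : Env | CovE c n x w t} :=
  measurableSet_setOfPred.2 (Measurable.exists fun a => Measurable.exists fun b =>
    measurable_const.and (measurable_const.and (measurableSet_setOfPred.1 (measurableSet_le
      (((measurable_T _ a x).add (measurable_pi_apply _)).add (measurable_T _ w b))
      (measurable_T _ a b)))))

theorem measurableSet_ca (x w : V) : MeasurableSet {t : Env | CA x w t} :=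
  measurableSet_setOfPred.2 (Measurable.forall fun n =>
    measurable_const.imp (measurableSet_setOfPred.1 (measurableSet_covE x x w n)))

theorem measurable_xs (N : ℕ) (a b : V) (e : Sym2 V) :
    Measurable fun t : Env => xs t N a b e :=
  (((measurable_T _ a b).comp measurable_update_left).add (measurable_pi_apply e)).sub
    (measurable_T _ a b)

theorem measurable_Dm (N : ℕ) (α β : ℤ) : Measurable fun t : Env => Dm t N α β :=
  (((measurable_T _ _ _).add (measurable_T _ _ _)).sub (measurable_T _ _ _)).sub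
    (measurable_T _ _ _)

end Vale.Agent.P158b
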