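import Vale.Agent.P158b.Fam
import Vale.Agent.P158b.PathC

/-! Clusters of bad vertices. -/

open MeasureTheory ProbabilityTheory Finset
open scoped Classical

namespace Vale.Agent.P158b

theorem clus_congr {M0 : ℝ} {ω ω' : Env} (h : SameP M0 ω ω') (x : V) :
    clus M0 ω x = clus M0 ω' x := by
  have e : {v | bad M0 ω v} = {v | bad M0 ω' v} := Set.ext fun v =>
    exists_congr fun e => and_congr_right fun _ => lt_iff_lt_of_le_iff_le (h e)
  rw [clus, e, clus]

private theorem bad_add {M0 : ℝ} {ω : Env} {v z : V} (h : bad M0 (trans v ω) z) :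
    bad M0 ω (z + v) := by
  obtain ⟨e, he, h1⟩ := h
  obtain ⟨a, ha, b, hab, rfl⟩ := mem_edgesOf.1 he
  refine ⟨s(a + v, b + v), mem_edgesOf.2 ⟨a + v, ?_, b + v, ?_, rfl⟩, h1⟩
  · rw [mem_box] at ha ⊢
    simp only [Near, Prod.fst_add, Prod.snd_add] at ha ⊢
    omega
  · simp only [Adj, Prod.fst_add, Prod.snd_add] at hab ⊢
    omega

private theorem reach_add {S S' : Set V} {a b : V} (v : V) (h : Reach S a b)
    (hS : ∀ z ∈ S, z + v ∈ S') : Reach S' (a + v) (b + v) := by
  obtain ⟨l, hl⟩ := h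
  have h1 : Chain S' (fun k => vx l k + v) 0 (len l) :=
    ⟨fun k h1 h2 => by
      have := hl.chain.1 k h1 h2
      simp only [Adj, Prod.fst_add, Prod.snd_add] at this ⊢
      omega, fun k h1 h2 => hS _ (hl.chain.2 k h1 h2)⟩
  have h2 := reach_of_chain (Nat.zero_le _) h1
  rwa [hl.start, hl.stop] at h2

theorem clus_trans (M0 : ℝ) (ω : Env) (v x : V) :
    clus M0 ω (x + v) = (fun y => y + v) '' clus M0 (trans v ω) x := by
  refine Set.Subset.antisymm (fun y hy => ⟨y + -v, ?_, neg_add_cancel_right y v⟩) ?_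
  · have e : trans (-v) (trans v ω) = ω := by
      funext e
      simp only [trans, Sym2.map_map, Function.comp_def, neg_add_cancel_right]
      exact congrArg ω (congrFun Sym2.map_id e)
    have h := reach_add (S' := {z | bad M0 (trans v ω) z}) (-v) hy fun z hz =>
      bad_add (by rwa [e])
    rwa [add_neg_cancel_right] at h
  · rintro _ ⟨y, hy, rfl⟩
    exact reach_add v hy fun z hz => bad_add hz

private theorem bad_local {M0 : ℝ} {ω ω' : Env} {x z : V} {n : ℕ}
    (h : ∀ e ∈ edgesOf (box x (n + 2)), ω e = ω' e) (hz : Near (n + 1) z x) :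
    bad M0 ω z ↔ bad M0 ω' z := by
  refine exists_congr fun e => and_congr_right fun he => ?_
  obtain ⟨a, ha, b, hab, rfl⟩ := mem_edgesOf.1 he
  rw [h _ (mem_edgesOf.2 ⟨a, mem_box.2 (((mem_box.1 ha).trans hz).mono (by omega)), b, hab, rfl⟩)]

/-- locality: follow a bad path for `ω'` up to its first exit from `bx x n` -/
theorem clus_local {M0 : ℝ} {ω ω' : Env} {x : V} {n : ℕ}
    (h : ∀ e ∈ edgesOf (box x (n + 2)), ω e = ω' e) (hx : clus M0 ω x ⊆ bx x n) :
    clus M0 ω' x = clus M0 ω x := by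
  refine Set.Subset.antisymm ?_ ?_
  · rintro y ⟨l, hl⟩
    have key : ∀ k, k ≤ len l → vx l k ∈ clus M0 ω x := by
      intro k
      induction k with
      | zero =>
        intro hk
        have h0 : Chain {v | bad M0 ω v} (vx l) 0 0 := ⟨fun k _ h2 => absurd h2 (by omega),
          fun k _ h2 => by
            obtain rfl : k = 0 := by omega
            exact (bad_local h (by rw [hl.start]; exact Near.refl _ _)).2
              (hl.chain.2 0 le_rfl hk)⟩
        have h1 := reach_of_chain le_rfl h0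
        rw [hl.start] at h1 ⊢
        exact h1
      | succ k ih =>
        intro hk
        have h1 := ih (by omega)
        have h2 : Near n (vx l k) x := hx h1
        have h3 := hl.chain.1 k (Nat.zero_le _) hk
        refine Reach.trans h1 (reach_of_chain (Nat.le_succ k) ⟨fun j h4 h5 => ?_, fun j h4 h5 => ?_⟩)
        · obtain rfl : j = k := by omega
          exact h3
        · refine (bad_local h ?_).2 (hl.chain.2 j (Nat.zero_le _) (by omega))
          obtain rfl | rfl : j = k ∨ j = k + 1 := by omega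
          · exact h2.mono (by omega)
          · exact (h3.symm.near.trans h2).mono (by omega)
    rw [← hl.stop]
    exact key _ le_rfl
  · rintro y ⟨l, hl⟩
    refine ⟨l, hl.ne, hl.start, hl.stop, ⟨hl.chain.1, fun k h1 h2 => ?_⟩, hl.inj⟩
    have h3 := reach_of_chain h1 (hl.chain.mono subset_rfl le_rfl h2)
    rw [hl.start] at h3
    exact (bad_local h (Near.mono (hx h3) (by omega))).1 (hl.chain.2 k h1 h2)

theorem measurableSet_mem_clus (M0 : ℝ) (x y : V) :
    MeasurableSet {ω : Env | y ∈ clus M0 ω x} := by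
  have e : {ω : Env | y ∈ clus M0 ω x} = {ω : Env | ∃ l : List V, IsPth Set.univ x y l ∧
      ∀ k, k ≤ len l → ∃ e, e ∈ edgesOf (box (vx l k) 1) ∧ M0 < ω e} :=
    Set.ext fun ω => exists_congr fun l => ⟨fun hl => ⟨hl.mono (Set.subset_univ _),
      fun k hk => hl.chain.2 k (Nat.zero_le _) hk⟩, fun hl => ⟨hl.1.ne, hl.1.start, hl.1.stop,
        ⟨hl.1.chain.1, fun k _ hk => hl.2 k hk⟩, hl.1.inj⟩⟩
  rw [e, measurableSet_setOfPred]
  exact Measurable.exists fun l => measurable_const.and (Measurable.forall fun k =>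
    measurable_const.imp (Measurable.exists fun e => measurable_const.and
      (measurableSet_setOfPred.1 (measurableSet_lt measurable_const (measurable_pi_apply e)))))

theorem measurable_ncard_clus (M0 : ℝ) (x : V) :
    Measurable fun ω : Env => (clus M0 ω x).ncard :=
  measurable_ncard.comp (measurable_set_iff.2 fun y =>
    measurableSet_setOfPred.1 (measurableSet_mem_clus M0 x y))

private theorem many_of_exit {M0 : ℝ} {ω : Env} {x : V} {n : ℕ} {B : Set ℝ}
    (hB : ∀ z, M0 < z → z ∈ B) (h : ¬ clus M0 ω x ⊆ bx x n) : Many B 1 n (1 / 18 * n) x ω := by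
  obtain ⟨y, ⟨l, hl⟩, hy⟩ := Set.not_subset.1 h
  have hn : n < len l := by
    refine not_le.1 fun hn => hy ?_
    have h1 := hl.chain.near le_rfl (Nat.zero_le _) le_rfl
    rw [hl.start, hl.stop] at h1
    exact h1.symm.mono (by omega)
  refine ⟨vx l, hl.start, fun i hi => (hl.chain.1 i (Nat.zero_le _) (by omega)).near, ?_⟩
  have h1 : ((range (n + 1)).image (vx l)).card = n + 1 := by
    rw [card_image_of_injOn fun i hi j hj => hl.inj i j
      (by have := mem_range.1 hi; omega) (by have := mem_range.1 hj; omega), card_range]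
  have h2 : (range (n + 1)).image (vx l) ⊆ ((edgesOf (thick 1 ((range (n + 1)).image (vx l)))).filter
      fun e => ω e ∈ B).biUnion fun e => thick 1 e.toFinset := fun z hz => by
    obtain ⟨i, hi, rfl⟩ := mem_image.1 hz
    obtain ⟨e, he, h3⟩ := hl.chain.2 i (Nat.zero_le _) (by have := mem_range.1 hi; omega)
    obtain ⟨a, ha, b, hab, rfl⟩ := mem_edgesOf.1 he
    exact mem_biUnion.2 ⟨_, mem_filter.2 ⟨mem_edgesOf.2
      ⟨a, mem_thick.2 ⟨_, hz, mem_box.1 ha⟩, b, hab, rfl⟩, hB _ h3⟩,
      mem_thick.2 ⟨a, Sym2.mem_toFinset.2 (Sym2.mem_mk_left _ _), (mem_box.1 ha).symm⟩⟩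
  have h3 := (card_le_card h2).trans (card_biUnion_le_card_mul _ _ 18 fun e _ =>
    (card_thick 1 _).trans (by rw [Sym2.card_toFinset]; split_ifs <;> norm_num))
  rw [h1] at h3
  have h4 := (Nat.cast_le (α := ℝ)).2 h3
  push_cast at h4
  linarith

/-- The first `n + 1` vertices of a bad path leaving `bx x n` are distinct; each has a heavy edge
in `edgesOf (box v 1)`, and an edge serves at most `18` vertices: `Many (Ioi M0) 1 n (1 / 18 * n)`. -/
theorem clus_tail : ∃ η0 C : ℝ, 0 < η0 ∧ 0 < C ∧ ∀ (G : Measure ℝ) [IsProbabilityMeasure G]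
    (M0 : ℝ), G.real (Set.Ioi M0) ≤ η0 → ∀ (n : ℕ) (x : V),
      (PP G).real {ω | ¬ clus M0 ω x ⊆ bx x n} ≤ C * (1 / 2) ^ n := by
  obtain ⟨η0, C, h1, h2, h⟩ := many_small 1 (δ := 1 / 18) (by norm_num)
  exact ⟨η0, C, h1, h2, fun G _ M0 hG n x =>
    (measureReal_mono fun ω hω => many_of_exit (fun _ h => h) hω).trans (h G _ measurableSet_Ioi hG n x)⟩

theorem clus_finite_ae {G : Measure ℝ} [IsProbabilityMeasure G] {M0 C : ℝ}
    (h : ∀ (n : ℕ) (x : V), (PP G).real {ω | ¬ clus M0 ω x ⊆ bx x n} ≤ C * (1 / 2) ^ n) :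
    ∀ᵐ ω ∂(PP G), ∀ x, (clus M0 ω x).Finite := by
  refine ae_all_iff.2 fun x => ae_iff.2 ((measureReal_eq_zero_iff (measure_ne_top _ _)).1
    (le_antisymm ?_ measureReal_nonneg))
  have ht := (tendsto_pow_atTop_nhds_zero_of_lt_one (r := (1 / 2 : ℝ)) (by norm_num)
    (by norm_num)).const_mul C
  rw [mul_zero] at ht
  exact ge_of_tendsto' ht fun n =>
    (measureReal_mono fun ω (hω : ¬ (clus M0 ω x).Finite) hs =>
      hω ((bx_finite x n).subset hs)).trans (h n x)

private theorem ncard_le_of_subset {S : Set V} {x : V} {n : ℕ} (h : S ⊆ bx x n) :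
    S.ncard ≤ (2 * n + 1) ^ 2 := by
  rw [← card_box x n, ← Set.ncard_coe_finset]
  exact Set.ncard_le_ncard (fun y hy => mem_box.2 (h hy)) (finite_toSet _)

private theorem ncard_cases (S : Set V) (x : V) :
    S.ncard ≤ 1 ∨ ∃ n, ¬ S ⊆ bx x n ∧ S.ncard ≤ (2 * n + 3) ^ 2 := by
  by_cases hex : ∃ n, S ⊆ bx x n
  · have h1 := ncard_le_of_subset (Nat.find_spec hex)
    rcases e : Nat.find hex with _ | n
    · rw [e] at h1
      exact Or.inl h1
    · rw [e] at h1
      exact Or.inr ⟨n, Nat.find_min hex (by omega), h1⟩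
  · refine Or.inl ?_
    rw [Set.Infinite.ncard fun hf => hex ?_]
    · exact zero_le_one
    · refine ⟨hf.toFinset.sup fun y => dl1 y x, fun y hy => ?_⟩
      have h1 := le_sup (f := fun y => dl1 y x) (hf.mem_toFinset.2 hy)
      refine Near.mono ?_ h1
      simp only [Near, dl1]
      omega

/-- `ncard ≤ 1 + ∑' n, (2 n + 3) ^ 2 * 1 {¬ clus ⊆ bx x n}`; `lintegral_tsum` -/
theorem integrable_ncard_clus {G : Measure ℝ} [IsProbabilityMeasure G] {M0 C : ℝ}
    (h : ∀ (n : ℕ) (x : V), (PP G).real {ω | ¬ clus M0 ω x ⊆ bx x n} ≤ C * (1 / 2) ^ n) (x : V) :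
    Integrable (fun ω : Env => ((clus M0 ω x).ncard : ℝ)) (PP G) := by
  have hA : ∀ n, MeasurableSet {ω : Env | ¬ clus M0 ω x ⊆ bx x n} := fun n =>
    measurableSet_setOfPred.2 (Measurable.forall fun y =>
      (measurableSet_setOfPred.1 (measurableSet_mem_clus M0 x y)).imp measurable_const).not
  have hb : ∀ ω : Env, ‖((clus M0 ω x).ncard : ℝ)‖ₑ ≤ 1 + ∑' n : ℕ,
      {ω : Env | ¬ clus M0 ω x ⊆ bx x n}.indicator
        (fun _ => ENNReal.ofReal ((2 * n + 3) ^ 2)) ω := fun ω => by
    rw [Real.enorm_eq_ofReal (Nat.cast_nonneg _)]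
    rcases ncard_cases (clus M0 ω x) x with h1 | ⟨n, h1, h2⟩
    · exact le_add_right (ENNReal.ofReal_le_one.2 (by exact_mod_cast h1))
    · refine le_add_left (le_trans ?_ (ENNReal.le_tsum n))
      rw [Set.indicator_of_mem (by exact h1)]
      exact ENNReal.ofReal_le_ofReal (by exact_mod_cast h2)
  have hs : Summable fun n : ℕ => ((2 * n + 3) ^ 2 * (C * (1 / 2) ^ n) : ℝ) := by
    have h0 := fun k => summable_pow_mul_geometric_of_norm_lt_one k (r := (1 / 2 : ℝ))
      (by norm_num)
    refine ((((h0 2).mul_left (4 * C)).add ((h0 1).mul_left (12 * C))).add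
      ((h0 0).mul_left (9 * C))).congr fun n => ?_
    ring
  refine ⟨(measurable_from_top.comp (measurable_ncard_clus M0 x)).aestronglyMeasurable,
    (lintegral_mono hb).trans_lt ?_⟩
  rw [lintegral_add_left measurable_const, lintegral_one,
    lintegral_tsum fun n => (measurable_const.indicator (hA n)).aemeasurable]
  refine ENNReal.add_lt_top.2 ⟨measure_lt_top _ _,
    (ENNReal.tsum_le_tsum fun n => ?_).trans_lt hs.tsum_ofReal_lt_top⟩
  rw [lintegral_indicator_const (hA n), ENNReal.ofReal_mul (sq_nonneg _),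
    ← ofReal_measureReal (measure_ne_top _ _)]
  exact mul_le_mul_right (ENNReal.ofReal_le_ofReal (h n x)) _

end Vale.Agent.P158b
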