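import Vale.Agent.P158b.Exc

/-! A covered edge has total influence at least κ. -/

open MeasureTheory ProbabilityTheory Finset
open scoped Classical

namespace Vale.Agent.P158b

/-- Two almost minimal walks through the same edge with opposite orientations cannot share an end:
the first gives `T a x + t e - s < T a w`, the second `T a w + t e - s < T a x` (use `T_symm`). -/
theorem orient {t : Env} (ht : ∀ e, 0 ≤ t e) {N : ℕ} {a b c x w : V} (ha : Near N a 0)
    (hb : Near N b 0) (hc : Near N c 0) (hx : Near N x 0) (hw : Near N w 0) {s : ℝ}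
    (hs : s ≤ t s(x, w)) (h1 : xo t N a b x w < s) (h2 : xo t N c a x w < s) : False := by
  rw [xo] at h1 h2
  linarith [T_triangle ht (reach_bx ha hw) (reach_bx hw hb),
    T_triangle ht (reach_bx hc hx) (reach_bx hx ha), T_symm (bx 0 N) ht a w, T_symm (bx 0 N) ht a x]

/-- For `s ∈ (0, κ]` apply `rotation` to `P a b := Bd a ∧ Bd b ∧ xo a b x w < s` (`orient`; the
long-chord clause of `Base` with `z = w`, `T a w ≤ T a x + t e`, and `c2 * N > 1` give `¬ Near 1`).
The corner is a cell `c ∈ cells N c2` with `xs route < s ≤ min κ (min xp xq)` (`xs_eq`, `xo_symm`).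
So `Ioc 0 κ` is covered by the intervals `Ioc (xs route) (min ..)`, whose lengths are the `dl`
(`measure_biUnion_finset_le`, `Real.volume_Ioc`). -/
theorem cover {t : Env} (ht : ∀ e, 0 ≤ t e) {N : ℕ} {C1 c2 : ℝ} (hB : Base t C1 c2 N)
    (hN : 2 ≤ N) (hc : 1 < c2 * N) {x w : V} (hx : Near (N / 8 + 1) x 0)
    (hw : Near (N / 8 + 1) w 0) (hxw : Adj x w) {κ : ℝ} (hκ0 : 0 < κ) (hκ1 : κ ≤ 1)
    (hκ : κ ≤ t s(x, w)) (hcov : CovE 0 N x w t) :
    κ ≤ ∑ c ∈ cells N c2, dl t N κ c s(x, w) := by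
  have hN1 : 1 ≤ N := by omega
  have hx' := hx.mono (show N / 8 + 1 ≤ N by omega)
  have hw' := hw.mono (show N / 8 + 1 ≤ N by omega)
  have key : Set.Ioc 0 κ ⊆ ⋃ c ∈ cells N c2, Set.Ioc (xs t N (bv N c.1) (bv N c.2) s(x, w))
      (min κ (min (xs t N (bv N c.1) (bv N (c.2 + 1)) s(x, w))
        (xs t N (bv N (c.1 + 1)) (bv N c.2) s(x, w)))) := by
    rintro s ⟨hs0, hs⟩
    have long : ∀ a b, Bd 0 N a ∧ Bd 0 N b ∧ xo t N a b x w < s → c2 ≤ ‖nv N a b‖ := by
      rintro a b ⟨ha, hb, h⟩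
      refine hB.2.2 a b w ha hb hw ?_
      rw [xo] at h
      linarith [T_triangle ht (reach_bx ha.1 hx') (reach_bx hx' hw'),
        T_adj_le (S := bx 0 N) ht hx' hw' hxw]
    obtain ⟨a, b, ha, hb, hab⟩ := hcov
    obtain ⟨α, β, h1, h2, h3, h4, h5, h6, h7, h8, h9⟩ := rotation hN1
      (fun a b => Bd 0 N a ∧ Bd 0 N b ∧ xo t N a b x w < s)
      (fun a b c k1 k2 => orient ht k1.1.1 k1.2.1.1 k2.1.1 hx' hw' (hs.trans hκ) k1.2.2 k2.2.2)
      (fun a b k1 k2 => by
        have k3 := long a b k1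
        have k4 := near_iff_norm.1 k2.symm
        have k5 : (0 : ℝ) < N := by positivity
        rw [nv, norm_smul, norm_inv, Real.norm_of_nonneg k5.le, le_inv_mul_iff₀' k5] at k3
        rw [Nat.cast_one] at k4
        linarith) ha hb ⟨ha, hb, by rw [xo]; linarith⟩
    have hbd := bv_bd hN1
    simp only [hbd, true_and, not_lt] at h6 h7 h8 h9
    rw [xo_symm ht] at h7 h9
    refine Set.mem_iUnion₂.2 ⟨(α, β), ?_, ?_, ?_⟩
    · simp only [cells, mem_filter, mem_product, mem_Ico]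
      exact ⟨⟨⟨h1, h2⟩, by omega, by omega⟩, h3, h4, long _ _ h5⟩
    · rw [xs_eq ht (hbd _).1 (hbd _).1 hx' hw' hxw]
      exact ((min_le_right _ _).trans (min_le_left _ _)).trans_lt h5.2.2
    · simp only [xs_eq ht (hbd _).1 (hbd _).1 hx' hw' hxw, le_min_iff]
      exact ⟨hs, ⟨hs.trans hκ, h6, h7⟩, hs.trans hκ, h8, h9⟩
  have h := (measureReal_mono (μ := volume) key ((measure_biUnion_finset_le _ _).trans_lt
    (ENNReal.sum_lt_top.2 fun _ _ => measure_Ioc_lt_top)).ne).trans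
    (measureReal_biUnion_finset_le _ _)
  simp only [Real.volume_real_Ioc, sub_zero] at h
  exact (le_max_left _ _).trans h

end Vale.Agent.P158b
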