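import Vale.Agent.P158b.Bdry

/-! Planarity: walks joining alternating boundary points of a box meet. -/

open MeasureTheory ProbabilityTheory Finset
open scoped Classical

namespace Vale.Agent.P158b

namespace CrossAux

noncomputable def ind (P : Prop) : ℤ := if P then 1 else 0

theorem tele (u φ : ℕ → ℤ) (L : ℕ) (h : ∀ k < L, (u k + φ k + φ (k + 1)) % 2 = 0) :
    (∑ k ∈ range L, u k + φ 0 + φ L) % 2 = 0 := by
  induction L with
  | zero => simp only [range_zero, sum_empty]; omega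
  | succ L ih =>
    have h1 := ih fun k hk => h k (by omega)
    have h2 := h L (by omega)
    rw [sum_range_succ]
    omega

/-- a vertical step that crosses the ray from the face at `x` -/
def st (x p q : V) : Prop :=
  x.1 < p.1 ∧ q.1 = p.1 ∧ ((p.2 = x.2 ∧ q.2 = x.2 + 1) ∨ (p.2 = x.2 + 1 ∧ q.2 = x.2))

noncomputable def cr (f : ℕ → V) (L : ℕ) (x : V) : ℤ :=
  ∑ k ∈ range L, ind (st x (f k) (f (k + 1)))

noncomputable def ray (N : ℕ) (p x : V) : ℤ :=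
  ind (¬ (p.1 = -N ∨ p.2 = -N) ∧ (p.2 < x.2 ∨ (x.2 = p.2 ∧ x.1 < p.1)))

noncomputable def side (N : ℕ) (p x : V) : ℤ :=
  ind (¬ (x.1 = N ∨ x.2 = N) ∧ ((x.2 = -N ∧ p.2 = -N ∧ x.1 < p.1) ∨ (x.2 ≠ -N ∧ x.2 < p.2)))

variable {N L : ℕ} {f : ℕ → V}

theorem horiz {x y : V} (hy : ∀ k ≤ L, f k ≠ y) (h : y.1 = x.1 + 1 ∧ y.2 = x.2) :
    cr f L x = cr f L y := by
  refine sum_congr rfl fun k hk => ?_
  have h1 := hy k (mem_range.1 hk).le
  have h2 := hy (k + 1) (mem_range.1 hk)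
  rw [Ne, Prod.ext_iff] at h1 h2
  unfold ind st
  split_ifs <;> omega

theorem vert (hf : ∀ k < L, Adj (f k) (f (k + 1))) {x y : V} (hy : ∀ k ≤ L, f k ≠ y)
    (h : y.1 = x.1 ∧ y.2 = x.2 + 1) :
    (cr f L x + cr f L y + ind ((f 0).2 = y.2 ∧ x.1 < (f 0).1) +
      ind ((f L).2 = y.2 ∧ x.1 < (f L).1)) % 2 = 0 := by
  unfold cr
  rw [← sum_add_distrib]
  refine tele _ (fun k => ind ((f k).2 = y.2 ∧ x.1 < (f k).1)) L fun k hk => ?_
  have h1 := hy k hk.le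
  have h2 := hy (k + 1) hk
  have h3 := hf k hk
  rw [Ne, Prod.ext_iff] at h1 h2
  unfold ind st
  unfold Adj at h3
  split_ifs <;> omega

theorem left (hf : ∀ k < L, Adj (f k) (f (k + 1))) {x : V} (hx : ∀ k ≤ L, f k ≠ x)
    (h : ∀ k ≤ L, x.1 ≤ (f k).1) :
    (cr f L x + ind (x.2 < (f 0).2) + ind (x.2 < (f L).2)) % 2 = 0 := by
  refine tele _ (fun k => ind (x.2 < (f k).2)) L fun k hk => ?_
  have h1 := hx k hk.le
  have h2 := hx (k + 1) hk
  have h3 := hf k hk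
  have h4 := h k hk.le
  have h5 := h (k + 1) hk
  rw [Ne, Prod.ext_iff] at h1 h2
  unfold ind st
  unfold Adj at h3
  split_ifs <;> omega

theorem zero {x : V} (hb : ∀ k ≤ L, Near N (f k) 0) (h : x.1 = N ∨ x.2 = N ∨ x.2 = -N - 1) :
    cr f L x = 0 := by
  refine sum_eq_zero fun k hk => if_neg ?_
  have h1 := hb k (mem_range.1 hk).le
  have h2 := hb (k + 1) (mem_range.1 hk)
  simp only [Near, Prod.fst_zero, Prod.snd_zero] at h1 h2
  unfold st
  omega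

theorem bdry (hf : ∀ k < L, Adj (f k) (f (k + 1))) (hb : ∀ k ≤ L, Near N (f k) 0) {x : V}
    (hx : ∀ k ≤ L, f k ≠ x) (h : Bd 0 N x) :
    (cr f L x + side N (f 0) x + side N (f L) x) % 2 = 0 := by
  simp only [Bd, Near, Out, Prod.fst_zero, Prod.snd_zero] at h
  by_cases h1 : x.1 = N ∨ x.2 = N
  · rw [zero hb (by omega)]
    unfold side ind
    split_ifs <;> omega
  by_cases h2 : x.2 = -N
  · have h3 := vert hf (x := (x.1, x.2 - 1)) hx (by simp)
    rw [zero hb (x := (x.1, x.2 - 1)) (by simp only; omega)] at h3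
    unfold side
    unfold ind at h3 ⊢
    simp only at h3
    split_ifs at h3 ⊢ <;> omega
  · have h3 := left hf hx fun k hk => by
      have := hb k hk
      simp only [Near, Prod.fst_zero, Prod.snd_zero] at this
      omega
    unfold side
    unfold ind at h3 ⊢
    split_ifs at h3 ⊢ <;> omega

theorem ray_h {p x y : V} (hp : Bd 0 N p) (hy : Near N y 0) (h1 : p ≠ x) (h2 : p ≠ y)
    (h : y.1 = x.1 + 1 ∧ y.2 = x.2) : ray N p x = ray N p y := by
  simp only [Bd, Near, Out, Prod.fst_zero, Prod.snd_zero] at hp hy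
  rw [Ne, Prod.ext_iff] at h1 h2
  unfold ray ind
  split_ifs <;> omega

theorem ray_v {p x y : V} (hp : Bd 0 N p) (hx : Near N x 0) (hy : Near N y 0) (h1 : p ≠ x)
    (h2 : p ≠ y) (h : y.1 = x.1 ∧ y.2 = x.2 + 1) :
    (ray N p x + ray N p y + ind (p.2 = y.2 ∧ x.1 < p.1)) % 2 = 0 := by
  simp only [Bd, Near, Out, Prod.fst_zero, Prod.snd_zero] at hp hx hy
  rw [Ne, Prod.ext_iff] at h1 h2
  unfold ray ind
  split_ifs <;> omega

theorem step (hf : ∀ k < L, Adj (f k) (f (k + 1))) (h0 : Bd 0 N (f 0)) (hL : Bd 0 N (f L))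
    {x y : V} (hx : Near N x 0) (hy : Near N y 0) (hx' : ∀ k ≤ L, f k ≠ x)
    (hy' : ∀ k ≤ L, f k ≠ y) (h : Adj x y) :
    (cr f L x + ray N (f 0) x + ray N (f L) x + (cr f L y + ray N (f 0) y + ray N (f L) y)) % 2 =
      0 := by
  have a0 := hx' 0 L.zero_le
  have a1 := hx' L le_rfl
  have a2 := hy' 0 L.zero_le
  have a3 := hy' L le_rfl
  rcases h with h | h | h | h
  · rw [horiz hy' h, ray_h h0 hy a0 a2 h, ray_h hL hy a1 a3 h]
    omega
  · have h' : x.1 = y.1 + 1 ∧ x.2 = y.2 := by omega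
    rw [horiz hx' h', ray_h h0 hx a2 a0 h', ray_h hL hx a3 a1 h']
    omega
  · have b1 := vert hf hy' h
    have b2 := ray_v h0 hx hy a0 a2 h
    have b3 := ray_v hL hx hy a1 a3 h
    omega
  · have h' : x.1 = y.1 ∧ x.2 = y.2 + 1 := by omega
    have b1 := vert hf hx' h'
    have b2 := ray_v h0 hy hx a2 a0 h'
    have b3 := ray_v hL hy hx a3 a1 h'
    omega

theorem bv_spec (hN : 1 ≤ N) (α : ℤ) : ∃ β, β = α % (8 * N) ∧ 0 ≤ β ∧ β < 8 * N ∧
    ((β < 2 * N ∧ (bv N α).1 = -N + β ∧ (bv N α).2 = -N) ∨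
      (2 * N ≤ β ∧ β < 4 * N ∧ (bv N α).1 = N ∧ (bv N α).2 = -N + (β - 2 * N)) ∨
      (4 * N ≤ β ∧ β < 6 * N ∧ (bv N α).1 = N - (β - 4 * N) ∧ (bv N α).2 = N) ∨
      (6 * N ≤ β ∧ (bv N α).1 = -N ∧ (bv N α).2 = N - (β - 6 * N))) := by
  refine ⟨_, rfl, Int.emod_nonneg _ (by omega), Int.emod_lt_of_pos _ (by omega), ?_⟩
  unfold bv
  split_ifs <;> dsimp only <;> omega

theorem bv_J (hN : 1 ≤ N) {α β : ℤ} (h : bv N α ≠ bv N β) :
    α % (8 * N) ≠ β % (8 * N) ∧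
    (ray N (bv N α) (bv N β) + side N (bv N α) (bv N β) + ind ((bv N α).2 = -N) +
      ind (α % (8 * N) < β % (8 * N))) % 2 = 0 := by
  obtain ⟨a, ha, h1⟩ := bv_spec hN α
  obtain ⟨b, hb, h2⟩ := bv_spec hN β
  rw [← ha, ← hb]
  rw [Ne, Prod.ext_iff] at h
  clear ha hb
  refine ⟨by omega, ?_⟩
  unfold ray side ind
  split_ifs <;> omega

theorem emod_cases {M a b : ℤ} (hM : 0 < M) (h1 : a ≤ b) (h2 : b ≤ a + M) :
    0 ≤ b % M ∧ b % M < M ∧ (b % M = b - a + a % M ∨ b % M = b - a + a % M - M) := by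
  have h3 := Int.emod_nonneg a hM.ne'
  have h4 := Int.emod_lt_of_pos a hM
  have e : b % M = (b - a + a % M) % M := by rw [Int.add_emod_emod, sub_add_cancel]
  refine ⟨Int.emod_nonneg b hM.ne', Int.emod_lt_of_pos b hM, ?_⟩
  by_cases h : b - a + a % M < M
  · exact Or.inl (e.trans (Int.emod_eq_of_lt (by omega) h))
  · refine Or.inr (e.trans ?_)
    rw [← Int.sub_emod_right]
    exact Int.emod_eq_of_lt (by omega) (by omega)

end CrossAux

open CrossAux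

/-- Walks joining alternating boundary points meet (parity of crossings with a ray). -/
theorem cross {N : ℕ} (hN : 1 ≤ N) {α1 α2 α3 α4 : ℤ} (h12 : α1 ≤ α2) (h23 : α2 ≤ α3)
    (h34 : α3 ≤ α4) (h41 : α4 ≤ α1 + 8 * N) {f g : ℕ → V} {L M : ℕ}
    (hf : Chain (bx 0 N) f 0 L) (hg : Chain (bx 0 N) g 0 M) (hf0 : f 0 = bv N α1)
    (hfL : f L = bv N α3) (hg0 : g 0 = bv N α2) (hgM : g M = bv N α4) :
    ∃ i j, i ≤ L ∧ j ≤ M ∧ f i = g j := by
  by_contra hc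
  have hne : ∀ j ≤ M, ∀ i ≤ L, f i ≠ g j := fun j hj i hi h => hc ⟨i, j, hi, hj, h⟩
  have hf1 : ∀ k < L, Adj (f k) (f (k + 1)) := fun k hk => hf.1 k k.zero_le hk
  have hf2 : ∀ k ≤ L, Near N (f k) 0 := fun k hk => hf.2 k k.zero_le hk
  have h1 := tele (fun _ => 0) (fun j => cr f L (g j) + ray N (f 0) (g j) + ray N (f L) (g j)) M
    fun j hj => by
      rw [zero_add]
      exact step hf1 (hf0 ▸ bv_bd hN α1) (hfL ▸ bv_bd hN α3) (hg.2 j j.zero_le hj.le)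
        (hg.2 (j + 1) (by omega) hj) (hne j hj.le) (hne (j + 1) hj) (hg.1 j j.zero_le hj)
  have h2 := bdry hf1 hf2 (hne 0 M.zero_le) (hg0 ▸ bv_bd hN α2)
  have h3 := bdry hf1 hf2 (hne M le_rfl) (hgM ▸ bv_bd hN α4)
  have a1 := hne 0 M.zero_le 0 L.zero_le
  have a2 := hne 0 M.zero_le L le_rfl
  have a3 := hne M le_rfl 0 L.zero_le
  have a4 := hne M le_rfl L le_rfl
  simp only [sum_const_zero, hf0, hfL, hg0, hgM] at h1 h2 h3 a1 a2 a3 a4
  obtain ⟨b1, c1⟩ := bv_J hN a1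
  obtain ⟨b2, c2⟩ := bv_J hN a2
  obtain ⟨b3, c3⟩ := bv_J hN a3
  obtain ⟨b4, c4⟩ := bv_J hN a4
  have hM : (0 : ℤ) < 8 * N := by omega
  have d1 := emod_cases hM le_rfl (show α1 ≤ α1 + 8 * N by omega)
  have d2 := emod_cases hM h12 (by omega)
  have d3 := emod_cases hM (h12.trans h23) (by omega)
  have d4 := emod_cases hM (h12.trans (h23.trans h34)) h41
  have e : (ind (α1 % (8 * N) < α2 % (8 * N)) + ind (α3 % (8 * N) < α2 % (8 * N)) +
      ind (α1 % (8 * N) < α4 % (8 * N)) + ind (α3 % (8 * N) < α4 % (8 * N))) % 2 = 1 := by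
    generalize α1 % (8 * N) = x1, α2 % (8 * N) = x2, α3 % (8 * N) = x3, α4 % (8 * N) = x4 at *
    clear h1 h2 h3 c1 c2 c3 c4
    unfold ind
    split_ifs <;> omega
  omega

end Vale.Agent.P158b
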