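import Mathlib

/-!
# P158 (no bigeodesics in planar first-passage percolation): definitions

See `skel/P158b/BLUEPRINT.md` for the proof.
-/

open MeasureTheory ProbabilityTheory Finset
open scoped Classical

namespace Vale.Agent.P158b

/-! ### The lattice -/

abbrev V := ℤ × ℤ

/-- functions on unordered pairs (only adjacent pairs matter) -/
abbrev Env := Sym2 V → ℝ

def Adj (x y : V) : Prop :=
  (y.1 = x.1 + 1 ∧ y.2 = x.2) ∨ (y.1 = x.1 - 1 ∧ y.2 = x.2) ∨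
    (y.1 = x.1 ∧ y.2 = x.2 + 1) ∨ (y.1 = x.1 ∧ y.2 = x.2 - 1)

/-- sup-distance at most `r` -/
def Near (r : ℕ) (x y : V) : Prop :=
  x.1 - y.1 ≤ r ∧ y.1 - x.1 ≤ r ∧ x.2 - y.2 ≤ r ∧ y.2 - x.2 ≤ r

def bx (c : V) (n : ℕ) : Set V := {x | Near n x c}

noncomputable def box (c : V) (n : ℕ) : Finset V := Icc (c.1 - n) (c.1 + n) ×ˢ Icc (c.2 - n) (c.2 + n)

/-- not in the open box -/
def Out (c : V) (n : ℕ) (x : V) : Prop :=
  c.1 + n ≤ x.1 ∨ x.1 ≤ c.1 - n ∨ c.2 + n ≤ x.2 ∨ x.2 ≤ c.2 - n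

/-- boundary of the box -/
def Bd (c : V) (n : ℕ) (x : V) : Prop := Near n x c ∧ Out c n x

def cv (x : V) : ℝ × ℝ := ((x.1 : ℝ), (x.2 : ℝ))

/-- the l1 distance -/
def dl1 (x y : V) : ℕ := (x.1 - y.1).natAbs + (x.2 - y.2).natAbs

/-- edges with an endpoint in `A` -/
noncomputable def edgesOf (A : Finset V) : Finset (Sym2 V) :=
  A.biUnion fun x => {s(x, (x.1 + 1, x.2)), s(x, (x.1 - 1, x.2)), s(x, (x.1, x.2 + 1)),
    s(x, (x.1, x.2 - 1))}

noncomputable def thick (r : ℕ) (A : Finset V) : Finset V := A.biUnion fun x => box x r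

/-- the boundary of `box 0 N`, counterclockwise from the corner `(-N,-N)`, period `8N` -/
def bv (N : ℕ) (α : ℤ) : V :=
  if α % (8 * N) < 2 * N then (-N + α % (8 * N), -N)
  else if α % (8 * N) < 4 * N then (N, -N + (α % (8 * N) - 2 * N))
  else if α % (8 * N) < 6 * N then (N - (α % (8 * N) - 4 * N), N)
  else (-N, N - (α % (8 * N) - 6 * N))

/-! ### Paths and passage times -/

def vx (l : List V) (i : ℕ) : V := l.getD i 0

def len (l : List V) : ℕ := l.length - 1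

def ed (l : List V) (i : ℕ) : Sym2 V := s(vx l i, vx l (i + 1))

def On (l : List V) (z : V) : Prop := ∃ i, i ≤ len l ∧ vx l i = z

noncomputable def pedges (l : List V) : Finset (Sym2 V) := (range (len l)).image (ed l)

/-- `f i, ..., f j` is a nearest-neighbour walk inside `S` -/
def Chain (S : Set V) (f : ℕ → V) (i j : ℕ) : Prop :=
  (∀ k, i ≤ k → k < j → Adj (f k) (f (k + 1))) ∧ ∀ k, i ≤ k → k ≤ j → f k ∈ S

/-- self-avoiding path from `a` to `b` inside `S` -/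
structure IsPth (S : Set V) (a b : V) (l : List V) : Prop where
  ne : l ≠ []
  start : vx l 0 = a
  stop : vx l (len l) = b
  chain : Chain S (vx l) 0 (len l)
  inj : ∀ i j, i ≤ len l → j ≤ len l → vx l i = vx l j → i = j

def Reach (S : Set V) (a b : V) : Prop := ∃ l, IsPth S a b l

noncomputable def W (t : Env) (f : ℕ → V) (i j : ℕ) : ℝ := ∑ k ∈ Ico i j, t s(f k, f (k + 1))

noncomputable def wt (t : Env) (l : List V) : ℝ := W t (vx l) 0 (len l)

/-- passage time inside `S` -/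
noncomputable def T (S : Set V) (t : Env) (a b : V) : ℝ :=
  ⨅ l : {l : List V // IsPth S a b l}, wt t l.1

/-- the strict minimiser among paths inside `S` -/
def IsGeo (S : Set V) (t : Env) (a b : V) (l : List V) : Prop :=
  IsPth S a b l ∧ ∀ q, IsPth S a b q → q ≠ l → wt t l < wt t q

def Uniq (S : Set V) (t : Env) : Prop :=
  ∀ a b p q, IsPth S a b p → IsPth S a b q → wt t p = wt t q → p = q

/-- the list `f 0, ..., f n` -/
def ofF (f : ℕ → V) (n : ℕ) : List V := (List.range (n + 1)).map f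

/-- the part of `l` between positions `i` and `j` -/
def seg (l : List V) (i j : ℕ) : List V := ofF (fun k => vx l (i + k)) (j - i)

def rev (l : List V) : List V := ofF (fun k => vx l (len l - k)) (len l)

/-- the monotone staircase from `x` to `y` (first horizontally, then vertically) -/
def stair (x y : V) (k : ℕ) : V :=
  if k ≤ (y.1 - x.1).natAbs then (x.1 + (y.1 - x.1).sign * k, x.2)
  else (y.1, x.2 + (y.2 - x.2).sign * ((k : ℤ) - (y.1 - x.1).natAbs))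

/-- the mixed second difference of boundary passage times -/
noncomputable def Dm (t : Env) (N : ℕ) (α β : ℤ) : ℝ :=
  T (bx 0 N) t (bv N α) (bv N β) + T (bx 0 N) t (bv N (α + 1)) (bv N (β + 1)) -
    T (bx 0 N) t (bv N α) (bv N (β + 1)) - T (bx 0 N) t (bv N (α + 1)) (bv N β)

/-- excess of the best walk from `a` to `b` through the oriented edge `x → w` -/
noncomputable def xo (t : Env) (N : ℕ) (a b x w : V) : ℝ :=
  T (bx 0 N) t a x + t s(x, w) + T (bx 0 N) t w b - T (bx 0 N) t a b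

/-- excess of the best walk from `a` to `b` through `e`, capped at `t e` -/
noncomputable def xs (t : Env) (N : ℕ) (a b : V) (e : Sym2 V) : ℝ :=
  T (bx 0 N) (Function.update t e 0) a b + t e - T (bx 0 N) t a b

/-- the length of the set of levels `s ≤ κ` such that, after lowering `e` by `s`, the route of the
cell `c` uses `e` and its two references do not -/
noncomputable def dl (t : Env) (N : ℕ) (κ : ℝ) (c : ℤ × ℤ) (e : Sym2 V) : ℝ :=
  max (min κ (min (xs t N (bv N c.1) (bv N (c.2 + 1)) e) (xs t N (bv N (c.1 + 1)) (bv N c.2) e)) -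
    xs t N (bv N c.1) (bv N c.2) e) 0

/-- the oriented edge `x → w` lies on a minimal walk between two boundary points of the box -/
def CovE (c : V) (n : ℕ) (x w : V) (t : Env) : Prop :=
  ∃ a b, Bd c n a ∧ Bd c n b ∧
    T (bx c n) t a x + t s(x, w) + T (bx c n) t w b ≤ T (bx c n) t a b

def CA (x w : V) (t : Env) : Prop := ∀ n : ℕ, 1 ≤ n → CovE x n x w t

/-- a bigeodesic -/
def Big (t : Env) (v : ℤ → V) : Prop :=
  Function.Injective v ∧ (∀ i, Adj (v i) (v (i + 1))) ∧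
    ∀ (i : ℤ) (n : ℕ), W t (fun k => v (i + k)) 0 n ≤ T Set.univ t (v i) (v (i + n))

/-! ### The probabilistic model -/

noncomputable def PP (G : Measure ℝ) : Measure Env := Measure.infinitePi fun _ => G

instance (G : Measure ℝ) [IsProbabilityMeasure G] : IsProbabilityMeasure (PP G) := by
  unfold PP; infer_instance

/-- the environment seen from `v` -/
def trans (v : V) (ω : Env) : Env := fun e => ω (e.map fun x => x + v)

/-- same light/heavy pattern -/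
def SameP (M0 : ℝ) (ω ω' : Env) : Prop := ∀ e, ω e ≤ M0 ↔ ω' e ≤ M0

/-- An i.i.d. environment `ω` with law `G` and integrable weights `Ψ ω` built from it. -/
structure Model where
  G : Measure ℝ
  prob : IsProbabilityMeasure G
  atom : NullSingletonClass G
  t0 : ℝ
  M0 : ℝ
  m : ℝ
  C : ℝ
  Ψ : Env → Env
  loc : ℕ → Env → Env
  t0_nonneg : 0 ≤ t0
  t0_lt : t0 < M0
  below : G (Set.Iio t0) = 0
  acc0 : ∀ κ : ℝ, 0 < κ → 0 < G (Set.Iio (t0 + κ))
  acc1 : ∀ κ : ℝ, 0 < κ → 0 < G (Set.Ioo M0 (M0 + κ))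
  meas : Measurable Ψ
  cov : ∀ v ω, Ψ (trans v ω) = trans v (Ψ ω)
  light : ∀ ω e, ω e ≤ M0 → Ψ ω e = max (ω e) t0
  lb : ∀ ω e, min (ω e) (M0 + 1) ≤ Ψ ω e
  ub : ∀ ω e, Ψ ω e ≤ max (ω e) t0
  mono : ∀ ω ω', SameP M0 ω ω' → ∀ e, ω e ≤ ω' e → Ψ ω e ≤ Ψ ω' e
  strict : ∀ ω ω', SameP M0 ω ω' → ∀ e, t0 ≤ ω e → ω e < ω' e → Ψ ω e < Ψ ω' e
  integ : ∀ x y, Adj x y → Integrable (fun ω => Ψ ω s(x, y)) (PP G)
  mean : ∀ x y, Adj x y → ∫ ω, Ψ ω s(x, y) ∂(PP G) ≤ m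
  loc_meas : ∀ r, Measurable (loc r)
  loc_cov : ∀ r v ω, loc r (trans v ω) = trans v (loc r ω)
  loc_nonneg : ∀ r ω e, 0 ≤ loc r ω e
  loc_le : ∀ r ω e, loc r ω e ≤ Ψ ω e
  loc_dep : ∀ r x y ω ω', Adj x y → (∀ e ∈ edgesOf (box x r), ω e = ω' e) →
    loc r ω s(x, y) = loc r ω' s(x, y)
  loc_prob : ∀ (r : ℕ) x y, Adj x y →
    (PP G).real {ω | loc r ω s(x, y) ≠ Ψ ω s(x, y)} ≤ C * (1 / 2) ^ r

instance (M : Model) : IsProbabilityMeasure M.G := M.prob

instance (M : Model) : NullSingletonClass M.G := M.atom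

/-- a fixed enumeration of the pairs -/
noncomputable def rk : Sym2 V → ℕ := (exists_injective_nat (Sym2 V)).choose

/-- the elements of `u` before `e` -/
noncomputable def bef (u : Finset (Sym2 V)) (e : Sym2 V) : Finset (Sym2 V) :=
  u.filter fun f => rk f < rk e

/-- lower a light coordinate `e` to `min (ω e) z` -/
noncomputable def lo (M0 : ℝ) (e : Sym2 V) (z : ℝ) (ω : Env) : Env :=
  if ω e ≤ M0 then Function.update ω e (min (ω e) z) else ω

/-- `1 + hh` is the density of the lowered coordinate -/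
noncomputable def hh (G : Measure ℝ) (M0 z : ℝ) : ℝ :=
  if z ≤ M0 then G.real (Set.Ici z) + G.real (Set.Ioc z M0) - 1 else 0

noncomputable def hs (G : Measure ℝ) (M0 : ℝ) (u : Finset (Sym2 V)) (ω : Env) : ℝ :=
  ∑ f ∈ u, hh G M0 (ω f)

noncomputable def dens (G : Measure ℝ) (M0 S : ℝ) (u : Finset (Sym2 V)) (ω : Env) : ℝ :=
  ∏ f ∈ u, (1 + S * hh G M0 (ω f))

/-- the bottom of the class of `z` -/
noncomputable def fl (t0 M0 z : ℝ) : ℝ := if z ≤ M0 then t0 else M0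

/-- values within `κ` of the bottom of their class -/
def Lo (t0 M0 κ : ℝ) : Set ℝ := {z | z < fl t0 M0 z + κ}

/-- some walk of `n` king-steps from `x` has at least `k` edges with value in `B` near it -/
def Many (B : Set ℝ) (r n : ℕ) (k : ℝ) (x : V) (ω : Env) : Prop :=
  ∃ f : ℕ → V, f 0 = x ∧ (∀ i, i < n → Near 1 (f i) (f (i + 1))) ∧
    k ≤ (((edgesOf (thick r ((range (n + 1)).image f))).filter fun e => ω e ∈ B).card : ℝ)

/-! ### The truncated model -/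

/-- a heavy edge is close to `x` -/
def bad (M0 : ℝ) (ω : Env) (x : V) : Prop := ∃ e ∈ edgesOf (box x 1), M0 < ω e

def clus (M0 : ℝ) (ω : Env) (x : V) : Set V := {y | Reach {v | bad M0 ω v} x y}

noncomputable def csz (M0 : ℝ) (ω : Env) (e : Sym2 V) : ℝ :=
  Sym2.lift ⟨fun x y => ((clus M0 ω x).ncard : ℝ) + (clus M0 ω y).ncard,
    fun _ _ => add_comm _ _⟩ e

noncomputable def cap (Z z : ℝ) : ℝ := if z ≤ Z then z else Z + (z - Z) / (1 + (z - Z))

noncomputable def Psi (t0 M0 : ℝ) (ω : Env) : Env := fun e =>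
  if ω e ≤ M0 then max (ω e) t0 else cap (M0 + 1 + 8 * M0 * csz M0 ω e) (ω e)

noncomputable def PsiL (t0 M0 : ℝ) (r : ℕ) (ω : Env) : Env := fun e =>
  if 4 ≤ r ∧ ∀ x ∈ e, clus M0 ω x ⊆ bx x (r - 4) then Psi t0 M0 ω e else 0

/-! ### The limit norm -/

structure Shape (M : Model) (μ : Seminorm ℝ (ℝ × ℝ)) : Prop where
  lower : ∀ v : V, μ (cv v) ≤ ∫ ω, T Set.univ (M.Ψ ω) 0 v ∂(PP M.G)
  upper : ∀ (v : V) (δ : ℝ), 0 < δ → ∃ n0 : ℕ, ∀ n : ℕ, n0 ≤ n →
    ∫ ω, T Set.univ (M.Ψ ω) 0 ((n : ℤ) • v) ∂(PP M.G) ≤ n * (μ (cv v) + δ)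
  bound : ∀ x, μ x ≤ 2 * M.m * ‖x‖
  pos : ∃ c : ℝ, 0 < c ∧ ∀ x, c * ‖x‖ ≤ μ x

/-- `μ` is linear near `w` -/
def Flat (μ : Seminorm ℝ (ℝ × ℝ)) (w : ℝ × ℝ) (r : ℝ) : Prop :=
  ∃ ρ : (ℝ × ℝ) →ₗ[ℝ] ℝ, ∀ x, ‖x - w‖ ≤ r → μ x = ρ x

/-- longitudinal coordinate -/
def gP (sw : Bool) (x : ℝ × ℝ) : ℝ := if sw = true then x.2 else x.1

/-- sheared transversal coordinate -/
def gQ (sw : Bool) (s : ℝ) (x : ℝ × ℝ) : ℝ :=
  if sw = true then x.1 - s * x.2 else x.2 - s * x.1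

/-- the transversal coordinate along `l` is within `H` of a sequence of total variation `≤ E` -/
def Straight (sw : Bool) (s E H : ℝ) (l : List V) : Prop :=
  ∃ g : ℕ → ℝ, (∀ i, i ≤ len l → |g i - gQ sw s (cv (vx l i))| ≤ H) ∧
    ∑ i ∈ range (len l), |g (i + 1) - g i| ≤ E

/-- the normalised chord vector -/
noncomputable def nv (N : ℕ) (a b : V) : ℝ × ℝ := (N : ℝ)⁻¹ • (cv b - cv a)

def ctr (h : ℕ) (q : V) : V := (2 * h * q.1, 2 * h * q.2)

def BadBlk (t : Env) (μ : Seminorm ℝ (ℝ × ℝ)) (δ : ℝ) (h : ℕ) (q : V) : Prop :=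
  ∃ x y, Bd (ctr h q) h x ∧ Bd (ctr h q) (3 * h) y ∧
    T (bx (ctr h q) (3 * h)) t x y < μ (cv y - cv x) - δ * (3 * h)

def NoBadSeq (Bad : V → Prop) (N : ℕ) (J0 j0 : ℝ) : Prop :=
  ∀ (J : ℕ) (q : ℕ → V), (J : ℝ) ≤ J0 → Near N (q 0) 0 → (∀ k, k < J → Near 2 (q k) (q (k + 1))) →
    ((((range (J + 1)).image q).filter Bad).card : ℝ) < j0

noncomputable def slab (N : ℕ) (sw : Bool) (s ξ : ℝ) (i : ℤ) : Finset V :=
  (box 0 N).filter fun x => |gQ sw s (cv x) - i * (ξ * N)| ≤ 3 * (ξ * N)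

noncomputable def cell (sw : Bool) (s : ℝ) (l d : ℕ) (x : V) : V :=
  (⌊gP sw (cv x) / l⌋, ⌊gQ sw s (cv x) / d⌋)

noncomputable def tube (N : ℕ) (sw : Bool) (s : ℝ) (l d : ℕ) (p q : List V) : Finset V :=
  (box 0 N).filter fun x => ∃ y, (On p y ∨ On q y) ∧ cell sw s l d x = cell sw s l d y

/-- `p` is a walk in the box of length at most `C1 N` -/
def Short (N : ℕ) (C1 : ℝ) (p : List V) : Prop :=
  Chain (bx 0 N) (vx p) 0 (len p) ∧ (len p : ℝ) ≤ C1 * N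

/-! ### Near ties -/

/-- the box without `π`, except for its `i`-th vertex -/
def exD (N : ℕ) (π : List V) (i : ℕ) : Set V := {v | Near N v 0 ∧ (¬ On π v ∨ v = vx π i)}

/-- the cost of leaving `π` for good at its `i`-th vertex and going to `b` -/
noncomputable def ex (t : Env) (N : ℕ) (π : List V) (b : V) (i : ℕ) : ℝ :=
  T (exD N π i) t (vx π i) b

/-- a geodesic of length `L` from `z` has many almost optimal exits towards a boundary point -/
def Tie (t : Env) (N L : ℕ) (K ε : ℝ) (z : V) : Prop :=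
  ∃ z' π b, IsGeo (bx 0 N) t z z' π ∧ len π = L ∧ (∀ i, i ≤ L → ¬ Out 0 N (vx π i)) ∧
    Bd 0 N b ∧ Reach (exD N π 0) (vx π 0) b ∧
    (∀ i, i ≤ L → Reach (exD N π i) (vx π i) b →
      ex t N π b 0 - K ≤ W t (vx π) 0 i + ex t N π b i) ∧
    ε * L ≤ (((range (L + 1)).filter fun i => Reach (exD N π i) (vx π i) b ∧
      W t (vx π) 0 i + ex t N π b i ≤ ex t N π b 0 + K).card : ℝ)

/-- the rounded exit costs, as the graph of a function -/
noncomputable def pat (t : Env) (N : ℕ) (π : List V) (Km : ℕ) (b : V) : Finset (ℕ × ℤ) :=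
  (range (len π + 1) ×ˢ Icc (-(Km : ℤ)) Km).filter fun c =>
    Reach (exD N π 0) (vx π 0) b ∧ Reach (exD N π c.1) (vx π c.1) b ∧
      ⌊ex t N π b c.1 - ex t N π b 0⌋ = c.2

/-- position `i` is a tie for the pattern `P`, and a later exit wins if the weights `w` after `i`
are close to their floors `f` -/
def Elig (P : Finset (ℕ × ℤ)) (w f : ℕ → ℝ) (K κ : ℝ) (L1 i : ℕ) : Prop :=
  ∃ n : ℤ, (i, n) ∈ P ∧ ∑ k ∈ range i, w k + n ≤ K ∧ ∃ (j : ℕ) (n' : ℤ), (j, n') ∈ P ∧ i < j ∧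
    j ≤ i + L1 ∧ ∑ k ∈ Ico i j, (f k + κ) + 2 * K < n - n'

/-- `w` is close to `p`, almost on a geodesic from `a` to `b`, and goes to `b` without meeting `p` -/
def Sat (t : Env) (N : ℕ) (a b : V) (p : List V) (l0 : ℕ) (w : V) : Prop :=
  (∃ y, On p y ∧ Near l0 w y) ∧
    (∃ τ, IsPth (bx 0 N) w b τ ∧ wt t τ = T (bx 0 N) t w b ∧ ∀ v, On τ v → ¬ On p v) ∧
    T (bx 0 N) t a w + T (bx 0 N) t w b ≤ T (bx 0 N) t a b + 1

/-! ### Global events -/

def Base (t : Env) (C1 c2 : ℝ) (N : ℕ) : Prop :=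
  Uniq (bx 0 N) t ∧
    (∀ a b l, Bd 0 N a → Bd 0 N b → IsGeo (bx 0 N) t a b l → (len l : ℝ) ≤ C1 * N) ∧
    ∀ a b z, Bd 0 N a → Bd 0 N b → Near (N / 8 + 1) z 0 →
      T (bx 0 N) t a z + T (bx 0 N) t z b ≤ T (bx 0 N) t a b + 1 → c2 ≤ ‖nv N a b‖

/-- long boundary cells -/
noncomputable def cells (N : ℕ) (c2 : ℝ) : Finset (ℤ × ℤ) :=
  (Ico (0 : ℤ) (8 * N) ×ˢ Ico (0 : ℤ) (16 * N)).filter fun c =>
    c.1 + 1 < c.2 ∧ c.2 + 1 < c.1 + 8 * N ∧ c2 ≤ ‖nv N (bv N c.1) (bv N c.2)‖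

noncomputable def bulk (N : ℕ) : Finset (Sym2 V) := edgesOf (box 0 (N / 8))

/-- the total influence of the ordinary bulk edges on the cell `c` -/
noncomputable def load (M : Model) (κ : ℝ) (N : ℕ) (Rare : Sym2 V → Set Env) (c : ℤ × ℤ)
    (ω : Env) : ℝ :=
  ∑ e ∈ (bulk N).filter (fun e => ω ∉ Rare e ∧ M.t0 + 2 * κ ≤ ω e ∧ ω e ≤ M.M0),
    dl (M.Ψ ω) N κ c e

/-- on `G0` the load of the cell is dominated by a function of mean at most `A` times its mass -/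
def Dom (M : Model) (κ : ℝ) (N : ℕ) (G0 : Set Env) (Rare : Sym2 V → Set Env) (c : ℤ × ℤ)
    (A : ℝ) : Prop :=
  ∃ F : Env → ℝ, Integrable F (PP M.G) ∧ (∀ ω, 0 ≤ F ω) ∧
    ∫ ω, F ω ∂(PP M.G) ≤ A * ∫ ω, Dm (M.Ψ ω) N c.1 c.2 ∂(PP M.G) ∧
    ∀ ω ∈ G0, load M κ N Rare c ω ≤ F ω

end Vale.Agent.P158b
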