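import Vale.Agent.P158b.Monge

/-! Lowering one edge: the excess functions. -/

open MeasureTheory ProbabilityTheory Finset
open scoped Classical

namespace Vale.Agent.P158b

theorem exc_wt {S : Set V} {a b : V} {l : List V} (hl : IsPth S a b l) (t : Env) (e : Sym2 V)
    (y : ℝ) : wt (Function.update t e y) l =
      if e ∈ pedges l then wt t l - t e + y else wt t l := by
  rw [hl.wt_eq_sum, hl.wt_eq_sum]
  split_ifs with h
  · rw [sum_update_of_mem h, ← add_sum_erase _ _ h, sdiff_singleton_eq_erase]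
    ring
  · exact sum_update_of_notMem h _ _

theorem exc_nonneg {t : Env} (ht : ∀ e, 0 ≤ t e) (e : Sym2 V) {y : ℝ} (hy : 0 ≤ y) (f : Sym2 V) :
    0 ≤ Function.update t e y f := by
  rcases eq_or_ne f e with rfl | h
  · rwa [Function.update_self]
  · rw [Function.update_of_ne h]
    exact ht f

theorem exc_tri {t : Env} (ht : ∀ e, 0 ≤ t e) {N : ℕ} {a b x w : V} (ha : Near N a 0)
    (hb : Near N b 0) (hx : Near N x 0) (hw : Near N w 0) (hxw : Adj x w) :
    T (bx 0 N) t a b ≤ T (bx 0 N) t a x + t s(x, w) + T (bx 0 N) t w b := by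
  linarith [T_triangle ht (reach_bx ha hx) (reach_bx hx hb),
    T_triangle ht (reach_bx hx hw) (reach_bx hw hb), T_adj_le (S := bx 0 N) ht hx hw hxw]

/-- A path either avoids `e = s(x,w)` or uses it once, in one of the two orientations; conversely
`T_triangle` and `T_adj_le` for the updated weights. -/
theorem T_update_eq {t : Env} (ht : ∀ e, 0 ≤ t e) {N : ℕ} {a b x w : V} (ha : Near N a 0)
    (hb : Near N b 0) (hx : Near N x 0) (hw : Near N w 0) (hxw : Adj x w) {s : ℝ} (hs0 : 0 ≤ s)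
    (hs : s ≤ t s(x, w)) :
    T (bx 0 N) (Function.update t s(x, w) (t s(x, w) - s)) a b =
      T (bx 0 N) t a b - max (s - min (xo t N a b x w) (xo t N a b w x)) 0 := by
  have h0 := exc_nonneg ht s(x, w) (sub_nonneg.2 hs)
  have h1 : ∀ u v, T (bx 0 N) (Function.update t s(x, w) (t s(x, w) - s)) u v ≤
      T (bx 0 N) t u v := T_mono_wt _ h0 fun f => by
    rcases eq_or_ne f s(x, w) with rfl | h
    · rw [Function.update_self]
      linarith
    · rw [Function.update_of_ne h]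
  have e : s(w, x) = s(x, w) := Sym2.eq_swap
  refine le_antisymm ?_ (le_T (reach_bx ha hb) fun l hl => ?_)
  · have h2 := exc_tri h0 ha hb hx hw hxw
    have h3 := exc_tri h0 ha hb hw hx hxw.symm
    rw [e] at h3
    rw [Function.update_self] at h2 h3
    rw [le_sub_comm, max_le_iff, sub_le_comm, le_min_iff, xo, xo, e]
    refine ⟨⟨?_, ?_⟩, ?_⟩ <;> linarith [h1 a x, h1 a w, h1 w b, h1 x b, h1 a b]
  · rw [exc_wt hl]
    split_ifs with h
    · obtain ⟨i, hi, h2⟩ := mem_pedges.1 h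
      have h3 := T_le_W ht (Nat.zero_le i) (hl.chain.mono subset_rfl le_rfl hi.le)
      have h4 := T_le_W ht (show i + 1 ≤ len l from hi)
        (hl.chain.mono subset_rfl (Nat.zero_le _) le_rfl)
      have h5 := W_add t (vx l) (Nat.zero_le i) hi.le
      have h6 := W_add t (vx l) i.le_succ (show i + 1 ≤ len l from hi)
      have h7 : W t (vx l) i (i + 1) = t s(x, w) := by
        rw [W, Nat.Ico_succ_singleton, sum_singleton, ← h2, ed]
      have h8 := le_max_left (s - min (xo t N a b x w) (xo t N a b w x)) 0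
      have h9 := min_le_left (xo t N a b x w) (xo t N a b w x)
      have h10 := min_le_right (xo t N a b x w) (xo t N a b w x)
      rw [hl.start] at h3
      rw [hl.stop] at h4
      rw [wt]
      generalize min (xo t N a b x w) (xo t N a b w x) = m at *
      rw [xo] at h9 h10
      rw [e] at h10
      rcases Sym2.eq_iff.1 h2 with ⟨k1, k2⟩ | ⟨k1, k2⟩ <;> rw [k1] at h3 <;> rw [k2] at h4 <;>
        linarith
    · linarith [T_le_wt ht hl, le_max_right (s - min (xo t N a b x w) (xo t N a b w x)) 0]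

theorem xo_nonneg {t : Env} (ht : ∀ e, 0 ≤ t e) {N : ℕ} {a b x w : V} (ha : Near N a 0)
    (hb : Near N b 0) (hx : Near N x 0) (hw : Near N w 0) (hxw : Adj x w) :
    0 ≤ xo t N a b x w :=
  sub_nonneg.2 (exc_tri ht ha hb hx hw hxw)

theorem xo_symm {t : Env} (ht : ∀ e, 0 ≤ t e) (N : ℕ) (a b x w : V) :
    xo t N a b x w = xo t N b a w x := by
  rw [xo, xo, T_symm _ ht b w, T_symm _ ht x a, T_symm _ ht b a, Sym2.eq_swap (a := w)]
  ring

theorem xs_eq {t : Env} (ht : ∀ e, 0 ≤ t e) {N : ℕ} {a b x w : V} (ha : Near N a 0)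
    (hb : Near N b 0) (hx : Near N x 0) (hw : Near N w 0) (hxw : Adj x w) :
    xs t N a b s(x, w) = min (t s(x, w)) (min (xo t N a b x w) (xo t N a b w x)) := by
  have h := T_update_eq ht ha hb hx hw hxw (ht _) le_rfl
  rw [sub_self] at h
  rw [xs, h]
  rcases le_total (t s(x, w)) (min (xo t N a b x w) (xo t N a b w x)) with k | k
  · rw [min_eq_left k, max_eq_right (by linarith)]
    ring
  · rw [min_eq_right k, max_eq_left (by linarith)]
    ring

theorem T_update_xs {t : Env} (ht : ∀ e, 0 ≤ t e) {N : ℕ} {a b x w : V} (ha : Near N a 0)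
    (hb : Near N b 0) (hx : Near N x 0) (hw : Near N w 0) (hxw : Adj x w) {s : ℝ} (hs0 : 0 ≤ s)
    (hs : s ≤ t s(x, w)) :
    T (bx 0 N) (Function.update t s(x, w) (t s(x, w) - s)) a b =
      T (bx 0 N) t a b - max (s - xs t N a b s(x, w)) 0 := by
  rw [T_update_eq ht ha hb hx hw hxw hs0 hs, xs_eq ht ha hb hx hw hxw, ← max_sub_sub_left s (t _),
    max_right_comm, max_eq_right (sub_nonpos.2 hs), max_comm]

/-- an edge of a minimal path has no excess -/
theorem xs_le_of_mem {t : Env} (ht : ∀ e, 0 ≤ t e) {N : ℕ} {a b : V} {l : List V}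
    (hl : IsPth (bx 0 N) a b l) (hw : wt t l = T (bx 0 N) t a b) {e : Sym2 V}
    (he : e ∈ pedges l) : xs t N a b e ≤ 0 := by
  have h := T_le_wt (exc_nonneg ht e le_rfl) hl
  rw [exc_wt hl, if_pos he] at h
  rw [xs]
  linarith

theorem dl_nonneg (t : Env) (N : ℕ) (κ : ℝ) (c : ℤ × ℤ) (e : Sym2 V) : 0 ≤ dl t N κ c e :=
  le_max_right _ _

/-- `Dm_nonneg` after lowering `e` by `min κ (min xp xq)`, and `T_update_xs` four times -/
theorem dl_le_Dm {t : Env} (ht : ∀ e, 0 ≤ t e) {N : ℕ} (hN : 1 ≤ N) {c : ℤ × ℤ}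
    (h1 : c.1 + 1 ≤ c.2) (h2 : c.2 + 1 ≤ c.1 + 8 * N) {x w : V} (hx : Near N x 0)
    (hw : Near N w 0) (hxw : Adj x w) {κ : ℝ} (hκ0 : 0 ≤ κ) (hκ : κ ≤ t s(x, w)) :
    dl t N κ c s(x, w) ≤ Dm t N c.1 c.2 := by
  have hb := fun α => (bv_bd hN α).1
  have h0 : ∀ α β, 0 ≤ xs t N (bv N α) (bv N β) s(x, w) := fun α β => by
    rw [xs_eq ht (hb α) (hb β) hx hw hxw]
    exact le_min (ht _) (le_min (xo_nonneg ht (hb α) (hb β) hx hw hxw)
      (xo_nonneg ht (hb α) (hb β) hw hx hxw.symm))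
  rw [dl]
  obtain ⟨s, hs⟩ : ∃ s, s = min κ (min (xs t N (bv N c.1) (bv N (c.2 + 1)) s(x, w))
    (xs t N (bv N (c.1 + 1)) (bv N c.2) s(x, w))) := ⟨_, rfl⟩
  rw [← hs]
  have k0 : 0 ≤ s := hs ▸ le_min hκ0 (le_min (h0 _ _) (h0 _ _))
  obtain ⟨k1, k2, k3⟩ : s ≤ κ ∧ _ ∧ _ := by simpa only [le_min_iff] using hs.le
  have k4 := k1.trans hκ
  have h := Dm_nonneg (exc_nonneg ht s(x, w) (sub_nonneg.2 k4)) hN h1 h2
  simp only [Dm, T_update_xs ht (hb _) (hb _) hx hw hxw k0 k4, max_eq_right (sub_nonpos.2 k2),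
    max_eq_right (sub_nonpos.2 k3)] at h
  rw [Dm]
  linarith [le_max_right (s - xs t N (bv N (c.1 + 1)) (bv N (c.2 + 1)) s(x, w)) 0]

/-- if lowering `e` by `s ≥ κ` does not change the two reference passage times, the mass drops by
at least `dl` -/
theorem dl_le_drop {t : Env} (ht : ∀ e, 0 ≤ t e) {N : ℕ} (hN : 1 ≤ N) {c : ℤ × ℤ} {x w : V}
    (hx : Near N x 0) (hw : Near N w 0) (hxw : Adj x w) {κ s : ℝ} (hκ0 : 0 ≤ κ) (hκ : κ ≤ s)
    (hs : s ≤ t s(x, w))
    (hp : T (bx 0 N) (Function.update t s(x, w) (t s(x, w) - s)) (bv N c.1) (bv N (c.2 + 1)) =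
      T (bx 0 N) t (bv N c.1) (bv N (c.2 + 1)))
    (hq : T (bx 0 N) (Function.update t s(x, w) (t s(x, w) - s)) (bv N (c.1 + 1)) (bv N c.2) =
      T (bx 0 N) t (bv N (c.1 + 1)) (bv N c.2)) :
    dl t N κ c s(x, w) ≤
      Dm t N c.1 c.2 - Dm (Function.update t s(x, w) (t s(x, w) - s)) N c.1 c.2 := by
  have hb := fun α => (bv_bd hN α).1
  have k0 := hκ0.trans hκ
  have h : dl t N κ c s(x, w) ≤ max (s - xs t N (bv N c.1) (bv N c.2) s(x, w)) 0 :=
    max_le_max (sub_le_sub_right ((min_le_left _ _).trans hκ) _) le_rfl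
  rw [Dm, Dm, hp, hq, T_update_xs ht (hb _) (hb _) hx hw hxw k0 hs,
    T_update_xs ht (hb _) (hb _) hx hw hxw k0 hs]
  linarith [le_max_right (s - xs t N (bv N (c.1 + 1)) (bv N (c.2 + 1)) s(x, w)) 0]

/-- If `dl > 0` pick the orientation `x' → w'` of the edge realising `xs` of the route:
`xo a b x' w' < κ`, `< xo a b' x' w'` and `< xo a' b x' w'`. -/
theorem dl_pos {t : Env} (ht : ∀ e, 0 ≤ t e) {N : ℕ} (hN : 1 ≤ N) {c : ℤ × ℤ} {x w : V}
    (hx : Near N x 0) (hw : Near N w 0) (hxw : Adj x w) {κ : ℝ} (hκ : κ ≤ t s(x, w))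
    (h : 0 < dl t N κ c s(x, w)) :
    ∃ x' w', ((x' = x ∧ w' = w) ∨ (x' = w ∧ w' = x)) ∧
      xo t N (bv N c.1) (bv N c.2) x' w' < κ ∧
      xo t N (bv N c.1) (bv N c.2) x' w' < xo t N (bv N c.1) (bv N (c.2 + 1)) x' w' ∧
      xo t N (bv N c.1) (bv N c.2) x' w' < xo t N (bv N (c.1 + 1)) (bv N c.2) x' w' := by
  have hb := fun α => (bv_bd hN α).1
  simp only [dl, xs_eq ht (hb _) (hb _) hx hw hxw, lt_max_iff, lt_irrefl, or_false, sub_pos,
    lt_min_iff] at h
  obtain ⟨h1, ⟨-, h2, h3⟩, -, h4, h5⟩ := h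
  have e := min_eq_right (((min_lt_iff.1 h1).resolve_left hκ.not_gt).le.trans hκ)
  rw [e] at h1 h2 h3 h4 h5
  rcases le_total (xo t N (bv N c.1) (bv N c.2) x w) (xo t N (bv N c.1) (bv N c.2) w x) with k | k
  · rw [min_eq_left k] at h1 h2 h4
    exact ⟨x, w, Or.inl ⟨rfl, rfl⟩, h1, h2, h4⟩
  · rw [min_eq_right k] at h1 h3 h5
    exact ⟨w, x, Or.inr ⟨rfl, rfl⟩, h1, h3, h5⟩

end Vale.Agent.P158b
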