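import Mathlib

/-! First-passage percolation on the square lattice: the definitions used in the statement. -/

namespace Vale.Agent.P158b

/-- the nearest-neighbour graph on `ℤ²` -/
def grid : SimpleGraph (ℤ × ℤ) where
  Adj x y := |x.1 - y.1| + |x.2 - y.2| = 1
  symm := ⟨fun x y h => by rwa [abs_sub_comm y.1, abs_sub_comm y.2]⟩
  loopless := ⟨fun x h => by simp at h⟩

/-- the sum of the weights of the edges traversed by a finite nearest-neighbour path -/
def pathWeight (t : grid.edgeSet → ℝ) {x y : ℤ × ℤ} (p : grid.Walk x y) : ℝ :=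
  (p.darts.map fun d => t ⟨d.edge, d.edge_mem⟩).sum

/-- the passage time -/
noncomputable def passage (t : grid.edgeSet → ℝ) (x y : ℤ × ℤ) : ℝ :=
  ⨅ p : grid.Walk x y, pathWeight t p

/-- a bigeodesic -/
def IsBigeodesic (t : grid.edgeSet → ℝ) (v : ℤ → ℤ × ℤ) : Prop :=
  Function.Injective v ∧ ∃ h : ∀ i, grid.Adj (v i) (v (i + 1)),
    ∀ i j : ℤ, i < j → ∑ k ∈ Finset.Ico i j, t ⟨s(v k, v (k + 1)), h k⟩ = passage t (v i) (v j)

end Vale.Agent.P158b
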