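import Vale.Agent.P158b.NoBig
import Vale.Agent.P158b.Stmt

/-! Transfer to the statement. -/

open MeasureTheory ProbabilityTheory Finset
open scoped Classical

namespace Vale.Agent.P158b

theorem grid_adj {x y : V} : grid.Adj x y ↔ Adj x y := by
  change |x.1 - y.1| + |x.2 - y.2| = 1 ↔ _
  unfold Adj
  rcases abs_cases (x.1 - y.1) with h | h <;> rcases abs_cases (x.2 - y.2) with h' | h' <;> omega

theorem exists_walk (ω : Env) (f : ℕ → V) (n : ℕ) (h : Chain Set.univ f 0 n) :
    ∃ p : grid.Walk (f 0) (f n), pathWeight (fun e : grid.edgeSet => ω e.1) p = W ω f 0 n := by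
  induction n with
  | zero => exact ⟨SimpleGraph.Walk.nil, by simp [pathWeight, W]⟩
  | succ n ih =>
    obtain ⟨p, hp⟩ := ih (h.mono subset_rfl le_rfl (Nat.le_succ n))
    refine ⟨p.concat (grid_adj.2 (h.1 n (Nat.zero_le n) (Nat.lt_succ_self n))), ?_⟩
    unfold pathWeight W at *
    rw [Finset.sum_Ico_succ_top (Nat.zero_le n), ← hp, SimpleGraph.Walk.darts_concat,
      List.concat_eq_append, List.map_append, List.sum_append]
    simp [SimpleGraph.Dart.edge]

theorem passage_le_T {ω : Env} (hω : ∀ e, 0 ≤ ω e) (a b : V) :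
    passage (fun e : grid.edgeSet => ω e.1) a b ≤ T Set.univ ω a b := by
  refine le_T (reach_univ a b) fun l hl => ?_
  obtain ⟨p, hp⟩ := exists_walk ω (vx l) (len l) hl.chain
  have h1 := hl.start
  have h2 := hl.stop
  subst h1
  rw [← h2, wt, ← hp]
  refine ciInf_le ⟨0, ?_⟩ p
  rintro _ ⟨q, rfl⟩
  refine List.sum_nonneg fun z hz => ?_
  obtain ⟨d, -, rfl⟩ := List.mem_map.1 hz
  exact hω _

/-- A path in the sense of `IsPth` gives a `grid.Walk` of the same weight (induction on the length
of a chain), so `passage ≤ T univ` (`ciInf_le`, nonnegative weights, `le_T`). -/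
theorem big_of_isBigeodesic {ω : Env} (hω : ∀ e, 0 ≤ ω e) {v : ℤ → V}
    (h : IsBigeodesic (fun e : grid.edgeSet => ω e.1) v) : Big ω v := by
  obtain ⟨h1, h2, h3⟩ := h
  refine ⟨h1, fun i => grid_adj.1 (h2 i), fun i n => ?_⟩
  rcases Nat.eq_zero_or_pos n with rfl | hn
  · rw [W, Finset.Ico_self, Finset.sum_empty]
    exact T_nonneg _ hω _ _
  · refine le_trans (le_of_eq ?_) ((h3 i (i + n) (by omega)).le.trans (passage_le_T hω _ _))
    unfold W
    refine Finset.sum_nbij' (fun k => i + k) (fun k => (k - i).toNat) ?_ ?_ ?_ ?_ ?_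
    · intro k hk
      rw [Finset.mem_Ico] at hk ⊢
      omega
    · intro k hk
      rw [Finset.mem_Ico] at hk ⊢
      omega
    · intro k _
      omega
    · intro k hk
      rw [Finset.mem_Ico] at hk
      omega
    · intro k _
      simp only [Nat.cast_succ, add_assoc]

/-- filling in the missing coordinates independently (`Measure.eq_infinitePi`) -/
theorem fill_mp (G : Measure ℝ) [IsProbabilityMeasure G] :
    MeasurePreserving (fun p : (grid.edgeSet → ℝ) × Env => fun e : Sym2 V =>
      if h : e ∈ grid.edgeSet then p.1 ⟨e, h⟩ else p.2 e)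
      ((Measure.infinitePi fun _ : grid.edgeSet => G).prod (PP G)) (PP G) := by
  have hm : Measurable fun p : (grid.edgeSet → ℝ) × Env => fun e : Sym2 V =>
      if h : e ∈ grid.edgeSet then p.1 ⟨e, h⟩ else p.2 e := by
    refine measurable_pi_lambda _ fun e => ?_
    by_cases h : e ∈ grid.edgeSet
    · simp only [dif_pos h]
      exact (measurable_pi_apply _).comp measurable_fst
    · simp only [dif_neg h]
      exact (measurable_pi_apply _).comp measurable_snd
  refine ⟨hm, Measure.eq_infinitePi _ fun s t ht => ?_⟩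
  rw [Measure.map_apply hm (MeasurableSet.pi s.countable_toSet fun i _ => ht i)]
  have e1 : (fun p : (grid.edgeSet → ℝ) × Env => fun e : Sym2 V =>
      if h : e ∈ grid.edgeSet then p.1 ⟨e, h⟩ else p.2 e) ⁻¹' Set.pi s t =
      Set.pi (s.subtype (· ∈ grid.edgeSet) : Finset grid.edgeSet) (fun e => t e.1) ×ˢ
        Set.pi (s.filter (¬ · ∈ grid.edgeSet) : Finset (Sym2 V)) t := by
    ext p
    simp only [Set.mem_preimage, Set.mem_pi, Finset.mem_coe, Set.mem_prod, Finset.mem_subtype,
      Finset.mem_filter]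
    constructor
    · intro h
      refine ⟨fun e he => ?_, fun e he => ?_⟩
      · have := h e.1 he
        rwa [dif_pos e.2] at this
      · have := h e he.1
        rwa [dif_neg he.2] at this
    · intro h e he
      by_cases h' : e ∈ grid.edgeSet
      · rw [dif_pos h']
        exact h.1 ⟨e, h'⟩ he
      · rw [dif_neg h']
        exact h.2 e ⟨he, h'⟩
  rw [e1, Measure.prod_prod, PP, Measure.infinitePi_pi _ fun i _ => ht i.1,
    Measure.infinitePi_pi _ fun i _ => ht i,
    Finset.prod_subtype_eq_prod_filter fun e => G (t e), Finset.prod_filter_mul_prod_filter_not]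

/-- `no_big`, nonnegativity a.s., `fill_mp`, `Measure.ae_ae_of_ae_prod` -/
theorem no_bigeodesic_pi (G : Measure ℝ) [IsProbabilityMeasure G] [NullSingletonClass G]
    (hG : G (Set.Iio 0) = 0) :
    ∀ᵐ t ∂(Measure.infinitePi fun _ : grid.edgeSet => G), ¬ ∃ v, IsBigeodesic t v := by
  have h := Measure.ae_ae_of_ae_prod
    ((fill_mp G).quasiMeasurePreserving.ae ((no_big G hG).and (ae_ge G hG)))
  filter_upwards [h] with t ht
  obtain ⟨ω, h1, h2⟩ := ht.exists
  rintro ⟨v, hv⟩
  refine h1 v (big_of_isBigeodesic h2 ?_)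
  have e : (fun e : grid.edgeSet =>
      if h : e.1 ∈ grid.edgeSet then t ⟨e.1, h⟩ else ω e.1) = t := funext fun e => dif_pos e.2
  exact e.symm ▸ hv

/-- `iIndepFun_iff_map_fun_eq_infinitePi_map`, `ae_of_ae_map` -/
theorem no_bigeodesic {Ω : Type*} [MeasurableSpace Ω] (P : Measure Ω) [IsProbabilityMeasure P]
    (G : Measure ℝ) [IsProbabilityMeasure G] (hG : G (Set.Iio 0) = 0) (hatom : ∀ x, G {x} = 0)
    (t : grid.edgeSet → Ω → ℝ) (hmeas : ∀ e, Measurable (t e)) (hind : iIndepFun t P)
    (hlaw : ∀ e, P.map (t e) = G) :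
    ∀ᵐ ω ∂P, ¬ ∃ v, IsBigeodesic (fun e => t e ω) v := by
  have : NullSingletonClass G := ⟨hatom⟩
  have h1 := (iIndepFun_iff_map_fun_eq_infinitePi_map hmeas).1 hind
  have h2 := no_bigeodesic_pi G hG
  simp only [hlaw] at h1
  rw [← h1] at h2
  exact ae_of_ae_map (measurable_pi_lambda _ hmeas).aemeasurable h2

end Vale.Agent.P158b
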