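import Vale.Agent.P158b.ProbA

/-! The telescoping inequality for the lowering kernel. -/

open MeasureTheory ProbabilityTheory Finset
open scoped Classical

namespace Vale.Agent.P158b

variable {G : Measure ℝ} [IsProbabilityMeasure G]

theorem measurable_lo (M0 : ℝ) (e : Sym2 V) :
    Measurable fun p : Env × ℝ => lo M0 e p.2 p.1 := by
  have h : Measurable fun p : Env × ℝ => p.1 e := (measurable_pi_apply e).comp measurable_fst
  exact Measurable.ite (measurableSet_le h measurable_const)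
    (measurable_update'.comp (measurable_fst.prodMk (h.min measurable_snd))) measurable_fst

theorem measurable_dens (G : Measure ℝ) [IsProbabilityMeasure G] (M0 S : ℝ)
    (u : Finset (Sym2 V)) : Measurable (dens G M0 S u) :=
  Finset.measurable_prod _ fun f _ => measurable_const.add
    (measurable_const.mul ((measurable_hh G M0).comp (measurable_pi_apply f)))

theorem dens_nonneg (G : Measure ℝ) [IsProbabilityMeasure G] (M0 : ℝ) {S : ℝ} (hS0 : 0 ≤ S)
    (hS : S ≤ 1) (u : Finset (Sym2 V)) (ω : Env) : 0 ≤ dens G M0 S u ω := by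
  refine prod_nonneg fun f _ => ?_
  have h := (abs_le.1 (abs_hh_le G M0 (ω f))).1
  nlinarith

private theorem dens_le (M0 : ℝ) {S : ℝ} (hS0 : 0 ≤ S) (hS : S ≤ 1) (u : Finset (Sym2 V))
    (ω : Env) : dens G M0 S u ω ≤ 2 ^ u.card := by
  rw [← prod_const]
  refine prod_le_prod (fun f _ => ?_) fun f _ => ?_
  · have h := (abs_le.1 (abs_hh_le G M0 (ω f))).1
    nlinarith
  · have h := (abs_le.1 (abs_hh_le G M0 (ω f))).2
    nlinarith

omit [IsProbabilityMeasure G] in
private theorem dens_lo (M0 S : ℝ) {u : Finset (Sym2 V)} {e : Sym2 V} (he : e ∉ u) (z : ℝ)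
    (ω : Env) : dens G M0 S u (lo M0 e z ω) = dens G M0 S u ω := by
  refine prod_congr rfl fun f hf => ?_
  unfold lo
  split_ifs
  · rw [Function.update_of_ne (ne_of_mem_of_not_mem hf he)]
  · rfl

private theorem lo_update (M0 : ℝ) (e : Sym2 V) (y z : ℝ) (ω : Env) :
    lo M0 e z (Function.update ω e y) = Function.update ω e (if y ≤ M0 then min y z else y) := by
  unfold lo
  rw [Function.update_self]
  split_ifs
  · exact Function.update_idem ..
  · rfl

private theorem lint_lo (M0 : ℝ) (e : Sym2 V) {F : Env → ENNReal} (hF : Measurable F) :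
    ∫⁻ ω, ∫⁻ z, F (lo M0 e z ω) ∂G ∂(PP G) =
      ∫⁻ ω, F ω * ENNReal.ofReal (1 + hh G M0 (ω e)) ∂(PP G) := by
  have h1 : Measurable fun ω => ∫⁻ z, F (lo M0 e z ω) ∂G :=
    (hF.comp (measurable_lo M0 e)).lintegral_prod_right'
  have h2 : Measurable fun ω : Env => F ω * ENNReal.ofReal (1 + hh G M0 (ω e)) :=
    hF.mul (measurable_const.add ((measurable_hh G M0).comp (measurable_pi_apply e))).ennreal_ofReal
  have k1 : Measurable fun p : Env × ℝ => ∫⁻ z, F (lo M0 e z (Function.update p.1 e p.2)) ∂G :=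
    h1.comp (update_mp G e).measurable
  have k2 : Measurable fun p : Env × ℝ => F (Function.update p.1 e p.2) *
      ENNReal.ofReal (1 + hh G M0 (Function.update p.1 e p.2 e)) :=
    h2.comp (update_mp G e).measurable
  rw [← (update_mp G e).lintegral_comp h1, ← (update_mp G e).lintegral_comp h2,
    lintegral_prod _ k1.aemeasurable, lintegral_prod _ k2.aemeasurable]
  refine lintegral_congr fun ω => ?_
  simp only [lo_update, Function.update_self]
  exact lower_law M0 (F := fun y => F (Function.update ω e y)) (hF.comp (measurable_update ω))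

private theorem int_lo (M0 : ℝ) (e : Sym2 V) {X : Env → ℝ} (hX : Measurable X)
    (hX0 : ∀ ω, 0 ≤ X ω) (hXi : Integrable X (PP G)) (hlo : ∀ z ω, X (lo M0 e z ω) ≤ X ω) :
    Integrable (fun ω => ∫ z, X (lo M0 e z ω) ∂G) (PP G) ∧
      ∫ ω, ∫ z, X (lo M0 e z ω) ∂G ∂(PP G) = ∫ ω, X ω * (1 + hh G M0 (ω e)) ∂(PP G) := by
  have hm : Measurable fun p : Env × ℝ => X (lo M0 e p.2 p.1) := hX.comp (measurable_lo M0 e)
  have hi : Integrable (fun p : Env × ℝ => X (lo M0 e p.2 p.1)) ((PP G).prod G) :=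
    (hXi.comp_fst G).mono' hm.aestronglyMeasurable (.of_forall fun p => by
      rw [Real.norm_of_nonneg (hX0 _)]
      exact hlo _ _)
  have h0 : ∀ ω : Env, 0 ≤ 1 + hh G M0 (ω e) := fun ω => by
    linarith [(abs_le.1 (abs_hh_le G M0 (ω e))).1]
  refine ⟨hi.integral_prod_left, ?_⟩
  rw [← integral_prod _ hi, integral_eq_lintegral_of_nonneg_ae (.of_forall fun p => hX0 _)
    hm.aestronglyMeasurable, lintegral_prod _ hm.ennreal_ofReal.aemeasurable,
    lint_lo M0 e hX.ennreal_ofReal, integral_eq_lintegral_of_nonneg_ae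
      (.of_forall fun ω => mul_nonneg (hX0 ω) (h0 ω)) (hX.mul (measurable_const.add
        ((measurable_hh G M0).comp (measurable_pi_apply e)))).aestronglyMeasurable]
  simp only [ENNReal.ofReal_mul (hX0 _)]

/-- One step: for `e ∉ u`, `dens u` does not depend on the coordinate `e`; `update_mp`, Tonelli and
`lower_law` give `∫ dens u * Y * (1 + hh (ω e)) = ∫ dens u * ∫ Y (lo e z ω) dz`. -/
theorem flow_step (M0 : ℝ) {S : ℝ} (hS0 : 0 ≤ S) (hS : S ≤ 1) {u : Finset (Sym2 V)} {e : Sym2 V}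
    (he : e ∉ u) {Y : Env → ℝ} (hY : Measurable Y) (hY0 : ∀ ω, 0 ≤ Y ω)
    (hYi : Integrable Y (PP G)) (hlo : ∀ z ω, Y (lo M0 e z ω) ≤ Y ω) :
    Integrable (fun ω => dens G M0 S u ω * ∫ z, (Y ω - Y (lo M0 e z ω)) ∂G) (PP G) ∧
      ∫ ω, dens G M0 S (insert e u) ω * Y ω ∂(PP G) +
        S * ∫ ω, dens G M0 S u ω * ∫ z, (Y ω - Y (lo M0 e z ω)) ∂G ∂(PP G) =
      ∫ ω, dens G M0 S u ω * Y ω ∂(PP G) := by
  have hD0 := dens_nonneg G M0 hS0 hS u
  have hXi : Integrable (fun ω => dens G M0 S u ω * Y ω) (PP G) :=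
    hYi.bdd_mul (measurable_dens G M0 S u).aestronglyMeasurable (.of_forall fun ω => by
      rw [Real.norm_of_nonneg (hD0 ω)]
      exact dens_le M0 hS0 hS u ω)
  obtain ⟨h1, h2⟩ := int_lo M0 e (X := fun ω => dens G M0 S u ω * Y ω)
    ((measurable_dens G M0 S u).mul hY) (fun ω => mul_nonneg (hD0 ω) (hY0 ω)) hXi fun z ω => by
      rw [dens_lo M0 S he]
      exact mul_le_mul_of_nonneg_left (hlo z ω) (hD0 ω)
  have e1 : ∀ ω, dens G M0 S u ω * ∫ z, (Y ω - Y (lo M0 e z ω)) ∂G = dens G M0 S u ω * Y ω -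
      ∫ z, dens G M0 S u (lo M0 e z ω) * Y (lo M0 e z ω) ∂G := fun ω => by
    have hm : Measurable fun z => Y (lo M0 e z ω) :=
      hY.comp ((measurable_lo M0 e).comp measurable_prodMk_left)
    have hi : Integrable (fun z => Y (lo M0 e z ω)) G :=
      (integrable_const (Y ω)).mono' hm.aestronglyMeasurable (.of_forall fun z => by
        rw [Real.norm_of_nonneg (hY0 _)]
        exact hlo z ω)
    simp only [dens_lo M0 S he]
    rw [integral_sub (integrable_const _) hi, integral_const_mul, mul_sub]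
    simp
  have h3 : Integrable (fun ω => dens G M0 S u ω * Y ω * (1 + hh G M0 (ω e))) (PP G) :=
    hXi.mul_bdd (c := 2) (measurable_const.add ((measurable_hh G M0).comp
      (measurable_pi_apply e))).aestronglyMeasurable (.of_forall fun ω => by
        have h := abs_le.1 (abs_hh_le G M0 (ω e))
        rw [Real.norm_eq_abs, abs_le]
        constructor <;> linarith [h.1, h.2])
  have e2 : ∀ ω, dens G M0 S (insert e u) ω * Y ω = (1 - S) * (dens G M0 S u ω * Y ω) +
      S * (dens G M0 S u ω * Y ω * (1 + hh G M0 (ω e))) := fun ω => by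
    rw [dens, prod_insert he, dens]
    ring
  simp only [e1, e2]
  refine ⟨hXi.sub h1, ?_⟩
  rw [integral_sub hXi h1, h2, integral_add (hXi.const_mul _) (h3.const_mul _),
    integral_const_mul, integral_const_mul]
  ring

/-- Induction on `u` by the element of largest `rk` (`Finset.induction_on_max_value`), proving
`∫ dens u * Y + S * ∑ .. = ∫ Y`. -/
theorem flow_sum (M0 : ℝ) {S : ℝ} (hS0 : 0 ≤ S) (hS : S ≤ 1) (u : Finset (Sym2 V))
    {Y : Env → ℝ} (hY : Measurable Y) (hY0 : ∀ ω, 0 ≤ Y ω) (hYi : Integrable Y (PP G))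
    (hlo : ∀ e ∈ u, ∀ z ω, Y (lo M0 e z ω) ≤ Y ω) :
    S * ∑ e ∈ u, ∫ ω, dens G M0 S (bef u e) ω * ∫ z, (Y ω - Y (lo M0 e z ω)) ∂G ∂(PP G) ≤
      ∫ ω, Y ω ∂(PP G) := by
  have key : ∫ ω, dens G M0 S u ω * Y ω ∂(PP G) + S * ∑ e ∈ u,
      ∫ ω, dens G M0 S (bef u e) ω * ∫ z, (Y ω - Y (lo M0 e z ω)) ∂G ∂(PP G) =
      ∫ ω, Y ω ∂(PP G) := by
    induction u using Finset.induction_on_max_value rk with
    | empty => simp [dens]
    | insert a s ha hmax ih =>
      have e1 : bef (insert a s) a = s := by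
        rw [bef, filter_insert, if_neg (lt_irrefl _)]
        exact filter_true_of_mem fun f hf => lt_of_le_of_ne (hmax f hf) fun h =>
          ha (rk_inj h ▸ hf)
      have e2 : ∀ e ∈ s, bef (insert a s) e = bef s e := fun e he => by
        rw [bef, filter_insert, if_neg (not_lt.2 (hmax e he)), bef]
      rw [sum_insert ha, e1, sum_congr rfl fun e he => by rw [e2 e he], mul_add, ← add_assoc,
        (flow_step M0 hS0 hS ha hY hY0 hYi (hlo a (mem_insert_self a s))).2]
      exact ih fun e he => hlo e (mem_insert_of_mem he)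
  have h0 : 0 ≤ ∫ ω, dens G M0 S u ω * Y ω ∂(PP G) :=
    integral_nonneg fun ω => mul_nonneg (dens_nonneg G M0 hS0 hS u ω) (hY0 ω)
  linarith

end Vale.Agent.P158b
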