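import Vale.Agent.P158b.ProbA
import Vale.Agent.P158b.PathC

/-! Uniqueness of geodesics and first moments in a model. -/

open MeasureTheory ProbabilityTheory Finset
open scoped Classical

namespace Vale.Agent.P158b

theorem Model.nonneg (M : Model) (ω : Env) (e : Sym2 V) : 0 ≤ M.Ψ ω e := by
  have h0 := M.t0_nonneg
  have h1 := M.t0_lt
  by_cases h : ω e ≤ M.M0
  · rw [M.light ω e h]; exact le_max_of_le_right h0
  · exact (le_min (by linarith [not_le.1 h]) (by linarith)).trans (M.lb ω e)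

theorem Model.fl_le (M : Model) (ω : Env) (e : Sym2 V) : fl M.t0 M.M0 (ω e) ≤ M.Ψ ω e := by
  unfold fl
  split_ifs with h
  · rw [M.light ω e h]; exact le_max_right _ _
  · exact (le_min (not_le.1 h).le (by linarith)).trans (M.lb ω e)

theorem Model.le_of_le (M : Model) {ω : Env} {e : Sym2 V} {κ : ℝ} (hκ : κ ≤ 1) (h : κ ≤ ω e) :
    κ ≤ M.Ψ ω e :=
  (le_min h (by linarith [M.t0_nonneg, M.t0_lt])).trans (M.lb ω e)

theorem Model.le_of_lo (M : Model) {ω : Env} {e : Sym2 V} {κ : ℝ} (hκ : 0 ≤ κ)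
    (h : ω e ∈ Lo M.t0 M.M0 κ) : M.Ψ ω e ≤ fl M.t0 M.M0 (ω e) + κ := by
  refine (M.ub ω e).trans (max_le (le_of_lt h) ?_)
  unfold fl
  split_ifs <;> linarith [M.t0_lt]

theorem Model.le_of_not_lo (M : Model) {ω : Env} {e : Sym2 V} {κ : ℝ} (hκ : κ ≤ 1)
    (h : ω e ∉ Lo M.t0 M.M0 κ) : fl M.t0 M.M0 (ω e) + κ ≤ M.Ψ ω e := by
  have h1 : fl M.t0 M.M0 (ω e) + κ ≤ ω e := not_lt.1 h
  by_cases h2 : ω e ≤ M.M0
  · rw [M.light ω e h2]; exact h1.trans (le_max_left _ _)
  · refine (le_min h1 ?_).trans (M.lb ω e)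
    rw [fl, if_neg h2]; linarith

theorem Model.eq_of_eq (M : Model) {ω ω' : Env} (h : SameP M.M0 ω ω') {e : Sym2 V}
    (he : ω e = ω' e) : M.Ψ ω e = M.Ψ ω' e :=
  le_antisymm (M.mono ω ω' h e he.le) (M.mono ω' ω (fun f => (h f).symm) e he.ge)

theorem Model.m_nonneg (M : Model) : 0 ≤ M.m :=
  (integral_nonneg fun ω => M.nonneg ω _).trans
    (M.mean (0, 0) (1, 0) (Or.inl ⟨by norm_num, rfl⟩))

/-- there is a positive level below which the weights are rare -/
theorem Model.low_small (M : Model) {η : ℝ} (hη : 0 < η) :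
    ∃ κ : ℝ, 0 < κ ∧ κ ≤ 1 ∧ M.G.real (Set.Iio κ) ≤ η := by
  obtain ⟨κ, h0, h1, -, h2⟩ := M.lo_small hη
  refine ⟨κ, h0, by linarith, le_trans (measureReal_mono ?_) h2⟩
  exact Set.Iio_subset_Iio (by linarith [M.t0_nonneg])

private theorem probC_null (M : Model) {a b : V} {p q : List V} (hp : IsPth Set.univ a b p)
    (hq : IsPth Set.univ a b q) {e : Sym2 V} (h1 : e ∈ pedges p) (h2 : e ∉ pedges q) :
    ∀ᵐ ω ∂(PP M.G), wt (M.Ψ ω) p ≠ wt (M.Ψ ω) q := by
  have hA : MeasurableSet {ω | wt (M.Ψ ω) p = wt (M.Ψ ω) q} :=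
    measurableSet_eq_fun ((measurable_wt p).comp M.meas) ((measurable_wt q).comp M.meas)
  have hU := update_mp M.G e
  rw [ae_iff]
  simp only [not_not]
  rw [← hU.measure_preimage hA.nullMeasurableSet, Measure.measure_prod_null (hU.measurable hA)]
  refine .of_forall fun ω => ?_
  have key : ∀ z z' : ℝ, M.t0 ≤ z → z < z' → (z ≤ M.M0 ↔ z' ≤ M.M0) →
      wt (M.Ψ (Function.update ω e z)) p = wt (M.Ψ (Function.update ω e z)) q →
      wt (M.Ψ (Function.update ω e z')) p = wt (M.Ψ (Function.update ω e z')) q → False := by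
    intro z z' h3 h4 h5 h6 h7
    have hS : SameP M.M0 (Function.update ω e z) (Function.update ω e z') := fun f => by
      by_cases hf : f = e
      · subst hf; simpa using h5
      · simp [Function.update_of_ne hf]
    have h8 : ∀ f, f ≠ e → M.Ψ (Function.update ω e z) f = M.Ψ (Function.update ω e z') f :=
      fun f hf => M.eq_of_eq hS (by simp [Function.update_of_ne hf])
    have h9 := M.strict _ _ hS e (by simpa using h3) (by simpa using h4)
    rw [hp.wt_eq_sum, hq.wt_eq_sum] at h6 h7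
    have h10 : ∑ f ∈ pedges q, M.Ψ (Function.update ω e z) f =
        ∑ f ∈ pedges q, M.Ψ (Function.update ω e z') f :=
      sum_congr rfl fun f hf => h8 f fun h => h2 (h ▸ hf)
    have h11 : ∑ f ∈ pedges p, M.Ψ (Function.update ω e z) f <
        ∑ f ∈ pedges p, M.Ψ (Function.update ω e z') f := by
      refine sum_lt_sum (fun f _ => ?_) ⟨e, h1, h9⟩
      by_cases hf : f = e
      · rw [hf]; exact h9.le
      · exact (h8 f hf).le
    linarith
  let A : Set ℝ := {z | wt (M.Ψ (Function.update ω e z)) p = wt (M.Ψ (Function.update ω e z)) q}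
  have s1 : (A ∩ Set.Icc M.t0 M.M0).Subsingleton := fun z hz z' hz' => by
    by_contra hne
    rcases lt_or_gt_of_ne hne with h | h
    · exact key z z' hz.2.1 h ⟨fun _ => hz'.2.2, fun _ => hz.2.2⟩ hz.1 hz'.1
    · exact key z' z hz'.2.1 h ⟨fun _ => hz.2.2, fun _ => hz'.2.2⟩ hz'.1 hz.1
  have s2 : (A ∩ Set.Ioi M.M0).Subsingleton := fun z hz z' hz' => by
    by_contra hne
    have n1 : ¬ z ≤ M.M0 := not_le.2 hz.2
    have n2 : ¬ z' ≤ M.M0 := not_le.2 hz'.2
    rcases lt_or_gt_of_ne hne with h | h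
    · exact key z z' (M.t0_lt.trans hz.2).le h (iff_of_false n1 n2) hz.1 hz'.1
    · exact key z' z (M.t0_lt.trans hz'.2).le h (iff_of_false n2 n1) hz'.1 hz.1
  refine measure_mono_null (t := Set.Iio M.t0 ∪ (A ∩ Set.Icc M.t0 M.M0 ∪ A ∩ Set.Ioi M.M0))
    (fun z hz => ?_) (measure_union_null M.below
      (measure_union_null (s1.measure_zero _) (s2.measure_zero _)))
  rcases lt_or_ge z M.t0 with h | h
  · exact Or.inl h
  · rcases le_or_gt z M.M0 with h' | h'
    · exact Or.inr (Or.inl ⟨hz, h, h'⟩)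
    · exact Or.inr (Or.inr ⟨hz, h'⟩)

private theorem probC_W (M : Model) {S : Set V} {f : ℕ → V} {i j : ℕ} (h : Chain S f i j) :
    Integrable (fun ω => W (M.Ψ ω) f i j) (PP M.G) ∧
      ∫ ω, W (M.Ψ ω) f i j ∂(PP M.G) ≤ M.m * (j - i : ℕ) := by
  have h1 : ∀ k ∈ Ico i j, Adj (f k) (f (k + 1)) := fun k hk =>
    h.1 k (mem_Ico.1 hk).1 (mem_Ico.1 hk).2
  refine ⟨integrable_finsetSum _ fun k hk => M.integ _ _ (h1 k hk), ?_⟩
  unfold W
  rw [integral_finsetSum _ fun k hk => M.integ _ _ (h1 k hk)]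
  refine (sum_le_card_nsmul _ _ M.m fun k hk => M.mean _ _ (h1 k hk)).trans (le_of_eq ?_)
  rw [Nat.card_Ico, nsmul_eq_mul, mul_comm]

private theorem probC_stair (M : Model) {S : Set V} {a b : V}
    (h : Chain S (stair a b) 0 (dl1 a b)) :
    ∫ ω, T S (M.Ψ ω) a b ∂(PP M.G) ≤ M.m * dl1 a b := by
  obtain ⟨h1, h2⟩ := probC_W M h
  refine (integral_mono_of_nonneg (.of_forall fun ω => T_nonneg S (M.nonneg ω) a b) h1
    (.of_forall fun ω => ?_)).trans h2
  have := T_le_W (M.nonneg ω) (Nat.zero_le _) h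
  rwa [stair_zero, stair_end] at this

private theorem probC_trans (M : Model) (v : V) {f : Env → ℝ} (hf : Measurable f) :
    ∫ ω, f (trans v ω) ∂(PP M.G) = ∫ ω, f ω ∂(PP M.G) := by
  have h := trans_mp M.G v
  rw [← integral_map h.measurable.aemeasurable hf.aestronglyMeasurable, h.map_eq]

private theorem probC_bv {N : ℕ} (hN : 1 ≤ N) (α : ℤ) : Near N (bv N α) 0 := by
  have h1 := Int.emod_nonneg α (show (8 * N : ℤ) ≠ 0 by omega)
  have h2 := Int.emod_lt_of_pos α (show (0 : ℤ) < 8 * N by omega)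
  unfold bv Near
  generalize α % (8 * N) = m at h1 h2
  split_ifs <;> simp only [Prod.fst_zero, Prod.snd_zero] <;> omega

/-- For paths `p ≠ q` with the same ends pick an edge `e` in exactly one of `pedges p`, `pedges q`
(`IsPth.eq_of_pedges`); by `update_mp` and `IsPth.wt_eq_sum` each section of `wt p = wt q` has at
most one point in `Icc t0 M0` and one in `Ioi M0` (`eq_of_eq`, `strict`), so it is `G`-null.
Countable union over `a b p q`. -/
theorem uniq_ae (M : Model) : ∀ᵐ ω ∂(PP M.G), Uniq Set.univ (M.Ψ ω) := by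
  have key : ∀ (a b : V) (p q : List V), ∀ᵐ ω ∂(PP M.G), IsPth Set.univ a b p →
      IsPth Set.univ a b q → wt (M.Ψ ω) p = wt (M.Ψ ω) q → p = q := by
    intro a b p q
    by_cases hp : IsPth Set.univ a b p
    swap
    · exact .of_forall fun ω h => absurd h hp
    by_cases hq : IsPth Set.univ a b q
    swap
    · exact .of_forall fun ω _ h => absurd h hq
    by_cases hpq : pedges p = pedges q
    · exact .of_forall fun ω _ _ _ => hp.eq_of_pedges hq hpq
    have h1 : ∀ᵐ ω ∂(PP M.G), wt (M.Ψ ω) p ≠ wt (M.Ψ ω) q := by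
      by_cases h : pedges p ⊆ pedges q
      · obtain ⟨e, h2, h3⟩ := not_subset.1 fun h' => hpq (Subset.antisymm h h')
        exact (probC_null M hq hp h2 h3).mono fun ω h4 => h4.symm
      · obtain ⟨e, h2, h3⟩ := not_subset.1 h
        exact probC_null M hp hq h2 h3
    exact h1.mono fun ω h _ _ h' => absurd h' h
  exact ae_all_iff.2 fun a => ae_all_iff.2 fun b => ae_all_iff.2 fun p => ae_all_iff.2 fun q =>
    key a b p q

theorem integrable_T (M : Model) {S : Set V} {a b : V} (h : Reach S a b) :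
    Integrable (fun ω => T S (M.Ψ ω) a b) (PP M.G) := by
  obtain ⟨l, hl⟩ := h
  refine (probC_W M hl.chain).1.mono' ((measurable_T S a b).comp M.meas).aestronglyMeasurable
    (.of_forall fun ω => ?_)
  rw [Real.norm_of_nonneg (T_nonneg S (M.nonneg ω) a b)]
  exact T_le_wt (M.nonneg ω) hl

theorem integral_W_le (M : Model) {S : Set V} {f : ℕ → V} {i j : ℕ} (h : Chain S f i j) :
    Integrable (fun ω => W (M.Ψ ω) f i j) (PP M.G) ∧
      ∫ ω, W (M.Ψ ω) f i j ∂(PP M.G) ≤ M.m * (j - i : ℕ) := probC_W M h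

theorem integral_T_bx_le (M : Model) {c a b : V} {n : ℕ} (ha : Near n a c) (hb : Near n b c) :
    ∫ ω, T (bx c n) (M.Ψ ω) a b ∂(PP M.G) ≤ M.m * dl1 a b :=
  probC_stair M (stair_chain ha hb)

theorem integral_T_univ_le (M : Model) (a b : V) :
    ∫ ω, T Set.univ (M.Ψ ω) a b ∂(PP M.G) ≤ M.m * dl1 a b := by
  have h : Near (dl1 a b) b a := by unfold Near dl1; omega
  exact probC_stair M ((stair_chain (Near.refl _ a) h).mono (Set.subset_univ _) le_rfl le_rfl)

theorem integral_T_univ_trans (M : Model) (a b : V) :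
    ∫ ω, T Set.univ (M.Ψ ω) a b ∂(PP M.G) =
      ∫ ω, T Set.univ (M.Ψ ω) 0 (b - a) ∂(PP M.G) := by
  rw [← probC_trans M a (f := fun ω => T Set.univ (M.Ψ ω) 0 (b - a))
    ((measurable_T Set.univ 0 (b - a)).comp M.meas)]
  refine integral_congr_ae (.of_forall fun ω => ?_)
  have := T_trans_univ (M.Ψ ω) 0 (b - a) a
  rw [zero_add, sub_add_cancel, ← M.cov] at this
  exact this

/-- `T (bx 0 R)` decreases to `T univ` pointwise (a path is finite); dominated convergence -/
theorem integral_T_bx_lim (M : Model) (v : V) {δ : ℝ} (hδ : 0 < δ) :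
    ∃ R0 : ℕ, ∀ R : ℕ, R0 ≤ R → Near R v 0 ∧
      ∫ ω, T (bx 0 R) (M.Ψ ω) 0 v ∂(PP M.G) ≤
        ∫ ω, T Set.univ (M.Ψ ω) 0 v ∂(PP M.G) + δ := by
  have hv : ∀ R : ℕ, dl1 0 v ≤ R → Near R v 0 := fun R hR => by
    unfold Near; unfold dl1 at hR; omega
  have hc : Chain Set.univ (stair 0 v) 0 (dl1 0 v) :=
    (stair_chain (Near.refl _ 0) (hv _ le_rfl)).mono (Set.subset_univ _) le_rfl le_rfl
  have h1 := tendsto_integral_filter_of_dominated_convergence (μ := PP M.G) (l := Filter.atTop)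
    (F := fun (R : ℕ) ω => T (bx 0 R) (M.Ψ ω) 0 v) (f := fun ω => T Set.univ (M.Ψ ω) 0 v)
    (fun ω => W (M.Ψ ω) (stair 0 v) 0 (dl1 0 v))
    (.of_forall fun R => ((measurable_T _ 0 v).comp M.meas).aestronglyMeasurable)
    (Filter.eventually_atTop.2 ⟨dl1 0 v, fun R hR => .of_forall fun ω => by
      rw [Real.norm_of_nonneg (T_nonneg _ (M.nonneg ω) 0 v)]
      have := T_le_W (M.nonneg ω) (Nat.zero_le _) (stair_chain (Near.refl R 0) (hv R hR))
      rwa [stair_zero, stair_end] at this⟩)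
    (probC_W M hc).1 (.of_forall fun ω => by
      refine tendsto_order.2 ⟨fun x hx => ?_, fun x hx => ?_⟩
      · filter_upwards [Filter.eventually_ge_atTop (dl1 0 v)] with R hR
        exact hx.trans_le (T_mono_set (M.nonneg ω) (Set.subset_univ _)
          (reach_bx (Near.refl R 0) (hv R hR)))
      · obtain ⟨l0, hl0⟩ := reach_univ 0 v
        have : Nonempty {l : List V // IsPth Set.univ 0 v l} := ⟨⟨l0, hl0⟩⟩
        obtain ⟨⟨l, hl⟩, h2⟩ := exists_lt_of_ciInf_lt hx
        filter_upwards [Filter.eventually_ge_atTop (len l)] with R hR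
        refine (T_le_wt (M.nonneg ω) ⟨hl.ne, hl.start, hl.stop, ⟨hl.chain.1, fun k _ hk => ?_⟩,
          hl.inj⟩).trans_lt h2
        have h3 := hl.chain.near le_rfl (Nat.zero_le k) hk
        rw [hl.start] at h3
        exact h3.symm.mono (by omega))
  obtain ⟨R0, h2⟩ := Filter.eventually_atTop.1
    ((h1.eventually (gt_mem_nhds (lt_add_of_pos_right _ hδ))).and
      (Filter.eventually_ge_atTop (dl1 0 v)))
  exact ⟨R0, fun R hR => ⟨hv R (h2 R hR).2, (h2 R hR).1.le⟩⟩

/-- the local passage time in a box only depends on the edges of a larger box (`T_congr`) -/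
theorem T_loc_dep (M : Model) (c a b : V) (n r : ℕ) {ω ω' : Env}
    (h : ∀ e ∈ edgesOf (box c (n + r)), ω e = ω' e) :
    T (bx c n) (M.loc r ω) a b = T (bx c n) (M.loc r ω') a b := by
  refine T_congr (fun x y hx _ hxy => M.loc_dep r x y ω ω' hxy fun e he => h e ?_) a b
  obtain ⟨z, hz, w, h1, h2⟩ := mem_edgesOf.1 he
  refine mem_edgesOf.2 ⟨z, mem_box.2 ?_, w, h1, h2⟩
  rw [add_comm]
  exact (mem_box.1 hz).trans hx

/-- boxes at sup-distance at least two have disjoint edge sets -/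
theorem edgesOf_box_disjoint {c c' : V} {n : ℕ} (h : ¬ Near (2 * n + 1) c c') :
    Disjoint (edgesOf (box c n)) (edgesOf (box c' n)) := by
  refine disjoint_left.2 fun e h1 h2 => h ?_
  obtain ⟨x, hx, y, h3, rfl⟩ := mem_edgesOf.1 h1
  obtain ⟨x', hx', y', h4, h5⟩ := mem_edgesOf.1 h2
  have h6 : Near 1 x x' := by
    rcases Sym2.eq_iff.1 h5 with h7 | h7
    · rw [h7.1]; exact Near.refl _ _
    · rw [h7.1]; exact h4.near.symm
  exact (((mem_box.1 hx).symm.trans h6).trans (mem_box.1 hx')).mono (by omega)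

/-- by translation covariance there are only two kinds of edges; dominated convergence -/
theorem tail_mean_small (M : Model) {η : ℝ} (hη : 0 < η) :
    ∃ K : ℝ, 0 < K ∧ ∀ x y, Adj x y →
      ∫ ω, max (M.Ψ ω s(x, y) - K) 0 ∂(PP M.G) ≤ η := by
  have key : ∀ d : V, Adj 0 d → ∀ᶠ K : ℝ in Filter.atTop,
      ∫ ω, max (M.Ψ ω s(0, d) - K) 0 ∂(PP M.G) < η := by
    intro d hd
    have hm : Measurable fun ω => M.Ψ ω s(0, d) := (measurable_pi_apply _).comp M.meas
    have h1 := tendsto_integral_filter_of_dominated_convergence (μ := PP M.G) (l := Filter.atTop)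
      (F := fun (K : ℝ) ω => max (M.Ψ ω s(0, d) - K) 0) (f := fun _ => (0 : ℝ))
      (fun ω => M.Ψ ω s(0, d))
      (.of_forall fun K => ((hm.sub_const K).max measurable_const).aestronglyMeasurable)
      (Filter.eventually_atTop.2 ⟨0, fun K hK => .of_forall fun ω => by
        rw [Real.norm_of_nonneg (le_max_right _ _)]
        exact max_le (by linarith) (M.nonneg ω _)⟩)
      (M.integ 0 d hd) (.of_forall fun ω => by
        refine tendsto_const_nhds.congr' ?_
        filter_upwards [Filter.eventually_ge_atTop (M.Ψ ω s(0, d))] with K hK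
        exact (max_eq_right (by linarith)).symm)
    rw [integral_zero] at h1
    exact h1.eventually (gt_mem_nhds hη)
  obtain ⟨K, ⟨⟨h1, h2⟩, h3, h4⟩, h5⟩ := ((((key (1, 0) (by simp [Adj])).and
    (key (-1, 0) (by simp [Adj]))).and ((key (0, 1) (by simp [Adj])).and
      (key (0, -1) (by simp [Adj])))).and (Filter.eventually_gt_atTop 0)).exists
  refine ⟨K, h5, fun x y hxy => ?_⟩
  have hm : Measurable fun ω => max (M.Ψ ω s(0, y - x) - K) 0 :=
    (((measurable_pi_apply _).comp M.meas).sub_const K).max measurable_const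
  have e : ∫ ω, max (M.Ψ ω s(x, y) - K) 0 ∂(PP M.G) =
      ∫ ω, max (M.Ψ ω s(0, y - x) - K) 0 ∂(PP M.G) := by
    rw [← probC_trans M x hm]
    refine integral_congr_ae (.of_forall fun ω => ?_)
    simp [M.cov, trans]
  rw [e]
  have h6 : y - x = (1, 0) ∨ y - x = (-1, 0) ∨ y - x = (0, 1) ∨ y - x = (0, -1) := by
    simp only [Prod.ext_iff, Prod.fst_sub, Prod.snd_sub]
    unfold Adj at hxy
    omega
  rcases h6 with h | h | h | h <;> rw [h]
  exacts [h1.le, h2.le, h3.le, h4.le]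

/-- `Ψ - loc r ≤ (Ψ - K)⁺ + K * 1 {loc r ≠ Ψ}` -/
theorem loc_mean_small (M : Model) {η : ℝ} (hη : 0 < η) :
    ∃ r : ℕ, ∀ x y, Adj x y →
      ∫ ω, (M.Ψ ω s(x, y) - M.loc r ω s(x, y)) ∂(PP M.G) ≤ η := by
  obtain ⟨K, hK, h1⟩ := tail_mean_small M (half_pos hη)
  have h2 := ((tendsto_pow_atTop_nhds_zero_of_lt_one (r := (1 / 2 : ℝ)) (by norm_num)
    (by norm_num)).const_mul M.C).const_mul K
  rw [mul_zero, mul_zero] at h2
  obtain ⟨r, hr⟩ := (h2.eventually (gt_mem_nhds (half_pos hη))).exists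
  refine ⟨r, fun x y hxy => ?_⟩
  have m1 : Measurable fun ω => M.Ψ ω s(x, y) := (measurable_pi_apply _).comp M.meas
  have m2 : Measurable fun ω => M.loc r ω s(x, y) := (measurable_pi_apply _).comp (M.loc_meas r)
  have hA : MeasurableSet {ω | M.loc r ω s(x, y) ≠ M.Ψ ω s(x, y)} :=
    (measurableSet_eq_fun m2 m1).compl
  have i1 : Integrable (fun ω => max (M.Ψ ω s(x, y) - K) 0) (PP M.G) :=
    ((M.integ x y hxy).sub (integrable_const K)).pos_part
  have i2 := (integrable_const (μ := PP M.G) K).indicator hA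
  refine (integral_mono_of_nonneg (.of_forall fun ω => sub_nonneg.2 (M.loc_le r ω _)) (i1.add i2)
    (.of_forall fun ω => ?_)).trans ?_
  · change M.Ψ ω s(x, y) - M.loc r ω s(x, y) ≤
      max (M.Ψ ω s(x, y) - K) 0 + Set.indicator _ (fun _ => K) ω
    by_cases h : ω ∈ {ω | M.loc r ω s(x, y) ≠ M.Ψ ω s(x, y)}
    · rw [Set.indicator_of_mem h]
      linarith [le_max_left (M.Ψ ω s(x, y) - K) 0, M.loc_nonneg r ω s(x, y)]
    · rw [Set.indicator_of_notMem h, not_not.1 h, sub_self, add_zero]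
      exact le_max_right _ _
  · rw [integral_add' i1 i2, integral_indicator_const _ hA, smul_eq_mul, mul_comm]
    linarith [h1 x y hxy, mul_le_mul_of_nonneg_left (M.loc_prob r x y hxy) hK.le]

theorem integrable_Dm (M : Model) {N : ℕ} (hN : 1 ≤ N) (α β : ℤ) :
    Integrable (fun ω => Dm (M.Ψ ω) N α β) (PP M.G) := by
  have h : ∀ a b : ℤ, Integrable (fun ω => T (bx 0 N) (M.Ψ ω) (bv N a) (bv N b)) (PP M.G) :=
    fun a b => integrable_T M (reach_bx (probC_bv hN a) (probC_bv hN b))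
  exact (((h _ _).add (h _ _)).sub (h _ _)).sub (h _ _)

end Vale.Agent.P158b
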