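import Vale.Agent.P158b.Flow
import Vale.Agent.P158b.Exc
import Vale.Agent.P158b.ProbC

/-! The flow applied to one cell. -/

open MeasureTheory ProbabilityTheory Finset
open scoped Classical

namespace Vale.Agent.P158b

theorem lo_ne (M0 : ℝ) {e f : Sym2 V} (h : f ≠ e) (z : ℝ) (ω : Env) : lo M0 e z ω f = ω f := by
  unfold lo
  split_ifs
  · exact Function.update_of_ne h _ _
  · rfl

theorem lo_self {M0 : ℝ} {e : Sym2 V} (z : ℝ) {ω : Env} (h : ω e ≤ M0) :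
    lo M0 e z ω e = min (ω e) z := by
  rw [lo, if_pos h, Function.update_self]

theorem lo_le (M0 : ℝ) (e f : Sym2 V) (z : ℝ) (ω : Env) : lo M0 e z ω f ≤ ω f := by
  rcases eq_or_ne f e with rfl | h
  · by_cases h : ω f ≤ M0
    · rw [lo_self z h]
      exact min_le_left _ _
    · rw [lo, if_neg h]
  · exact (lo_ne M0 h z ω).le

theorem lo_same (M0 : ℝ) (e : Sym2 V) (z : ℝ) (ω : Env) : SameP M0 (lo M0 e z ω) ω := by
  intro f
  refine ⟨fun h => ?_, fun h => (lo_le M0 e f z ω).trans h⟩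
  rcases eq_or_ne f e with rfl | h'
  · by_contra h'
    rw [lo, if_neg h'] at h
    exact h' h
  · rwa [lo_ne M0 h'] at h

theorem psi_lo_le (M : Model) (e f : Sym2 V) (z : ℝ) (ω : Env) :
    M.Ψ (lo M.M0 e z ω) f ≤ M.Ψ ω f := M.mono _ _ (lo_same _ _ _ _) f (lo_le _ _ _ _ _)

theorem psi_lo_ne (M : Model) {e f : Sym2 V} (h : f ≠ e) (z : ℝ) (ω : Env) :
    M.Ψ (lo M.M0 e z ω) f = M.Ψ ω f := M.eq_of_eq (lo_same _ _ _ _) (lo_ne _ h _ _)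

theorem geo_lo (M : Model) {S : Set V} {a b : V} {p : List V} {e : Sym2 V} (hp : e ∉ pedges p)
    {z : ℝ} {ω : Env} (h : IsGeo S (M.Ψ (lo M.M0 e z ω)) a b p) :
    IsGeo S (M.Ψ ω) a b p ∧ T S (M.Ψ (lo M.M0 e z ω)) a b = T S (M.Ψ ω) a b := by
  have h1 : ∀ f ∈ pedges p, M.Ψ ω f = M.Ψ (lo M.M0 e z ω) f := fun f hf =>
    (psi_lo_ne M (ne_of_mem_of_not_mem hf hp) z ω).symm
  have h2 := h.raise (fun f => psi_lo_le M e f z ω) h1
  refine ⟨h2, ?_⟩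
  rw [← h.wt_eq (M.nonneg _), ← h2.wt_eq (M.nonneg _), h.1.wt_eq_sum, h.1.wt_eq_sum]
  exact (sum_congr rfl h1).symm

theorem bulk_edge {N : ℕ} (hN : 2 ≤ N) {e : Sym2 V} (he : e ∈ bulk N) :
    ∃ x w, Near N x 0 ∧ Near N w 0 ∧ Adj x w ∧ e = s(x, w) := by
  obtain ⟨x, hx, w, hxw, rfl⟩ := mem_edgesOf.1 he
  have h := mem_box.1 hx
  exact ⟨x, w, h.mono (by omega), (hxw.near.symm.trans h).mono (by omega), hxw, rfl⟩

/-- lowering an edge off the two references does not increase `Dm * 1 {references are p, q}`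
(`IsGeo.raise`, `IsGeo.wt_eq`, `T_mono_wt`, `M.mono`, `eq_of_eq`) -/
theorem cell_lo (M : Model) {N : ℕ} (hN : 1 ≤ N) {c : ℤ × ℤ} (h1 : c.1 + 1 ≤ c.2)
    (h2 : c.2 + 1 ≤ c.1 + 8 * N) (p q : List V) {e : Sym2 V} (hp : e ∉ pedges p)
    (hq : e ∉ pedges q) (z : ℝ) (ω : Env) :
    (if IsGeo (bx 0 N) (M.Ψ (lo M.M0 e z ω)) (bv N c.1) (bv N (c.2 + 1)) p ∧
        IsGeo (bx 0 N) (M.Ψ (lo M.M0 e z ω)) (bv N (c.1 + 1)) (bv N c.2) q then
        Dm (M.Ψ (lo M.M0 e z ω)) N c.1 c.2 else 0) ≤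
      if IsGeo (bx 0 N) (M.Ψ ω) (bv N c.1) (bv N (c.2 + 1)) p ∧
        IsGeo (bx 0 N) (M.Ψ ω) (bv N (c.1 + 1)) (bv N c.2) q then Dm (M.Ψ ω) N c.1 c.2 else 0 := by
  by_cases h : IsGeo (bx 0 N) (M.Ψ (lo M.M0 e z ω)) (bv N c.1) (bv N (c.2 + 1)) p ∧
      IsGeo (bx 0 N) (M.Ψ (lo M.M0 e z ω)) (bv N (c.1 + 1)) (bv N c.2) q
  · obtain ⟨a1, a2⟩ := geo_lo M hp h.1
    obtain ⟨b1, b2⟩ := geo_lo M hq h.2
    rw [if_pos h, if_pos ⟨a1, b1⟩, Dm, Dm, a2, b2]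
    have c1 := T_mono_wt (bx 0 N) (M.nonneg _) (fun f => psi_lo_le M e f z ω) (bv N c.1) (bv N c.2)
    have c2 := T_mono_wt (bx 0 N) (M.nonneg _) (fun f => psi_lo_le M e f z ω) (bv N (c.1 + 1))
      (bv N (c.2 + 1))
    linarith
  · rw [if_neg h]
    split_ifs
    · exact Dm_nonneg (M.nonneg _) hN h1 h2
    · exact le_rfl

/-- for `z < t0 + κ` the weight of `e` drops by `s ∈ [κ, Ψ ω e]`; `dl_le_drop` if the references
survive, `dl_le_Dm` otherwise -/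
theorem cell_drop (M : Model) {N : ℕ} (hN : 1 ≤ N) {c : ℤ × ℤ} (h1 : c.1 + 1 ≤ c.2)
    (h2 : c.2 + 1 ≤ c.1 + 8 * N) {p q : List V} {x w : V} (hx : Near N x 0) (hw : Near N w 0)
    (hxw : Adj x w) (hp : s(x, w) ∉ pedges p) (hq : s(x, w) ∉ pedges q) {κ z : ℝ} (hκ : 0 < κ)
    (hz : z < M.t0 + κ) {ω : Env} (hA1 : M.t0 + 2 * κ ≤ ω s(x, w)) (hA2 : ω s(x, w) ≤ M.M0)
    (gp : IsGeo (bx 0 N) (M.Ψ ω) (bv N c.1) (bv N (c.2 + 1)) p)
    (gq : IsGeo (bx 0 N) (M.Ψ ω) (bv N (c.1 + 1)) (bv N c.2) q) :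
    dl (M.Ψ ω) N κ c s(x, w) ≤ Dm (M.Ψ ω) N c.1 c.2 -
      if IsGeo (bx 0 N) (M.Ψ (lo M.M0 s(x, w) z ω)) (bv N c.1) (bv N (c.2 + 1)) p ∧
        IsGeo (bx 0 N) (M.Ψ (lo M.M0 s(x, w) z ω)) (bv N (c.1 + 1)) (bv N c.2) q then
        Dm (M.Ψ (lo M.M0 s(x, w) z ω)) N c.1 c.2 else 0 := by
  have a1 : M.t0 + 2 * κ ≤ M.Ψ ω s(x, w) := by
    rw [M.light _ _ hA2]
    exact hA1.trans (le_max_left _ _)
  have a2 : M.Ψ (lo M.M0 s(x, w) z ω) s(x, w) ≤ M.t0 + κ := by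
    rw [M.light _ _ ((lo_le _ _ _ _ _).trans hA2), lo_self z hA2]
    exact max_le ((min_le_right _ _).trans hz.le) (by linarith)
  have a3 := M.nonneg (lo M.M0 s(x, w) z ω) s(x, w)
  have a4 : Function.update (M.Ψ ω) s(x, w) (M.Ψ ω s(x, w) -
      (M.Ψ ω s(x, w) - M.Ψ (lo M.M0 s(x, w) z ω) s(x, w))) = M.Ψ (lo M.M0 s(x, w) z ω) := by
    funext f
    rcases eq_or_ne f s(x, w) with rfl | h
    · rw [Function.update_self, sub_sub_cancel]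
    · rw [Function.update_of_ne h, psi_lo_ne M h]
  split_ifs with h
  · have := dl_le_drop (M.nonneg ω) hN (c := c) hx hw hxw hκ.le
      (s := M.Ψ ω s(x, w) - M.Ψ (lo M.M0 s(x, w) z ω) s(x, w)) (by linarith) (by linarith)
      (by rw [a4]; exact (geo_lo M hp h.1).2) (by rw [a4]; exact (geo_lo M hq h.2).2)
    rwa [a4] at this
  · rw [sub_zero]
    exact dl_le_Dm (M.nonneg ω) hN h1 h2 hx hw hxw hκ.le (by linarith [M.t0_nonneg])

/-- With `g0 = G (Iio (t0 + κ))` and `Y p q = Dm * 1 {references are p, q}` put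
`F = ∑ p q paths, ∑ e ∈ u p q, 3 / g0 * dens (bef (u p q) e) * ∫ (Y p q - Y p q ∘ lo e z) dz`
(finite sums by `pth_finite`). `flow_sum` and `∑ p q, Y p q ≤ Dm` (`IsGeo.unique`) bound the mean;
`dens_ge` and `cell_drop` give the pointwise bound. -/
theorem flow_cell (M : Model) {N : ℕ} (hN : 2 ≤ N) {c : ℤ × ℤ} (h1 : c.1 + 1 ≤ c.2)
    (h2 : c.2 + 1 ≤ c.1 + 8 * N) {κ S : ℝ} (hκ : 0 < κ) (hS0 : 0 < S) (hS : S ≤ 1 / 2)
    (u : List V → List V → Finset (Sym2 V))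
    (hu : ∀ p q, IsPth (bx 0 N) (bv N c.1) (bv N (c.2 + 1)) p →
      IsPth (bx 0 N) (bv N (c.1 + 1)) (bv N c.2) q →
      (∀ e ∈ u p q, e ∉ pedges p ∧ e ∉ pedges q) ∧ S ^ 2 * (u p q).card ≤ 1 / 2) :
    ∃ F : Env → ℝ, Integrable F (PP M.G) ∧ (∀ ω, 0 ≤ F ω) ∧
      ∫ ω, F ω ∂(PP M.G) ≤ 3 / (M.G.real (Set.Iio (M.t0 + κ)) * S) *
        ∫ ω, Dm (M.Ψ ω) N c.1 c.2 ∂(PP M.G) ∧
      ∀ ω p q, IsGeo (bx 0 N) (M.Ψ ω) (bv N c.1) (bv N (c.2 + 1)) p →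
        IsGeo (bx 0 N) (M.Ψ ω) (bv N (c.1 + 1)) (bv N c.2) q →
        ∑ e ∈ (bulk N).filter (fun e => e ∈ u p q ∧ M.t0 + 2 * κ ≤ ω e ∧ ω e ≤ M.M0 ∧
          -(1 / 2) ≤ S * hs M.G M.M0 (bef (u p q) e) ω), dl (M.Ψ ω) N κ c e ≤ F ω := by
  have hN1 : 1 ≤ N := by omega
  have hS1 : S ≤ 1 := by linarith
  have hg : 0 < M.G.real (Set.Iio (M.t0 + κ)) :=
    ENNReal.toReal_pos (M.acc0 κ hκ).ne' (measure_ne_top _ _)
  generalize hg0 : M.G.real (Set.Iio (M.t0 + κ)) = g0 at hg ⊢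
  obtain ⟨Y, hY⟩ : ∃ Y : List V × List V → Env → ℝ, ∀ r ω, Y r ω =
      if IsGeo (bx 0 N) (M.Ψ ω) (bv N c.1) (bv N (c.2 + 1)) r.1 ∧
        IsGeo (bx 0 N) (M.Ψ ω) (bv N (c.1 + 1)) (bv N c.2) r.2 then Dm (M.Ψ ω) N c.1 c.2 else 0 :=
    ⟨_, fun _ _ => rfl⟩
  obtain ⟨P, hP⟩ : ∃ P : Finset (List V × List V), ∀ r, r ∈ P ↔
      IsPth (bx 0 N) (bv N c.1) (bv N (c.2 + 1)) r.1 ∧
        IsPth (bx 0 N) (bv N (c.1 + 1)) (bv N c.2) r.2 :=
    ⟨(pth_finite (bx_finite 0 N) _ _).toFinset ×ˢ (pth_finite (bx_finite 0 N) _ _).toFinset,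
      fun r => by rw [mem_product, Set.Finite.mem_toFinset, Set.Finite.mem_toFinset]; rfl⟩
  have hD : ∀ ω, 0 ≤ Dm (M.Ψ ω) N c.1 c.2 := fun ω => Dm_nonneg (M.nonneg ω) hN1 h1 h2
  have hDi := integrable_Dm M hN1 c.1 c.2
  have hY0 : ∀ r ω, 0 ≤ Y r ω := fun r ω => by
    rw [hY]
    split_ifs
    · exact hD ω
    · exact le_rfl
  have hYD : ∀ r ω, Y r ω ≤ Dm (M.Ψ ω) N c.1 c.2 := fun r ω => by
    rw [hY]
    split_ifs
    · exact le_rfl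
    · exact hD ω
  have hYm : ∀ r, Measurable (Y r) := fun r => by
    rw [funext (hY r)]
    exact Measurable.ite (M.meas ((measurableSet_isGeo _ _ _ _).inter (measurableSet_isGeo _ _ _ _)))
      ((measurable_Dm N c.1 c.2).comp M.meas) measurable_const
  have hYi : ∀ r, Integrable (Y r) (PP M.G) := fun r =>
    hDi.mono' (hYm r).aestronglyMeasurable (.of_forall fun ω => by
      rw [Real.norm_of_nonneg (hY0 r ω)]; exact hYD r ω)
  have hlo : ∀ r ∈ P, ∀ e ∈ u r.1 r.2, ∀ z ω, Y r (lo M.M0 e z ω) ≤ Y r ω := fun r hr e he z ω => by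
    have := (hu _ _ ((hP r).1 hr).1 ((hP r).1 hr).2).1 e he
    rw [hY, hY]
    exact cell_lo M hN1 h1 h2 _ _ this.1 this.2 z ω
  obtain ⟨Z, hZ⟩ : ∃ Z : List V × List V → Sym2 V → Env → ℝ, ∀ r e ω, Z r e ω =
      dens M.G M.M0 S (bef (u r.1 r.2) e) ω * ∫ z, (Y r ω - Y r (lo M.M0 e z ω)) ∂M.G :=
    ⟨_, fun _ _ _ => rfl⟩
  have hZi : ∀ r ∈ P, ∀ e ∈ u r.1 r.2, Integrable (Z r e) (PP M.G) := fun r hr e he => by
    rw [funext (hZ r e)]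
    have hn : e ∉ bef (u r.1 r.2) e := fun h => lt_irrefl _ (mem_filter.1 h).2
    exact (flow_step M.M0 hS0.le hS1 hn (hYm r) (hY0 r) (hYi r) (hlo r hr e he)).1
  have hZ0 : ∀ r ∈ P, ∀ e ∈ u r.1 r.2, ∀ ω, 0 ≤ Z r e ω := fun r hr e he ω => by
    rw [hZ]
    exact mul_nonneg (dens_nonneg _ _ hS0.le hS1 _ _)
      (integral_nonneg fun z => sub_nonneg.2 (hlo r hr e he z ω))
  have hZs : ∀ r ∈ P, Integrable (fun ω => ∑ e ∈ u r.1 r.2, Z r e ω) (PP M.G) := fun r hr =>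
    integrable_finsetSum _ (hZi r hr)
  have h3 : 0 ≤ 3 / g0 := by positivity
  refine ⟨fun ω => 3 / g0 * ∑ r ∈ P, ∑ e ∈ u r.1 r.2, Z r e ω,
    (integrable_finsetSum _ hZs).const_mul _,
    fun ω => mul_nonneg h3 (sum_nonneg fun r hr => sum_nonneg fun e he => hZ0 r hr e he ω), ?_, ?_⟩
  · have b1 : ∀ r ∈ P, S * ∫ ω, ∑ e ∈ u r.1 r.2, Z r e ω ∂(PP M.G) ≤ ∫ ω, Y r ω ∂(PP M.G) :=
      fun r hr => by
      rw [integral_finsetSum _ (hZi r hr)]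
      simp only [hZ]
      exact flow_sum M.M0 hS0.le hS1 _ (hYm r) (hY0 r) (hYi r) (hlo r hr)
    have b2 := sum_le_sum b1
    rw [← mul_sum, ← integral_finsetSum _ hZs, ← integral_finsetSum _ fun r _ => hYi r] at b2
    have b3 : ∫ ω, ∑ r ∈ P, Y r ω ∂(PP M.G) ≤ ∫ ω, Dm (M.Ψ ω) N c.1 c.2 ∂(PP M.G) := by
      refine integral_mono (integrable_finsetSum _ fun r _ => hYi r) hDi fun ω => ?_
      by_cases h : ∃ r ∈ P, Y r ω ≠ 0
      · obtain ⟨r, hr, h⟩ := h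
        have key : ∀ r, Y r ω ≠ 0 → IsGeo (bx 0 N) (M.Ψ ω) (bv N c.1) (bv N (c.2 + 1)) r.1 ∧
            IsGeo (bx 0 N) (M.Ψ ω) (bv N (c.1 + 1)) (bv N c.2) r.2 := fun r h => by
          by_contra h'
          exact h (by rw [hY, if_neg h'])
        refine le_trans (sum_eq_single_of_mem r hr fun r' _ h' => ?_).le (hYD r ω)
        by_contra h0
        exact h' (Prod.ext ((key r' h0).1.unique (key r h).1) ((key r' h0).2.unique (key r h).2))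
      · refine le_trans (sum_eq_zero fun r hr => ?_).le (hD ω)
        by_contra h0
        exact h ⟨r, hr, h0⟩
    rw [integral_const_mul, ← div_div, div_mul_eq_mul_div (3 / g0), mul_div_assoc (3 / g0)]
    exact mul_le_mul_of_nonneg_left ((le_div_iff₀' hS0).2 (b2.trans b3)) h3
  · intro ω p q gp gq
    have hr : (p, q) ∈ P := (hP _).2 ⟨gp.1, gq.1⟩
    have hu' := hu p q gp.1 gq.1
    refine le_trans ?_ (mul_le_mul_of_nonneg_left (single_le_sum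
      (f := fun r => ∑ e ∈ u r.1 r.2, Z r e ω)
      (fun r hr => sum_nonneg fun e he => hZ0 r hr e he ω) hr) h3)
    rw [mul_sum]
    refine le_trans (sum_le_sum fun e he => ?_) (sum_le_sum_of_subset_of_nonneg
      (fun e he => (mem_filter.1 he).2.1) fun e he _ => mul_nonneg h3 (hZ0 _ hr e he ω))
    obtain ⟨he, he1, he2, he3, he4⟩ := mem_filter.1 he
    obtain ⟨x, w, hx, hw, hxw, rfl⟩ := bulk_edge hN he
    have d1 : 1 / 3 ≤ dens M.G M.M0 S (bef (u p q) s(x, w)) ω :=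
      dens_ge _ _ hS0.le hS he4 (le_trans (mul_le_mul_of_nonneg_left
        (Nat.cast_le.2 (card_filter_le _ _)) (sq_nonneg S)) hu'.2)
    have d0 := dl_nonneg (M.Ψ ω) N κ c s(x, w)
    have d2 : g0 * dl (M.Ψ ω) N κ c s(x, w) ≤
        ∫ z, (Y (p, q) ω - Y (p, q) (lo M.M0 s(x, w) z ω)) ∂M.G := by
      have m1 : Measurable fun z => Y (p, q) (lo M.M0 s(x, w) z ω) :=
        (hYm _).comp ((measurable_lo M.M0 s(x, w)).comp measurable_prodMk_left)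
      have m2 : Integrable (fun z => Y (p, q) (lo M.M0 s(x, w) z ω)) M.G :=
        (integrable_const (Y (p, q) ω)).mono' m1.aestronglyMeasurable (.of_forall fun z => by
          rw [Real.norm_of_nonneg (hY0 _ _)]; exact hlo _ hr _ he1 z ω)
      rw [← hg0, ← smul_eq_mul, ← integral_indicator_const _ measurableSet_Iio]
      refine integral_mono ((integrable_const _).indicator measurableSet_Iio)
        ((integrable_const _).sub m2) fun z => ?_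
      by_cases hz : z ∈ Set.Iio (M.t0 + κ)
      · rw [Set.indicator_of_mem hz, hY, hY, if_pos ⟨gp, gq⟩]
        exact cell_drop M hN1 h1 h2 hx hw hxw (hu'.1 _ he1).1 (hu'.1 _ he1).2 hκ hz he2 he3 gp gq
      · rw [Set.indicator_of_notMem hz]
        exact sub_nonneg.2 (hlo _ hr _ he1 z ω)
    rw [hZ]
    calc dl (M.Ψ ω) N κ c s(x, w) = 3 / g0 * (1 / 3 * (g0 * dl (M.Ψ ω) N κ c s(x, w))) := by
          field_simp
      _ ≤ _ := mul_le_mul_of_nonneg_left (mul_le_mul d1 d2 (mul_nonneg hg.le d0)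
          (le_trans (by norm_num) d1)) h3

end Vale.Agent.P158b
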