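import Vale.Agent.P158b.Defs

/-! Convex geometry: supporting functionals and non-flat points. -/

open MeasureTheory ProbabilityTheory Finset
open scoped Classical

namespace Vale.Agent.P158b

/-- `exists_extension_of_le_sublinear` from the line spanned by `θ` -/
theorem exists_support (μ : Seminorm ℝ (ℝ × ℝ)) (θ : ℝ × ℝ) :
    ∃ ρ : (ℝ × ℝ) →ₗ[ℝ] ℝ, (∀ x, ρ x ≤ μ x) ∧ ρ θ = μ θ := by
  rcases eq_or_ne θ 0 with rfl | hθ
  · exact ⟨0, fun x => apply_nonneg μ x, by simp⟩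
  let f : (ℝ × ℝ) →ₗ.[ℝ] ℝ := LinearPMap.mkSpanSingleton θ (μ θ) hθ
  have hf : ∀ (t : ℝ) (ht), f ⟨t • θ, ht⟩ = t * μ θ := fun t ht => by
    have := LinearPMap.mkSpanSingleton'_apply (σ := RingHom.id ℝ) θ (μ θ)
      (fun c hc => (smul_eq_zero.1 hc).elim (fun hc => by rw [hc, map_zero, zero_smul])
        fun hx' => absurd hx' hθ) t ht
    exact this.trans (by simp)
  obtain ⟨g, g1, g2⟩ := exists_extension_of_le_sublinear f μ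
    (fun c hc x => by rw [map_smul_eq_mul, Real.norm_of_nonneg hc.le]) (map_add_le_add μ) (by
      rintro ⟨x, hx⟩
      obtain ⟨t, rfl⟩ := Submodule.mem_span_singleton.1 hx
      rw [hf]
      change _ ≤ μ (t • θ)
      rw [map_smul_eq_mul]
      exact mul_le_mul_of_nonneg_right (le_abs_self t) (apply_nonneg μ θ))
  refine ⟨g, g2, ?_⟩
  have := (g1 ⟨(1 : ℝ) • θ, Submodule.mem_span_singleton.2 ⟨_, rfl⟩⟩).trans (hf 1 _)
  simpa using this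

theorem geoA_lin (ρ : (ℝ × ℝ) →ₗ[ℝ] ℝ) (x : ℝ × ℝ) : ρ x = x.1 * ρ (1, 0) + x.2 * ρ (0, 1) := by
  have : x = x.1 • ((1, 0) : ℝ × ℝ) + x.2 • ((0, 1) : ℝ × ℝ) := by ext <;> simp
  conv_lhs => rw [this]
  rw [map_add, map_smul, map_smul, smul_eq_mul, smul_eq_mul]

theorem geoA_coord (ρ : (ℝ × ℝ) →ₗ[ℝ] ℝ) {θ : ℝ × ℝ} (h : ρ θ ≠ 0) :
    ∃ (η : ℝ × ℝ) (Y : ℝ × ℝ → ℝ), ρ η = 0 ∧ Continuous Y ∧ Y θ = 0 ∧
      ∀ x, x = (ρ x / ρ θ) • θ + Y x • η := by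
  refine ⟨(-ρ (0, 1), ρ (1, 0)), fun x => (θ.1 * x.2 - θ.2 * x.1) / ρ θ, ?_, by fun_prop, ?_,
    fun x => ?_⟩
  · rw [geoA_lin]
    ring
  · simp [mul_comm]
  · have h1 := geoA_lin ρ θ
    have h2 := geoA_lin ρ x
    ext
    · simp only [Prod.fst_add, Prod.smul_fst, smul_eq_mul]
      field_simp
      linear_combination x.1 * h1 - θ.1 * h2
    · simp only [Prod.snd_add, Prod.smul_snd, smul_eq_mul]
      field_simp
      linear_combination x.2 * h1 - θ.2 * h2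

theorem geoA_side (μ : Seminorm ℝ (ℝ × ℝ)) {θ η : ℝ × ℝ} {ρ : (ℝ × ℝ) →ₗ[ℝ] ℝ}
    {Y : ℝ × ℝ → ℝ} (h1 : ∀ x, ρ x ≤ μ x) (h2 : ρ θ = μ θ) (M0 : 0 < μ θ) (hY : Continuous Y)
    (Y0 : Y θ = 0) (hx : ∀ x, x = (ρ x / ρ θ) • θ + Y x • η) (hnf : ∀ r, 0 < r → ¬ Flat μ θ r) :
    ∃ σ : ℝ, (σ = 1 ∨ σ = -1) ∧ ∀ s : ℝ, 0 < s → μ θ < μ (θ + (σ * s) • η) := by
  by_contra hcon
  push Not at hcon
  obtain ⟨s1, p1, q1⟩ := hcon 1 (Or.inl rfl)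
  obtain ⟨s2, p2, q2⟩ := hcon (-1) (Or.inr rfl)
  have hρ : Continuous ρ := ρ.continuous_of_finiteDimensional
  have ho : IsOpen {x | 0 < Y x + s2 * (ρ x / ρ θ) ∧ 0 < s1 * (ρ x / ρ θ) - Y x} :=
    IsOpen.and (isOpen_lt continuous_const (by fun_prop)) (isOpen_lt continuous_const (by fun_prop))
  have h3 : ρ θ / ρ θ = 1 := div_self (by rw [h2]; exact M0.ne')
  obtain ⟨r, r0, hr⟩ := Metric.nhds_basis_closedBall.mem_iff.1
    (ho.mem_nhds (x := θ) ⟨by rw [Y0, h3]; linarith, by rw [Y0, h3]; linarith⟩)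
  refine hnf r r0 ⟨ρ, fun x hxr => le_antisymm ?_ (h1 x)⟩
  obtain ⟨a1, a2⟩ := hr (mem_closedBall_iff_norm.2 hxr)
  set X := ρ x / ρ θ with hX
  have s0 : 0 < s1 + s2 := by linarith
  have e : x = ((Y x + s2 * X) / (s1 + s2)) • (θ + (1 * s1) • η) +
      ((s1 * X - Y x) / (s1 + s2)) • (θ + (-1 * s2) • η) := by
    refine (hx x).trans ?_
    rw [← hX]
    match_scalars <;> field_simp <;> ring
  have b1 : 0 ≤ (Y x + s2 * X) / (s1 + s2) := by positivity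
  have b2 : 0 ≤ (s1 * X - Y x) / (s1 + s2) := by positivity
  have b3 := map_add_le_add μ (((Y x + s2 * X) / (s1 + s2)) • (θ + (1 * s1) • η))
    (((s1 * X - Y x) / (s1 + s2)) • (θ + (-1 * s2) • η))
  rw [← e, map_smul_eq_mul, map_smul_eq_mul, Real.norm_of_nonneg b1, Real.norm_of_nonneg b2] at b3
  have b4 := mul_le_mul_of_nonneg_left q1 b1
  have b5 := mul_le_mul_of_nonneg_left q2 b2
  have b6 : (Y x + s2 * X) / (s1 + s2) * μ θ + (s1 * X - Y x) / (s1 + s2) * μ θ = ρ x := by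
    rw [hX, h2]
    field_simp
    ring
  linarith

/-- Let `ρ` support at `θ`, `0 ≠ η ∈ ker ρ`, write `x = X θ + Y η` (`X = ρ x / μ θ`, `Y` linear) and
`g s = μ (θ + s η) ≥ μ θ`. If `g s0 = g (-s0) = μ θ` for some `s0 > 0` then `μ = ρ` on the cone
`X > 0, |Y| ≤ s0 X`, a neighbourhood of `θ`: flat. So by convexity there is a sign `σ0` with
`g (σ0 s) > μ θ` for all `s > 0`. With `ρ'` supporting at `θ + σ0 s0 η`, `ρ' x = a X + b σ0 Y`,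
`a ≤ μ θ < a + b s0`, so `σ0 Y ≤ (μ x - ρ x) / b + s0 |X|`. Finally `n x = Y * n η`. -/
theorem strict_dir (μ : Seminorm ℝ (ℝ × ℝ)) {c : ℝ} (hc : 0 < c) (hpos : ∀ x, c * ‖x‖ ≤ μ x)
    {θ : ℝ × ℝ} (hθ : θ ≠ 0) (hnf : ∀ r, 0 < r → ¬ Flat μ θ r) :
    ∃ ρ : (ℝ × ℝ) →ₗ[ℝ] ℝ, (∀ x, ρ x ≤ μ x) ∧ ρ θ = μ θ ∧
      ∀ n : (ℝ × ℝ) →ₗ[ℝ] ℝ, n θ = 0 → ∃ σ : ℝ, (σ = 1 ∨ σ = -1) ∧
        ∀ s : ℝ, 0 < s → ∃ B : ℝ, 0 ≤ B ∧ ∀ x, σ * n x ≤ B * (μ x - ρ x) + s * ‖x‖ := by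
  obtain ⟨ρ, h1, h2⟩ := exists_support μ θ
  have M0 : 0 < μ θ := (mul_pos hc (norm_pos_iff.2 hθ)).trans_le (hpos θ)
  obtain ⟨η, Y, hη, hY, Y0, hx⟩ := geoA_coord ρ (θ := θ) (by rw [h2]; exact M0.ne')
  obtain ⟨σ0, hσ, hs⟩ := geoA_side μ h1 h2 M0 hY Y0 hx hnf
  have σ2 : σ0 * σ0 = 1 := by rcases hσ with rfl | rfl <;> norm_num
  obtain ⟨L, L0, hL⟩ : ∃ L : ℝ, 0 < L ∧ ∀ x, |ρ x / ρ θ| ≤ L * ‖x‖ := by
    obtain ⟨L, L0, hL⟩ := (LinearMap.toContinuousLinearMap ρ).bound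
    refine ⟨L / μ θ, by positivity, fun x => ?_⟩
    rw [h2, abs_div, abs_of_pos M0, div_mul_eq_mul_div]
    exact div_le_div_of_nonneg_right (hL x) M0.le
  have key : ∀ s : ℝ, 0 < s → ∃ B : ℝ, 0 ≤ B ∧ ∀ x, σ0 * Y x ≤ B * (μ x - ρ x) + s * ‖x‖ := by
    intro s s0
    have t0 : 0 < s / L := by positivity
    obtain ⟨ρ', g1, g2⟩ := exists_support μ (θ + (σ0 * (s / L)) • η)
    have g3 := hs _ t0
    rw [← g2, map_add, map_smul, smul_eq_mul] at g3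
    have g4 := g1 θ
    set b := σ0 * ρ' η with hb
    have g5 : μ θ - ρ' θ < s / L * b := by rw [hb]; linarith
    have b0 : 0 < b := (mul_pos_iff_of_pos_left t0).1 (by linarith)
    refine ⟨b⁻¹, by positivity, fun x => ?_⟩
    have a1 : ρ' x = ρ x / ρ θ * ρ' θ + b * (σ0 * Y x) := by
      conv_lhs => rw [hx x]
      rw [map_add, map_smul, map_smul, smul_eq_mul, smul_eq_mul, hb]
      linear_combination (-(Y x * ρ' η)) * σ2
    have a2 : ρ x = ρ x / ρ θ * μ θ := by rw [h2]; field_simp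
    have a3 := g1 x
    have a4 : ρ x / ρ θ * (μ θ - ρ' θ) ≤ L * ‖x‖ * (s / L * b) :=
      mul_le_mul ((le_abs_self _).trans (hL x)) g5.le (by linarith) (by positivity)
    have a5 : L * ‖x‖ * (s / L * b) = b * (s * ‖x‖) := by field_simp
    refine le_of_mul_le_mul_left ?_ b0
    rw [mul_add, ← mul_assoc b b⁻¹, mul_inv_cancel₀ b0.ne', one_mul]
    linarith
  refine ⟨ρ, h1, h2, fun n hn => ?_⟩
  have hnx : ∀ x, n x = Y x * n η := fun x => by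
    conv_lhs => rw [hx x]
    rw [map_add, map_smul, map_smul, hn, smul_zero, zero_add, smul_eq_mul]
  obtain ⟨σ, hσ', e⟩ : ∃ σ : ℝ, (σ = 1 ∨ σ = -1) ∧ σ * n η = σ0 * |n η| := by
    rcases le_total 0 (n η) with h | h
    · exact ⟨σ0, hσ, by rw [abs_of_nonneg h]⟩
    · refine ⟨-σ0, ?_, by rw [abs_of_nonpos h]; ring⟩
      rcases hσ with rfl | rfl <;> simp
  refine ⟨σ, hσ', fun s s0 => ?_⟩
  have n0 := abs_nonneg (n η)
  obtain ⟨B, B0, hB⟩ := key (s / (|n η| + 1)) (by positivity)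
  refine ⟨|n η| * B, by positivity, fun x => ?_⟩
  have a1 := mul_le_mul_of_nonneg_left (hB x) n0
  have a2 : |n η| * (s / (|n η| + 1)) ≤ s := by
    rw [← mul_div_assoc, div_le_iff₀ (by positivity)]
    linarith
  have a3 := mul_le_mul_of_nonneg_right a2 (norm_nonneg x)
  have a4 : σ * n x = |n η| * (σ0 * Y x) := by
    rw [hnx]
    linear_combination Y x * e
  rw [a4]
  linarith

theorem Flat.mono {μ : Seminorm ℝ (ℝ × ℝ)} {w : ℝ × ℝ} {r r' : ℝ} (h : Flat μ w r)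
    (hr : r' ≤ r) : Flat μ w r' := by
  obtain ⟨ρ, hρ⟩ := h
  exact ⟨ρ, fun x hx => hρ x (hx.trans hr)⟩

end Vale.Agent.P158b
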