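import Vale.Agent.P158b.GeoA

/-! Convex geometry: the finite cover by flat and strict windows. -/

open MeasureTheory ProbabilityTheory Finset
open scoped Classical

namespace Vale.Agent.P158b

theorem gQ_sub (sw : Bool) (s : ℝ) (x y : ℝ × ℝ) : gQ sw s (x - y) = gQ sw s x - gQ sw s y := by
  cases sw <;> simp [gQ] <;> ring

theorem gQ_smul (sw : Bool) (s a : ℝ) (x : ℝ × ℝ) : gQ sw s (a • x) = a * gQ sw s x := by
  cases sw <;> simp [gQ] <;> ring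

theorem geoB_abs {s : ℝ} (hs : |s| ≤ 1) (a : ℝ) : |s * a| ≤ |a| := by
  rw [abs_mul]
  exact mul_le_of_le_one_left (abs_nonneg a) hs

theorem abs_gQ_le (sw : Bool) {s : ℝ} (hs : |s| ≤ 1) (x : ℝ × ℝ) : |gQ sw s x| ≤ 2 * ‖x‖ := by
  have h1 : |x.1| ≤ ‖x‖ := norm_fst_le x
  have h2 : |x.2| ≤ ‖x‖ := norm_snd_le x
  cases sw
  · have := abs_sub x.2 (s * x.1)
    have := geoB_abs hs x.1
    simp only [gQ, Bool.false_eq_true, if_false]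
    linarith
  · have := abs_sub x.1 (s * x.2)
    have := geoB_abs hs x.2
    simp only [gQ, if_true]
    linarith

theorem abs_gP_le (sw : Bool) (x : ℝ × ℝ) : |gP sw x| ≤ ‖x‖ := by
  cases sw
  · exact norm_fst_le x
  · exact norm_snd_le x

theorem norm_le_gP_gQ (sw : Bool) {s : ℝ} (hs : |s| ≤ 1) (x : ℝ × ℝ) :
    ‖x‖ ≤ |gP sw x| + |gQ sw s x| := by
  have key : ∀ a b : ℝ, |a| ≤ |a| + |b - s * a| ∧ |b| ≤ |a| + |b - s * a| := fun a b => by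
    have h1 := abs_add_le (b - s * a) (s * a)
    rw [sub_add_cancel] at h1
    exact ⟨le_add_of_nonneg_right (abs_nonneg _), by linarith [geoB_abs hs a]⟩
  rw [Prod.norm_def]
  cases sw
  · exact max_le (key x.1 x.2).1 (key x.1 x.2).2
  · exact max_le (key x.2 x.1).2 (key x.2 x.1).1

theorem abs_gQ_adj (sw : Bool) {s : ℝ} (hs : |s| ≤ 1) {x y : V} (h : Adj x y) :
    |gQ sw s (cv y) - gQ sw s (cv x)| ≤ 1 := by
  rw [← gQ_sub]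
  rcases h with ⟨h1, h2⟩ | ⟨h1, h2⟩ | ⟨h1, h2⟩ | ⟨h1, h2⟩ <;> cases sw <;>
    simp [gQ, cv, h1, h2, hs]

/-- the data of a strict window -/
def geoQ (μ : Seminorm ℝ (ℝ × ℝ)) (ξ B0 : ℝ) (k : ℕ) (r B : ℝ) (w : ℝ × ℝ) : Prop :=
  ∃ (sw : Bool) (j : ℤ) (ρ : (ℝ × ℝ) →ₗ[ℝ] ℝ) (σ B' : ℝ), |j| ≤ k ∧ (∀ x, ρ x ≤ μ x) ∧
    (σ = 1 ∨ σ = -1) ∧ B0 ≤ B' ∧ 0 ≤ B' ∧ B' ≤ B ∧
    (∀ w', ‖w' - w‖ ≤ r → B' * (μ w' - ρ w') ≤ ξ ∧ |gQ sw (j / k) w'| ≤ ξ) ∧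
    ∀ x, σ * gQ sw (j / k) x ≤ B' * (μ x - ρ x) + ξ * ‖x‖

theorem geoQ_mono {μ : Seminorm ℝ (ℝ × ℝ)} {ξ B0 : ℝ} {k : ℕ} {r B r' B₁ : ℝ} {w w₁ : ℝ × ℝ}
    (h : geoQ μ ξ B0 k r B w) (hr : ∀ x, ‖x - w₁‖ ≤ r' → ‖x - w‖ ≤ r) (hB : B ≤ B₁) :
    geoQ μ ξ B0 k r' B₁ w₁ := by
  obtain ⟨sw, j, ρ, σ, B', h1, h2, h3, h4, h5, h6, h7, h8⟩ := h
  exact ⟨sw, j, ρ, σ, B', h1, h2, h3, h4, h5, h6.trans hB, fun x hx => h7 x (hr x hx), h8⟩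

theorem geoB_slope {θ : ℝ × ℝ} (hθ : θ ≠ 0) : ∃ (sw : Bool) (s : ℝ), |s| ≤ 1 ∧ gQ sw s θ = 0 := by
  rcases le_total |θ.2| |θ.1| with h | h
  · have h0 : θ.1 ≠ 0 := fun h0 => hθ (Prod.ext h0 (by simpa [h0] using h))
    refine ⟨false, θ.2 / θ.1, ?_, by simp [gQ, h0]⟩
    rw [abs_div]
    exact div_le_one_of_le₀ h (abs_nonneg _)
  · have h0 : θ.2 ≠ 0 := fun h0 => hθ (Prod.ext (by simpa [h0] using h) h0)
    refine ⟨true, θ.1 / θ.2, ?_, by simp [gQ, h0]⟩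
    rw [abs_div]
    exact div_le_one_of_le₀ h (abs_nonneg _)

theorem geoB_local (μ : Seminorm ℝ (ℝ × ℝ)) {c0 m : ℝ} (hc : 0 < c0)
    (hpos : ∀ x, c0 * ‖x‖ ≤ μ x) (hm : ∀ x, μ x ≤ m * ‖x‖) {ξ : ℝ} (hξ : 0 < ξ) (B0 : ℝ) {k : ℕ}
    (hk : 4 ≤ ξ * k) {θ : ℝ × ℝ} (hθ : θ ≠ 0) (h2 : ‖θ‖ ≤ 2) (hnf : ∀ r, 0 < r → ¬ Flat μ θ r) :
    ∃ r B : ℝ, 0 < r ∧ geoQ μ ξ B0 k r B θ := by
  obtain ⟨ρ, a1, a2, a3⟩ := strict_dir μ hc hpos hθ hnf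
  obtain ⟨sw, s, s1, s2⟩ := geoB_slope hθ
  let n : (ℝ × ℝ) →ₗ[ℝ] ℝ :=
    { toFun := gQ sw s
      map_add' := fun x y => by cases sw <;> simp [gQ] <;> ring
      map_smul' := fun a x => gQ_smul sw s a x }
  obtain ⟨σ, hσ, a4⟩ := a3 n s2
  obtain ⟨B1, B10, a5⟩ := a4 (ξ / 2) (by positivity)
  have k0 : (0 : ℝ) < k := (mul_pos_iff_of_pos_left hξ).1 (by linarith)
  obtain ⟨s3, s4⟩ := abs_le.1 s1
  have j1 : (⌊k * s⌋ : ℝ) ≤ k * s := Int.floor_le _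
  have j2 : k * s < (⌊k * s⌋ : ℝ) + 1 := Int.lt_floor_add_one _
  have j3 : |⌊k * s⌋| ≤ (k : ℤ) := by
    refine abs_le.2 ⟨Int.le_floor.2 ?_, ?_⟩
    · push_cast
      nlinarith
    · have : (⌊k * s⌋ : ℝ) ≤ ((k : ℤ) : ℝ) := by
        push_cast
        nlinarith
      exact_mod_cast this
  set t : ℝ := (⌊k * s⌋ : ℝ) / k with ht
  have t1 : |t| ≤ 1 := by
    rw [ht, abs_div, abs_of_pos k0]
    exact div_le_one_of_le₀ (by exact_mod_cast j3) k0.le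
  have t2 : |s - t| ≤ ξ / 4 := by
    have e : s - t = (k * s - ⌊k * s⌋) / k := by rw [ht]; field_simp
    rw [e, abs_of_nonneg (div_nonneg (by linarith) k0.le), div_le_iff₀ k0]
    linarith
  have t3 : ∀ x, |gQ sw t x - gQ sw s x| ≤ ξ / 4 * ‖x‖ := fun x => by
    have e : gQ sw t x - gQ sw s x = (s - t) * gP sw x := by cases sw <;> simp [gQ, gP] <;> ring
    rw [e, abs_mul]
    exact mul_le_mul t2 (abs_gP_le sw x) (abs_nonneg _) (by positivity)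
  set B := max B1 B0 with hB
  have B1B : B1 ≤ B := le_max_left _ _
  have B0' : 0 ≤ B := B10.trans B1B
  have m0 := abs_nonneg m
  refine ⟨min (ξ / 4) (ξ / (2 * B * |m| + 1)), B, by positivity, sw, ⌊k * s⌋, ρ, σ, B, j3, a1, hσ,
    le_max_right _ _, B0', le_rfl, fun w hw => ⟨?_, ?_⟩, fun x => ?_⟩
  · have b1 := map_add_le_add μ θ (w - θ)
    have b2 := a1 (-(w - θ))
    rw [add_sub_cancel] at b1
    rw [map_neg_eq_map μ, map_neg ρ, map_sub ρ] at b2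
    have b3 := (hm (w - θ)).trans (mul_le_mul_of_nonneg_right (le_abs_self m) (norm_nonneg _))
    have b4 := (le_div_iff₀ (by positivity)).1 (hw.trans (min_le_right _ _))
    have b5 : B * (μ w - ρ w) ≤ B * (2 * (|m| * ‖w - θ‖)) :=
      mul_le_mul_of_nonneg_left (by linarith) B0'
    linarith [norm_nonneg (w - θ)]
  · have b1 := abs_gQ_le sw t1 (w - θ)
    have b2 := t3 θ
    rw [s2, sub_zero] at b2
    have b3 := abs_add_le (gQ sw t (w - θ)) (gQ sw t θ)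
    rw [gQ_sub, sub_add_cancel, ← gQ_sub] at b3
    have b4 := hw.trans (min_le_left _ _)
    have b5 := mul_le_mul_of_nonneg_left h2 (by positivity : 0 ≤ ξ / 4)
    linarith
  · have b1 : σ * gQ sw s x ≤ B1 * (μ x - ρ x) + ξ / 2 * ‖x‖ := a5 x
    have b2 := mul_le_mul_of_nonneg_right B1B (sub_nonneg.2 (a1 x))
    have b3 := abs_le.1 (t3 x)
    have b4 : 0 ≤ ξ * ‖x‖ := by positivity
    rcases hσ with rfl | rfl <;> linarith [b3.1, b3.2]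

/-- For each `θ` in the compact set `c2 ≤ ‖θ‖ ≤ 2` choose `rθ ∈ (0, min (1/2) (ξ/16)]` with either
`Flat μ θ (2 rθ)` or (by `strict_dir` with `n = gQ sw sθ`, `sθ` the slope of `θ`, `s = ξ/2`,
`Bθ ≥ B0`) `Bθ * 2 m * (2 rθ) ≤ ξ`. Finite subcover by the balls of radius `rθ`; `r` the least
radius, `B` the largest `Bθ`; `j = ⌊k sθ⌋`, so `|j/k - sθ| ≤ 1/k ≤ ξ/4`. -/
theorem geo_cover (μ : Seminorm ℝ (ℝ × ℝ)) {c0 m : ℝ} (hc : 0 < c0)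
    (hpos : ∀ x, c0 * ‖x‖ ≤ μ x) (hm : ∀ x, μ x ≤ m * ‖x‖) {c2 ξ : ℝ} (hc2 : 0 < c2) (hξ : 0 < ξ)
    (B0 : ℝ) {k : ℕ} (hk : 4 ≤ ξ * k) :
    ∃ r B : ℝ, 0 < r ∧ ∀ w : ℝ × ℝ, c2 ≤ ‖w‖ → ‖w‖ ≤ 2 → ¬ Flat μ w r →
      ∃ (sw : Bool) (j : ℤ) (ρ : (ℝ × ℝ) →ₗ[ℝ] ℝ) (σ B' : ℝ), |j| ≤ k ∧ (∀ x, ρ x ≤ μ x) ∧
        (σ = 1 ∨ σ = -1) ∧ B0 ≤ B' ∧ 0 ≤ B' ∧ B' ≤ B ∧
        (∀ w', ‖w' - w‖ ≤ r → B' * (μ w' - ρ w') ≤ ξ ∧ |gQ sw (j / k) w'| ≤ ξ) ∧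
        ∀ x, σ * gQ sw (j / k) x ≤ B' * (μ x - ρ x) + ξ * ‖x‖ := by
  have hK : IsCompact ({w : ℝ × ℝ | c2 ≤ ‖w‖} ∩ Metric.closedBall 0 2) :=
    (isCompact_closedBall _ _).inter_left (isClosed_le continuous_const continuous_norm)
  have key := hK.induction_on
    (p := fun S => ∃ r B : ℝ, 0 < r ∧ ∀ w ∈ S, ¬ Flat μ w r → geoQ μ ξ B0 k r B w)
    ⟨1, 0, one_pos, fun w hw => hw.elim⟩
    (fun S T hST ⟨r, B, r0, h⟩ => ⟨r, B, r0, fun w hw => h w (hST hw)⟩)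
    (by
      rintro S T ⟨r, B, r0, h⟩ ⟨r', B', r0', h'⟩
      refine ⟨min r r', max B B', lt_min r0 r0', ?_⟩
      rintro w (hw | hw) hf
      · exact geoQ_mono (h w hw fun g => hf (g.mono (min_le_left _ _)))
          (fun x hx => hx.trans (min_le_left _ _)) (le_max_left _ _)
      · exact geoQ_mono (h' w hw fun g => hf (g.mono (min_le_right _ _)))
          (fun x hx => hx.trans (min_le_right _ _)) (le_max_right _ _))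
    (by
      rintro θ ⟨h1, h2⟩
      have hθ : θ ≠ 0 := norm_pos_iff.1 (hc2.trans_le h1)
      have tri : ∀ r : ℝ, ∀ w ∈ Metric.closedBall θ (r / 2), ∀ x, ‖x - w‖ ≤ r / 2 →
          ‖x - θ‖ ≤ r := fun r w hw x hx => by
        have := norm_sub_le_norm_sub_add_norm_sub x w θ
        have := mem_closedBall_iff_norm.1 hw
        linarith
      by_cases hf : ∃ r, 0 < r ∧ Flat μ θ r
      · obtain ⟨r, r0, ρ, hρ⟩ := hf
        exact ⟨_, mem_nhdsWithin_of_mem_nhds (Metric.closedBall_mem_nhds θ (half_pos r0)), r / 2, 0,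
          half_pos r0, fun w hw hn => (hn ⟨ρ, fun x hx => hρ x (tri r w hw x hx)⟩).elim⟩
      · obtain ⟨r, B, r0, hQ⟩ := geoB_local μ hc hpos hm hξ B0 hk hθ (mem_closedBall_zero_iff.1 h2)
          fun r r0 g => hf ⟨r, r0, g⟩
        exact ⟨_, mem_nhdsWithin_of_mem_nhds (Metric.closedBall_mem_nhds θ (half_pos r0)), r / 2, B,
          half_pos r0, fun w hw _ => geoQ_mono hQ (tri r w hw) le_rfl⟩)
  obtain ⟨r, B, r0, h⟩ := key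
  exact ⟨r, B, r0, fun w h1 h2 hf => h w ⟨h1, mem_closedBall_zero_iff.2 h2⟩ hf⟩

end Vale.Agent.P158b
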