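import Vale.Agent.P158b.ProbA

/-! Harris-type inequalities for lowering inside the light and heavy classes. -/

open MeasureTheory ProbabilityTheory Finset
open scoped Classical

namespace Vale.Agent.P158b

variable {G : Measure ℝ} [IsProbabilityMeasure G]

private theorem lo_lower {t0 M0 κ z z' : ℝ} (hz : z ∈ Lo t0 M0 κ) (hs : z ≤ M0 ↔ z' ≤ M0)
    (hle : z' ≤ z) : z' ∈ Lo t0 M0 κ := by
  simp only [Lo, fl, Set.mem_ofPred_eq] at hz ⊢
  by_cases h : z ≤ M0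
  · rw [if_pos h] at hz
    rw [if_pos (hs.1 h)]
    linarith
  · rw [if_neg h] at hz
    rw [if_neg (fun h' => h (hs.2 h'))]
    linarith

private theorem class_bound {c : ℝ} (hc0 : 0 ≤ c) (hc1 : c ≤ 1) {D B I : Set ℝ}
    (hB : c ≤ G.real (B ∩ I))
    (hD : ∀ z ∈ D, ∀ z', z ∈ I → z' ∈ I → z' ≤ z → z' ∈ D)
    (hB' : ∀ z ∈ B, ∀ z', z ∈ I → z' ∈ I → z' ≤ z → z' ∈ B) :
    c * G.real (D ∩ I) ≤ G.real (D ∩ B ∩ I) := by
  by_cases h : D ∩ I ⊆ B
  · have h1 : G.real (D ∩ I) ≤ G.real (D ∩ B ∩ I) :=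
      measureReal_mono (fun z hz => ⟨⟨hz.1, h hz⟩, hz.2⟩)
    have h2 : 0 ≤ G.real (D ∩ I) := measureReal_nonneg
    nlinarith
  · obtain ⟨z, hz, hzB⟩ := Set.not_subset.1 h
    have h1 : G.real (B ∩ I) ≤ G.real (D ∩ B ∩ I) := by
      refine measureReal_mono (fun y hy => ⟨⟨?_, hy.1⟩, hy.2⟩)
      refine hD z hz.1 y hz.2 hy.2 ?_
      by_contra hlt
      exact hzB (hB' y hy.1 z hy.2 hz.2 (le_of_lt (not_le.1 hlt)))
    have h2 : G.real (D ∩ I) ≤ 1 := measureReal_le_one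
    nlinarith

private theorem line_bound {t0 M0 κ c : ℝ} (hc0 : 0 ≤ c) (hc1 : c ≤ 1)
    (h1 : c ≤ G.real (Lo t0 M0 κ ∩ Set.Iic M0)) (h2 : c ≤ G.real (Lo t0 M0 κ ∩ Set.Ioi M0))
    {D : Set ℝ} (hD : ∀ z ∈ D, ∀ z', (z ≤ M0 ↔ z' ≤ M0) → z' ≤ z → z' ∈ D) :
    c * G.real D ≤ G.real (D ∩ Lo t0 M0 κ) := by
  have e1 : ∀ X : Set ℝ, G.real X = G.real (X ∩ Set.Iic M0) + G.real (X ∩ Set.Ioi M0) := by
    intro X
    rw [← measureReal_inter_add_sdiff (μ := G) (s := X) (measurableSet_Iic (a := M0)),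
      Set.sdiff_eq, Set.compl_Iic]
  have a1 := class_bound (G := G) hc0 hc1 (D := D) h1
    (fun z hz z' i1 i2 hle => hD z hz z' ⟨fun _ => i2, fun _ => i1⟩ hle)
    (fun z hz z' i1 i2 hle => lo_lower hz ⟨fun _ => i2, fun _ => i1⟩ hle)
  have a2 := class_bound (G := G) hc0 hc1 (D := D) h2
    (fun z hz z' i1 i2 hle => hD z hz z'
      ⟨fun h => absurd h (not_le.2 i1), fun h => absurd h (not_le.2 i2)⟩ hle)
    (fun z hz z' i1 i2 hle => lo_lower hz
      ⟨fun h => absurd h (not_le.2 i1), fun h => absurd h (not_le.2 i2)⟩ hle)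
  rw [e1 D, e1 (D ∩ Lo t0 M0 κ)]
  linarith

private theorem coord_bound {t0 M0 κ c : ℝ} (hc0 : 0 ≤ c) (hc1 : c ≤ 1)
    (h1 : c ≤ G.real (Lo t0 M0 κ ∩ Set.Iic M0)) (h2 : c ≤ G.real (Lo t0 M0 κ ∩ Set.Ioi M0))
    (e : Sym2 V) {A : Set Env} (hA : MeasurableSet A)
    (hdec : ∀ ω ∈ A, ∀ ω' : Env, SameP M0 ω ω' → (∀ f, ω' f ≤ ω f) → (∀ f, f ≠ e → ω' f = ω f) →
      ω' ∈ A) :
    c * (PP G).real A ≤ (PP G).real (A ∩ {ω | ω e ∈ Lo t0 M0 κ}) := by
  have hB : MeasurableSet {ω : Env | ω e ∈ Lo t0 M0 κ} :=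
    measurable_pi_apply e (measurableSet_Lo t0 M0 κ)
  have hmp := update_mp G e
  have key : ENNReal.ofReal c * PP G A ≤ PP G (A ∩ {ω | ω e ∈ Lo t0 M0 κ}) := by
    rw [← hmp.measure_preimage hA.nullMeasurableSet,
      ← hmp.measure_preimage (hA.inter hB).nullMeasurableSet,
      Measure.prod_apply (hmp.measurable hA), Measure.prod_apply (hmp.measurable (hA.inter hB)),
      ← lintegral_const_mul' _ _ ENNReal.ofReal_ne_top]
    refine lintegral_mono fun ω => ?_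
    have hl := line_bound (G := G) hc0 hc1 h1 h2 (D := {z | Function.update ω e z ∈ A}) (by
      intro z hz z' hs hle
      refine hdec _ hz _ ?_ ?_ ?_
      · intro f
        by_cases hf : f = e
        · subst hf
          simpa using hs
        · simp [Function.update_of_ne hf]
      · intro f
        by_cases hf : f = e
        · subst hf
          simpa using hle
        · simp [Function.update_of_ne hf]
      · intro f hf
        simp [Function.update_of_ne hf])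
    have e1 : Prod.mk ω ⁻¹' ((fun p : Env × ℝ => Function.update p.1 e p.2) ⁻¹' A) =
        {z | Function.update ω e z ∈ A} := rfl
    have e2 : Prod.mk ω ⁻¹' ((fun p : Env × ℝ => Function.update p.1 e p.2) ⁻¹'
        (A ∩ {ω | ω e ∈ Lo t0 M0 κ})) = {z | Function.update ω e z ∈ A} ∩ Lo t0 M0 κ := by
      ext z
      simp
    beta_reduce
    rw [e1, e2, ← ofReal_measureReal (μ := G) (s := {z | Function.update ω e z ∈ A}),
      ← ofReal_measureReal (μ := G) (s := {z | Function.update ω e z ∈ A} ∩ Lo t0 M0 κ),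
      ← ENNReal.ofReal_mul hc0]
    exact ENNReal.ofReal_le_ofReal hl
  have := ENNReal.toReal_mono (measure_ne_top _ _) key
  rwa [ENNReal.toReal_mul, ENNReal.toReal_ofReal hc0] at this

private theorem block_bound {t0 M0 κ c : ℝ} (hc0 : 0 ≤ c) (hc1 : c ≤ 1)
    (h1 : c ≤ G.real (Lo t0 M0 κ ∩ Set.Iic M0)) (h2 : c ≤ G.real (Lo t0 M0 κ ∩ Set.Ioi M0))
    (J : Finset (Sym2 V)) : ∀ {A : Set Env}, MeasurableSet A →
    (∀ ω ∈ A, ∀ ω' : Env, SameP M0 ω ω' → (∀ e, ω' e ≤ ω e) → (∀ e, e ∉ J → ω' e = ω e) →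
      ω' ∈ A) →
    c ^ J.card * (PP G).real A ≤ (PP G).real (A ∩ {ω | ∀ e ∈ J, ω e ∈ Lo t0 M0 κ}) := by
  induction J using Finset.induction_on with
  | empty =>
    intro A _ _
    simp
  | insert e J he ih =>
    intro A hA hdec
    have hB : MeasurableSet {ω : Env | ω e ∈ Lo t0 M0 κ} :=
      measurable_pi_apply e (measurableSet_Lo t0 M0 κ)
    have a1 := coord_bound (G := G) hc0 hc1 h1 h2 e hA (fun ω hω ω' hs hle heq =>
      hdec ω hω ω' hs hle fun f hf => heq f fun h => hf (h ▸ mem_insert_self e J))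
    have a2 := ih (hA.inter hB) (fun ω hω ω' hs hle heq =>
      ⟨hdec ω hω.1 ω' hs hle fun f hf => heq f fun h => hf (mem_insert_of_mem h),
        lo_lower hω.2 (hs e) (hle e)⟩)
    have e1 : A ∩ {ω | ω e ∈ Lo t0 M0 κ} ∩ {ω | ∀ f ∈ J, ω f ∈ Lo t0 M0 κ} =
        A ∩ {ω | ∀ f ∈ insert e J, ω f ∈ Lo t0 M0 κ} := by
      ext ω
      simp [and_assoc]
    rw [e1] at a2
    rw [card_insert_of_notMem he, pow_succ, mul_assoc]
    exact (mul_le_mul_of_nonneg_left a1 (pow_nonneg hc0 _)).trans a2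

/-- One coordinate first: by `update_mp` and Tonelli; a section `D` of `A` is a lower set inside
each of the classes `Iic M0`, `Ioi M0`, and so is `Lo`; in each class one contains the other, hence
`G (D ∩ Lo) ≥ c * G D`. Induction on `J` (`A ∩ {ω e ∈ Lo}` keeps the hypothesis) gives
`PP (A ∩ {∀ e ∈ J, ω e ∈ Lo}) ≥ c ^ card J * PP A`. -/
theorem harris_one {t0 M0 κ c : ℝ} (hc0 : 0 ≤ c) (hc1 : c ≤ 1)
    (h1 : c ≤ G.real (Lo t0 M0 κ ∩ Set.Iic M0)) (h2 : c ≤ G.real (Lo t0 M0 κ ∩ Set.Ioi M0))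
    (J : Finset (Sym2 V)) {L : ℕ} (hL : J.card ≤ L) {A : Set Env} (hA : MeasurableSet A)
    (hdec : ∀ ω ∈ A, ∀ ω' : Env, SameP M0 ω ω' → (∀ e, ω' e ≤ ω e) → (∀ e, e ∉ J → ω' e = ω e) →
      ω' ∈ A) :
    (PP G).real (A ∩ {ω | ∃ e ∈ J, ω e ∉ Lo t0 M0 κ}) ≤ (1 - c ^ L) * (PP G).real A := by
  have a1 := block_bound (G := G) hc0 hc1 h1 h2 J hA hdec
  have hB : MeasurableSet {ω : Env | ∀ e ∈ J, ω e ∈ Lo t0 M0 κ} := by
    have : {ω : Env | ∀ e ∈ J, ω e ∈ Lo t0 M0 κ} = ⋂ e ∈ J, {ω : Env | ω e ∈ Lo t0 M0 κ} := by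
      ext ω
      simp
    rw [this]
    exact Finset.measurableSet_biInter J fun e _ =>
      measurable_pi_apply e (measurableSet_Lo t0 M0 κ)
  have a2 := measureReal_inter_add_sdiff (μ := PP G) (s := A) hB
  have e1 : A \ {ω : Env | ∀ e ∈ J, ω e ∈ Lo t0 M0 κ} =
      A ∩ {ω | ∃ e ∈ J, ω e ∉ Lo t0 M0 κ} := by
    ext ω
    simp
  rw [e1] at a2
  have a3 : c ^ L ≤ c ^ J.card := pow_le_pow_of_le_one hc0 hc1 hL
  have a4 : 0 ≤ (PP G).real A := measureReal_nonneg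
  have a5 := mul_le_mul_of_nonneg_right a3 a4
  linarith

private theorem adapt_aux {t0 M0 κ c : ℝ} (hc0 : 0 ≤ c) (hc1 : c ≤ 1)
    (h1 : c ≤ G.real (Lo t0 M0 κ ∩ Set.Iic M0)) (h2 : c ≤ G.real (Lo t0 M0 κ ∩ Set.Ioi M0))
    (E : ℕ → Sym2 V) (L L1 : ℕ) (hL1 : 1 ≤ L1)
    (hE : ∀ i j, i < L → j < L → E i = E j → i = j) {A : Set Env} (hA : MeasurableSet A)
    (hdec : ∀ ω ∈ A, ∀ ω' : Env, SameP M0 ω ω' → (∀ e, ω' e ≤ ω e) →
      (∀ e, (∀ k, k < L → e ≠ E k) → ω' e = ω e) → ω' ∈ A)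
    (Z : ℕ → Set Env) (hZ : ∀ i, MeasurableSet (Z i))
    (hZinv : ∀ i, ∀ ω ∈ Z i, ∀ ω' : Env, SameP M0 ω ω' →
      (∀ e, (∀ k, i ≤ k → k < L → e ≠ E k) → ω' e = ω e) → ω' ∈ Z i) (R : ℕ) :
    ∀ (n : ℕ) (H : Set Env), MeasurableSet H →
      (∀ ω ∈ H, ∀ ω' : Env, SameP M0 ω ω' →
        (∀ e, (∀ k, n ≤ k → k < L → e ≠ E k) → ω' e = ω e) → ω' ∈ H) →
      (PP G).real (A ∩ H ∩ {ω | (∀ i, i < L → ω ∈ Z i →
        ∃ k, i ≤ k ∧ k < i + L1 ∧ k < L ∧ ω (E k) ∉ Lo t0 M0 κ) ∧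
        R * L1 ≤ ((Ico n L).filter fun i => ω ∈ Z i).card}) ≤
      (1 - c ^ L1) ^ R * (PP G).real (A ∩ H) := by
  have hρ : 0 ≤ 1 - c ^ L1 := sub_nonneg.2 (pow_le_one₀ hc0 hc1)
  induction R with
  | zero =>
    intro n H _ _
    rw [pow_zero, one_mul]
    exact measureReal_mono Set.inter_subset_left
  | succ R ih =>
    intro n H hH hinv
    let F : ℕ → Set Env := fun i => H ∩ (Z i ∩ {ω | ∀ j ∈ Ico n i, ω ∉ Z j})
    let J : ℕ → Finset (Sym2 V) := fun i => (Ico i (min (i + L1) L)).image E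
    let K : ℕ → Set Env := fun i => {ω | ∃ e ∈ J i, ω e ∉ Lo t0 M0 κ}
    have hF : ∀ i, MeasurableSet (F i) := by
      intro i
      have : {ω : Env | ∀ j ∈ Ico n i, ω ∉ Z j} = ⋂ j ∈ Ico n i, (Z j)ᶜ := by
        ext ω
        simp
      refine hH.inter ((hZ i).inter ?_)
      rw [this]
      exact Finset.measurableSet_biInter _ fun j _ => (hZ j).compl
    have hK : ∀ i, MeasurableSet (K i) := by
      intro i
      have : K i = ⋃ e ∈ J i, {ω : Env | ω e ∈ (Lo t0 M0 κ)ᶜ} := by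
        ext ω
        simp [K]
      rw [this]
      exact Finset.measurableSet_biUnion _ fun e _ =>
        measurable_pi_apply e (measurableSet_Lo t0 M0 κ).compl
    have hFinv : ∀ i, n ≤ i → ∀ ω ∈ F i, ∀ ω' : Env, SameP M0 ω ω' →
        (∀ e, (∀ k, i ≤ k → k < L → e ≠ E k) → ω' e = ω e) → ω' ∈ F i := by
      intro i hi ω hω ω' hs heq
      refine ⟨hinv ω hω.1 ω' hs fun e he => heq e fun k hk hkL => he k (hi.trans hk) hkL,
        hZinv i ω hω.2.1 ω' hs heq, fun j hj hj' => hω.2.2 j hj ?_⟩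
      refine hZinv j ω' hj' ω (fun e => (hs e).symm) fun e he => (heq e ?_).symm
      intro k hk hkL
      exact he k ((mem_Ico.1 hj).2.le.trans hk) hkL
    have hsub : A ∩ H ∩ {ω | (∀ i, i < L → ω ∈ Z i →
        ∃ k, i ≤ k ∧ k < i + L1 ∧ k < L ∧ ω (E k) ∉ Lo t0 M0 κ) ∧
        (R + 1) * L1 ≤ ((Ico n L).filter fun i => ω ∈ Z i).card} ⊆
        ⋃ i ∈ Ico n L, (A ∩ (F i ∩ K i) ∩ {ω | (∀ i, i < L → ω ∈ Z i →
          ∃ k, i ≤ k ∧ k < i + L1 ∧ k < L ∧ ω (E k) ∉ Lo t0 M0 κ) ∧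
          R * L1 ≤ ((Ico (i + L1) L).filter fun i => ω ∈ Z i).card}) := by
      rintro ω ⟨⟨hωA, hωH⟩, hsurv, hcard⟩
      have hne : ((Ico n L).filter fun i => ω ∈ Z i).Nonempty := by
        rw [← card_pos]
        have : 1 ≤ (R + 1) * L1 := Nat.mul_pos (Nat.succ_pos R) hL1
        omega
      obtain ⟨i, hi, hmin⟩ := exists_min_image _ (fun i : ℕ => i) hne
      rw [mem_filter, mem_Ico] at hi
      refine Set.mem_iUnion₂.2 ⟨i, mem_Ico.2 hi.1, ⟨hωA, ⟨hωH, hi.2, ?_⟩, ?_⟩, hsurv, ?_⟩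
      · intro j hj hjZ
        rw [mem_Ico] at hj
        have := hmin j (mem_filter.2 ⟨mem_Ico.2 ⟨hj.1, hj.2.trans hi.1.2⟩, hjZ⟩)
        omega
      · obtain ⟨k, hk1, hk2, hk3, hk4⟩ := hsurv i hi.1.2 hi.2
        exact ⟨E k, mem_image_of_mem E (mem_Ico.2 ⟨hk1, lt_min hk2 hk3⟩), hk4⟩
      · have hs : ((Ico n L).filter fun i => ω ∈ Z i) ⊆
            Ico i (i + L1) ∪ ((Ico (i + L1) L).filter fun i => ω ∈ Z i) := by
          intro j hj
          have hij := hmin j hj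
          rw [mem_filter, mem_Ico] at hj
          rw [mem_union, mem_filter, mem_Ico, mem_Ico]
          by_cases hlt : j < i + L1
          · exact Or.inl ⟨hij, hlt⟩
          · exact Or.inr ⟨⟨not_lt.1 hlt, hj.1.2⟩, hj.2⟩
        have hc := (card_le_card hs).trans (card_union_le _ _)
        rw [Nat.card_Ico] at hc
        rw [add_mul, one_mul] at hcard
        omega
    have hstep : ∀ i ∈ Ico n L, (PP G).real (A ∩ (F i ∩ K i) ∩ {ω | (∀ i, i < L → ω ∈ Z i →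
          ∃ k, i ≤ k ∧ k < i + L1 ∧ k < L ∧ ω (E k) ∉ Lo t0 M0 κ) ∧
          R * L1 ≤ ((Ico (i + L1) L).filter fun i => ω ∈ Z i).card}) ≤
        (1 - c ^ L1) ^ (R + 1) * (PP G).real (A ∩ F i) := by
      intro i hi
      rw [mem_Ico] at hi
      have b1 := ih (i + L1) (F i ∩ K i) ((hF i).inter (hK i)) (by
        intro ω hω ω' hs heq
        refine ⟨hFinv i hi.1 ω hω.1 ω' hs fun e he => heq e fun k hk hkL =>
          he k ((Nat.le_add_right i L1).trans hk) hkL, ?_⟩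
        obtain ⟨e, he, hlo⟩ := hω.2
        refine ⟨e, he, ?_⟩
        obtain ⟨k, hk, rfl⟩ := mem_image.1 he
        rw [mem_Ico, lt_min_iff] at hk
        rw [heq (E k)]
        · exact hlo
        · intro k' hk' hkL h
          have := hE k k' hk.2.2 hkL h
          omega)
      have hcard : (J i).card ≤ L1 := by
        refine card_image_le.trans ?_
        rw [Nat.card_Ico]
        have := min_le_left (i + L1) L
        omega
      have b2 := harris_one (G := G) hc0 hc1 h1 h2 (J i) hcard (hA.inter (hF i)) (by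
        intro ω hω ω' hs hle heq
        refine ⟨hdec ω hω.1 ω' hs hle fun e he => heq e fun h => ?_,
          hFinv i hi.1 ω hω.2 ω' hs fun e he => heq e fun h => ?_⟩
        · obtain ⟨k, hk, hke⟩ := mem_image.1 h
          rw [mem_Ico, lt_min_iff] at hk
          exact he k hk.2.2 hke.symm
        · obtain ⟨k, hk, hke⟩ := mem_image.1 h
          rw [mem_Ico, lt_min_iff] at hk
          exact he k hk.1 hk.2.2 hke.symm)
      rw [← Set.inter_assoc] at b1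
      rw [← Set.inter_assoc, pow_succ, mul_assoc]
      exact b1.trans (mul_le_mul_of_nonneg_left b2 (pow_nonneg hρ _))
    have hdisj : Set.PairwiseDisjoint (↑(Ico n L) : Set ℕ) fun i => A ∩ F i := by
      have : ∀ i j, n ≤ i → i < j → Disjoint (A ∩ F i) (A ∩ F j) := by
        intro i j hi hij
        rw [Set.disjoint_left]
        intro ω h1 h2
        exact h2.2.2.2 i (mem_Ico.2 ⟨hi, hij⟩) h1.2.2.1
      intro i hi j hj hij
      rw [mem_coe, mem_Ico] at hi hj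
      rcases lt_or_gt_of_ne hij with h | h
      · exact this i j hi.1 h
      · exact (this j i hj.1 h).symm
    have hsum : ∑ i ∈ Ico n L, (PP G).real (A ∩ F i) ≤ (PP G).real (A ∩ H) := by
      rw [← measureReal_biUnion_finset hdisj (fun i _ => hA.inter (hF i))]
      refine measureReal_mono ?_
      intro ω hω
      obtain ⟨i, _, hi⟩ := Set.mem_iUnion₂.1 hω
      exact ⟨hi.1, hi.2.1⟩
    refine (measureReal_mono hsub (measure_ne_top _ _)).trans ((measureReal_biUnion_finset_le _ _).trans ?_)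
    refine (sum_le_sum hstep).trans ?_
    rw [← mul_sum]
    exact mul_le_mul_of_nonneg_left hsum (pow_nonneg hρ _)

/-- Adaptive version. Prove by induction on `R`, for all `n` and all measurable `H` that are
invariant under class-preserving changes of the coordinates `E k`, `n ≤ k < L`:
`PP (A ∩ H ∩ {R * L1 ≤ card {i ∈ Ico n L | Z i}} ∩ Surv) ≤ ρ ^ R * PP (A ∩ H)`. Decompose according to
the first `i ≥ n` with `Z i` (`H i = H ∩ {first = i}`), use the induction hypothesis with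
`n' = i + L1`, `H' = H i ∩ {∃ k ∈ [i, i + L1), k < L, ω (E k) ∉ Lo}`, then `harris_one` for
`A ∩ H i` with `J = E '' [i, min (i + L1) L)`, and sum over the disjoint `H i ⊆ H`. -/
theorem harris_adapt {t0 M0 κ c : ℝ} (hc0 : 0 ≤ c) (hc1 : c ≤ 1)
    (h1 : c ≤ G.real (Lo t0 M0 κ ∩ Set.Iic M0)) (h2 : c ≤ G.real (Lo t0 M0 κ ∩ Set.Ioi M0))
    (E : ℕ → Sym2 V) (L L1 R : ℕ) (hL1 : 1 ≤ L1)
    (hE : ∀ i j, i < L → j < L → E i = E j → i = j) {A : Set Env} (hA : MeasurableSet A)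
    (hdec : ∀ ω ∈ A, ∀ ω' : Env, SameP M0 ω ω' → (∀ e, ω' e ≤ ω e) →
      (∀ e, (∀ k, k < L → e ≠ E k) → ω' e = ω e) → ω' ∈ A)
    (Z : ℕ → Set Env) (hZ : ∀ i, MeasurableSet (Z i))
    (hZinv : ∀ i, ∀ ω ∈ Z i, ∀ ω' : Env, SameP M0 ω ω' →
      (∀ e, (∀ k, i ≤ k → k < L → e ≠ E k) → ω' e = ω e) → ω' ∈ Z i) :
    (PP G).real (A ∩ {ω | (∀ i, i < L → ω ∈ Z i →
        ∃ k, i ≤ k ∧ k < i + L1 ∧ k < L ∧ ω (E k) ∉ Lo t0 M0 κ) ∧
        R * L1 ≤ ((range L).filter fun i => ω ∈ Z i).card}) ≤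
      (1 - c ^ L1) ^ R * (PP G).real A := by
  have := adapt_aux (G := G) hc0 hc1 h1 h2 E L L1 hL1 hE hA hdec Z hZ hZinv R 0 Set.univ
    MeasurableSet.univ (fun _ _ _ _ _ => Set.mem_univ _)
  rw [Set.inter_univ, ← range_eq_Ico] at this
  exact this

end Vale.Agent.P158b
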