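import Vale.Agent.P158b.L1A

/-! Uniform convergence in mean of passage times in a box. -/

open MeasureTheory ProbabilityTheory Finset
open scoped Classical

namespace Vale.Agent.P158b

private lemma l1_coord {N R K Q a b : ℤ} (hK : 0 < K) (hR : 0 ≤ R) (hRN : R ≤ N)
    (hq : 2 * N ≤ K * Q) (a1 : a - 0 ≤ N) (a2 : 0 - a ≤ N) (b1 : b - 0 ≤ N) (b2 : 0 - b ≤ N) :
    ∃ a' v : ℤ, (a - a' ≤ R ∧ a' - a ≤ R) ∧ (v ≤ Q ∧ -v ≤ Q) ∧
      (∀ t : ℤ, 0 ≤ t → t ≤ K → a' + t * v ≤ N - R ∧ -(a' + t * v) ≤ N - R) ∧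
      b - (a' + K * v) ≤ K + R ∧ a' + K * v - b ≤ K + R := by
  have cl : ∀ a : ℤ, a - 0 ≤ N → 0 - a ≤ N → ∃ a', (a - a' ≤ R ∧ a' - a ≤ R) ∧
      a' ≤ N - R ∧ -a' ≤ N - R := fun a _ _ => ⟨max (R - N) (min a (N - R)), by omega⟩
  obtain ⟨a', ha, a3, a4⟩ := cl a a1 a2
  obtain ⟨b', hb, b3, b4⟩ := cl b b1 b2
  have dv : ∀ d : ℤ, 0 ≤ d → d ≤ 2 * N → ∃ v, 0 ≤ v ∧ v ≤ Q ∧ K * v ≤ d ∧ d ≤ K * v + K :=
    fun d h1 h2 => ⟨d / K, Int.ediv_nonneg h1 hK.le, le_of_mul_le_mul_left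
      ((Int.mul_ediv_self_le hK.ne').trans (h2.trans hq)) hK, Int.mul_ediv_self_le hK.ne',
      (Int.lt_mul_ediv_self_add hK).le⟩
  rcases le_total a' b' with h | h
  · obtain ⟨v, v0, v1, v2, v3⟩ := dv (b' - a') (by omega) (by omega)
    refine ⟨a', v, ha, by omega, fun t t0 t1 => ?_, by omega⟩
    have := mul_nonneg t0 v0
    have := mul_le_mul_of_nonneg_right t1 v0
    omega
  · obtain ⟨v, v0, v1, v2, v3⟩ := dv (a' - b') (by omega) (by omega)
    refine ⟨a', -v, ha, by omega, fun t t0 t1 => ?_, by rw [mul_neg]; omega⟩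
    have := mul_nonneg t0 v0
    have := mul_le_mul_of_nonneg_right t1 v0
    rw [mul_neg]
    omega

private lemma l1_near {R : ℕ} {u : V} (hu : Near R u 0) (p : V) : Near R (p + u) p := by
  simp only [Near, Prod.fst_add, Prod.snd_add, Prod.fst_zero, Prod.snd_zero] at *
  omega

private lemma l1_chain {t : Env} (ht : ∀ e, 0 ≤ t e) {N R k : ℕ} {x x' u : V} (hx : Near N x 0)
    (hu : Near R u 0) (h : ∀ i : ℕ, i ≤ k → bx (x' + (i : ℤ) • u) R ⊆ bx 0 N) :
    T (bx 0 N) t x (x' + (k : ℤ) • u) ≤ T (bx 0 N) t x x' + ∑ i ∈ range k,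
      T (bx (x' + (i : ℤ) • u) R) t (x' + (i : ℤ) • u) (x' + (i : ℤ) • u + u) := by
  induction k with
  | zero => simp
  | succ k ih =>
    have h1 := h k k.le_succ
    rw [sum_range_succ, Nat.cast_succ, add_smul, one_smul, ← add_assoc, ← add_assoc]
    exact (T_triangle ht (reach_bx hx (h1 (Near.refl R _))) (reach_bx (h1 (Near.refl R _))
      (h1 (l1_near hu _)))).trans (add_le_add (ih fun i hi => h i (hi.trans k.le_succ))
      (T_mono_set ht h1 (reach_bx (Near.refl R _) (l1_near hu _))))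

/-- Lower bound in mean: `T_mono_set`, `integral_T_univ_trans`, `Shape.lower`. Then
`|Z| = 2 max Z 0 - Z`. Upper bound: fix `q` large, `n` with `Shape.upper` for all `v ∈ box 0 (4 q)`,
a common `R` and `k0` from `chain_lln` for `u = n • v`. Put `k = N / (n q)`, clamp `x, y` to
`x', y'` in `box 0 (N - R)`, let `v` be `(y' - x') / (k n)` rounded towards zero in each coordinate
(`Int.tdiv`), so all `x' + i n v` (`i ≤ k`) are in the rectangle spanned by `x', y'`, and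
`T x y ≤ T x x' + ∑ i < k, T (bx (x' + i n v) R) .. + T (x' + k n v) y`; the end terms have mean
`≤ m * dl1`; `μ` is `2 m`-Lipschitz. -/
theorem l1_conv (M : Model) {μ : Seminorm ℝ (ℝ × ℝ)} (hμ : Shape M μ) {δ : ℝ} (hδ : 0 < δ) :
    ∃ N0 : ℕ, ∀ N : ℕ, N0 ≤ N → ∀ x y, Near N x 0 → Near N y 0 →
      ∫ ω, |T (bx 0 N) (M.Ψ ω) x y - μ (cv y - cv x)| ∂(PP M.G) ≤ δ * N := by
  have hm := M.m_nonneg
  obtain ⟨q, hq⟩ := exists_nat_gt (4 * (4 * M.m + 2) / δ)
  have hq0 : 0 < q := Nat.cast_pos.1 (lt_of_le_of_lt (by positivity) hq)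
  obtain ⟨n, hn, hn1⟩ := (((Filter.eventually_all_finset (box 0 (4 * q))).2 fun v _ =>
    Filter.eventually_atTop.2 (hμ.upper v 1 one_pos)).and (Filter.eventually_gt_atTop 0)).exists
  obtain ⟨R, hR⟩ := ((Filter.eventually_all_finset (box 0 (4 * q))).2 fun v _ =>
    Filter.eventually_atTop.2 (chain_lln M ((n : ℤ) • v) one_pos)).exists
  obtain ⟨k0, hk0⟩ := Filter.eventually_atTop.1
    ((Filter.eventually_all_finset (box 0 (4 * q)).attach).2 fun v _ =>
      Filter.eventually_atTop.2 (hR v.1 v.2).2)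
  refine ⟨(k0 + 1) * (n * q) + R + ⌈32 * M.m * R / δ⌉₊, fun N hN x y hx hy => ?_⟩
  obtain ⟨k, hk⟩ : ∃ k, k = N / (n * q) := ⟨_, rfl⟩
  have hnq := Nat.mul_pos hn1 hq0
  have k1 : k0 + 1 ≤ k := hk ▸ (Nat.le_div_iff_mul_le hnq).2 (by omega)
  have k2 : k * (n * q) ≤ N := hk ▸ Nat.div_mul_le_self _ _
  have k3 : 2 * N ≤ k * n * (4 * q) := by
    have := Nat.lt_div_mul_add (a := N) hnq
    rw [← hk] at this
    nlinarith [Nat.mul_le_mul_right (n * q) (show 1 ≤ k by omega)]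
  have k4 : (0 : ℤ) < (k * n : ℕ) := Nat.cast_pos.2 (Nat.mul_pos (by omega) hn1)
  obtain ⟨a1, v1, b1, c1, d1, e1⟩ := l1_coord (R := R) (Q := (4 * q : ℕ)) k4 (by omega) (by omega)
    (by exact_mod_cast k3) hx.1 hx.2.1 hy.1 hy.2.1
  obtain ⟨a2, v2, b2, c2, d2, e2⟩ := l1_coord (R := R) (Q := (4 * q : ℕ)) k4 (by omega) (by omega)
    (by exact_mod_cast k3) hx.2.2.1 hx.2.2.2 hy.2.2.1 hy.2.2.2
  have hv : (v1, v2) ∈ box 0 (4 * q) := mem_box.2 (by
    simp only [Near, Prod.fst_zero, Prod.snd_zero]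
    omega)
  have hsub : ∀ i : ℕ, i ≤ k → bx ((a1, a2) + (i : ℤ) • (n : ℤ) • (v1, v2)) R ⊆ bx 0 N := by
    intro i hi z hz
    have h1 : ((i * n : ℕ) : ℤ) ≤ (k * n : ℕ) := Nat.cast_le.2 (Nat.mul_le_mul_right n hi)
    have h2 := d1 _ (Nat.cast_nonneg _) h1
    have h3 := d2 _ (Nat.cast_nonneg _) h1
    simp only [bx, Near, Set.mem_ofPred_eq, Prod.fst_add, Prod.snd_add, Prod.fst_zero,
      Prod.snd_zero, Prod.smul_mk, smul_eq_mul, Nat.cast_mul, mul_assoc] at h2 h3 hz ⊢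
    omega
  have hx' : Near N (a1, a2) 0 := by simpa [bx] using hsub 0 k.zero_le (Near.refl R _)
  have hy' : Near N _ 0 := hsub k le_rfl (Near.refl R _)
  have i0 := integrable_T M (reach_bx hx hy)
  have i1 := integrable_T M (reach_bx hx hx')
  have i2 := integrable_T M (reach_bx hy' hy)
  have i3 := ((integrable_finsetSum (range k) fun (i : ℕ) _ => integrable_T M (reach_bx
    (Near.refl R ((a1, a2) + (i : ℤ) • (n : ℤ) • (v1, v2))) (l1_near (hR _ hv).1 _))).sub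
    (integrable_const (k * ∫ ω', T Set.univ (M.Ψ ω') 0 ((n : ℤ) • (v1, v2)) ∂PP M.G))).pos_part
  have i4 := ((i1.add i2).add i3).add (integrable_const (k * n + 2 * M.m * (k * n + 2 * R)))
  have i5 := i0.sub (integrable_const (μ (cv y - cv x)))
  have hlin : k * n * μ (cv (v1, v2)) ≤ μ (cv y - cv x) + 2 * M.m * (k * n + 2 * R) := by
    have h1 := near_iff_norm.1 (show Near (k * n + 2 * R) (x + ((k * n : ℕ) : ℤ) • (v1, v2)) y by
      simp only [Near, Prod.fst_add, Prod.snd_add, Prod.smul_mk, smul_eq_mul]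
      omega)
    have h2 := map_add_le_add μ (cv y - cv x) (cv (x + ((k * n : ℕ) : ℤ) • (v1, v2)) - cv y)
    rw [show cv y - cv x + (cv (x + ((k * n : ℕ) : ℤ) • (v1, v2)) - cv y) =
      (k * n : ℝ) • cv (v1, v2) by ext <;> simp [cv], map_smul_eq_mul,
      Real.norm_of_nonneg (by positivity)] at h2
    exact h2.trans (add_le_add le_rfl ((hμ.bound _).trans (mul_le_mul_of_nonneg_left
      (h1.trans_eq (by push_cast; rfl)) (by positivity))))
  refine (integral_mono_of_nonneg (ae_of_all _ fun ω => abs_nonneg _) ((i4.const_mul 2).sub i5)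
    (ae_of_all _ fun ω => ?_)).trans ?_
  · have h1 := (T_triangle (M.nonneg ω) (reach_bx hx hy') (reach_bx hy' hy)).trans
      (add_le_add (l1_chain (M.nonneg ω) hx (hR _ hv).1 hsub) le_rfl)
    have h2 := mul_le_mul_of_nonneg_left (hn _ hv) k.cast_nonneg
    have h3 : (0 : ℝ) ≤ k * n + 2 * M.m * (k * n + 2 * R) := by positivity
    simp only [Pi.add_apply, Pi.sub_apply]
    generalize ∑ i ∈ range k, (_ : ℝ) = S at h1 ⊢
    generalize (k : ℝ) * ∫ ω', T Set.univ (M.Ψ ω') 0 ((n : ℤ) • (v1, v2)) ∂PP M.G = S' at h2 ⊢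
    have h4 := T_nonneg (bx 0 N) (M.nonneg ω) x (a1, a2)
    have h5 := T_nonneg (bx 0 N) (M.nonneg ω) ((a1, a2) + (k : ℤ) • (n : ℤ) • (v1, v2)) y
    rw [abs_le]
    constructor <;> linarith [le_max_left (S - S') 0, le_max_right (S - S') 0]
  · rw [integral_sub' (i4.const_mul 2) i5, integral_const_mul, integral_add' ((i1.add i2).add i3)
      (integrable_const _), integral_add' (i1.add i2) i3, integral_add' i1 i2,
      integral_sub' i0 (integrable_const _)]
    simp only [Pi.sub_apply, integral_const, probReal_univ, one_smul]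
    have h1 := (hμ.lower (y - x)).trans ((integral_T_univ_trans M x y).symm.trans_le (integral_mono
      (integrable_T M (reach_univ x y)) i0 fun ω =>
        T_mono_set (M.nonneg ω) (Set.subset_univ _) (reach_bx hx hy)))
    rw [show cv (y - x) = cv y - cv x by ext <;> simp [cv]] at h1
    have h2 := (integral_T_bx_le M hx hx').trans (mul_le_mul_of_nonneg_left (Nat.cast_le.2
      (dl1_le (r := R) ⟨b1.1, b1.2, b2.1, b2.2⟩)) hm)
    have h3 := (integral_T_bx_le M hy' hy).trans (mul_le_mul_of_nonneg_left (Nat.cast_le.2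
      (dl1_le (r := k * n + R) (by
        simp only [Near, Prod.fst_add, Prod.snd_add, Prod.smul_mk, smul_eq_mul, Nat.cast_mul,
          Nat.cast_add, mul_assoc] at e1 e2 ⊢
        omega))) hm)
    have h4 := hk0 k (by omega) ⟨_, hv⟩ (mem_attach _ _) (a1, a2)
    have h5 : (k : ℝ) ≤ k * n := by exact_mod_cast Nat.le_mul_of_pos_right k hn1
    have h6 : (k : ℝ) * (n * q) ≤ N := by exact_mod_cast k2
    have h7 := (div_le_iff₀ hδ).1 ((Nat.le_ceil (32 * M.m * R / δ)).trans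
      (Nat.cast_le.2 (show _ ≤ N by omega)))
    have h8 := mul_le_mul_of_nonneg_left ((div_lt_iff₀ hδ).1 hq).le
      (show (0 : ℝ) ≤ k * n by positivity)
    push_cast at h2 h3
    linarith [mul_le_mul_of_nonneg_left h6 hδ.le]

end Vale.Agent.P158b
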