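import Vale.Agent.P158b.ProbA

/-! Counting bounds and independence. -/

open MeasureTheory ProbabilityTheory Finset
open scoped Classical

namespace Vale.Agent.P158b

variable {G : Measure ℝ} [IsProbabilityMeasure G]

private theorem pi_real (S : Finset (Sym2 V)) {B : Set ℝ} (hB : MeasurableSet B) :
    (PP G).real (Set.pi S fun _ => B) = G.real B ^ S.card := by
  rw [Measure.real, PP, Measure.infinitePi_pi _ fun _ _ => hB, prod_const, ENNReal.toReal_pow]
  rfl

/-- union over the subsets of `U` of size `⌈k⌉`, `Measure.infinitePi_pi` -/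
theorem count_bound (U : Finset (Sym2 V)) {B : Set ℝ} (hB : MeasurableSet B) {η k : ℝ}
    (hη0 : 0 < η) (hη1 : η ≤ 1) (hBη : G.real B ≤ η) (hk : 0 ≤ k) :
    (PP G).real {ω | k ≤ ((U.filter fun e => ω e ∈ B).card : ℝ)} ≤ 2 ^ U.card * η ^ k := by
  have hsub : {ω : Env | k ≤ ((U.filter fun e => ω e ∈ B).card : ℝ)} ⊆
      ⋃ S ∈ U.powersetCard ⌈k⌉₊, Set.pi S fun _ => B := by
    intro ω hω
    have hω' : k ≤ ((U.filter fun e => ω e ∈ B).card : ℝ) := hω
    obtain ⟨S, hS, hc⟩ := exists_subset_card_eq (Nat.ceil_le.2 hω')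
    refine Set.mem_iUnion₂.2 ⟨S, mem_powersetCard.2 ⟨hS.trans (filter_subset _ _), hc⟩, ?_⟩
    exact fun e he => (mem_filter.1 (hS he)).2
  refine (measureReal_mono hsub (measure_ne_top _ _)).trans ((measureReal_biUnion_finset_le _ _).trans ?_)
  have h1 : ∀ S ∈ U.powersetCard ⌈k⌉₊, (PP G).real (Set.pi S fun _ => B) ≤ η ^ k := by
    intro S hS
    rw [pi_real S hB, (mem_powersetCard.1 hS).2]
    calc G.real B ^ ⌈k⌉₊ ≤ η ^ ⌈k⌉₊ := pow_le_pow_left₀ measureReal_nonneg hBη _
      _ = η ^ ((⌈k⌉₊ : ℕ) : ℝ) := (Real.rpow_natCast _ _).symm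
      _ ≤ η ^ k := Real.rpow_le_rpow_of_exponent_ge hη0 hη1 (Nat.le_ceil k)
  refine (sum_le_card_nsmul _ _ _ h1).trans ?_
  rw [nsmul_eq_mul, card_powersetCard]
  have h2 : ((U.card.choose ⌈k⌉₊ : ℕ) : ℝ) ≤ 2 ^ U.card := by
    exact_mod_cast Nat.choose_le_two_pow _ _
  have := Real.rpow_pos_of_pos hη0 k
  gcongr

/-- extension by zero -/
private noncomputable def extz (U : Finset (Sym2 V)) (x : U → ℝ) : Env :=
  fun e => if h : e ∈ U then x ⟨e, h⟩ else 0

private theorem measurable_extz (U : Finset (Sym2 V)) : Measurable (extz U) := by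
  refine measurable_pi_lambda _ fun e => ?_
  unfold extz
  split_ifs with h
  · exact measurable_pi_apply _
  · exact measurable_const

/-- `iIndepFun_infinitePi`, `iIndepFun.indepFun_finset`; factor `F` through the restriction -/
theorem indep_of_dep {F F' : Env → ℝ} (hF : Measurable F) (hF' : Measurable F')
    {U U' : Finset (Sym2 V)} (hd : Disjoint U U')
    (hFU : ∀ ω ω' : Env, (∀ e ∈ U, ω e = ω' e) → F ω = F ω')
    (hGU : ∀ ω ω' : Env, (∀ e ∈ U', ω e = ω' e) → F' ω = F' ω') : IndepFun F F' (PP G) := by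
  have h0 : iIndepFun (fun (e : Sym2 V) (ω : Env) => ω e) (PP G) :=
    iIndepFun_infinitePi (X := fun _ x => x) fun _ => measurable_id
  have h1 := (h0.indepFun_finset U U' hd fun e => measurable_pi_apply e).comp
    (hF.comp (measurable_extz U)) (hF'.comp (measurable_extz U'))
  have e1 : F = (F ∘ extz U) ∘ fun (a : Env) (i : U) => a i :=
    funext fun ω => hFU _ _ fun e he => by simp [extz, he]
  have e2 : F' = (F' ∘ extz U') ∘ fun (a : Env) (i : U') => a i :=
    funext fun ω => hGU _ _ fun e he => by simp [extz, he]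
  rw [e1, e2]
  exact h1

private theorem ind_dep {A : Set Env} {U : Finset (Sym2 V)}
    (h : ∀ ω ω' : Env, (∀ e ∈ U, ω e = ω' e) → ω ∈ A → ω' ∈ A) (ω ω' : Env)
    (he : ∀ e ∈ U, ω e = ω' e) :
    A.indicator (fun _ => (1 : ℝ)) ω = A.indicator (fun _ => (1 : ℝ)) ω' := by
  by_cases hω : ω ∈ A
  · rw [Set.indicator_of_mem hω, Set.indicator_of_mem (h _ _ he hω)]
  · rw [Set.indicator_of_notMem hω, Set.indicator_of_notMem
      fun h' => hω (h _ _ (fun e he' => (he e he').symm) h')]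

private theorem inter_eq_of_dep {A A' : Set Env} (hA : MeasurableSet A) (hA' : MeasurableSet A')
    {U U' : Finset (Sym2 V)} (hd : Disjoint U U')
    (h : ∀ ω ω' : Env, (∀ e ∈ U, ω e = ω' e) → ω ∈ A → ω' ∈ A)
    (h' : ∀ ω ω' : Env, (∀ e ∈ U', ω e = ω' e) → ω ∈ A' → ω' ∈ A') :
    (PP G).real (A ∩ A') = (PP G).real A * (PP G).real A' := by
  have h1 := (indep_of_dep (G := G) (measurable_const.indicator hA)
    (measurable_const.indicator hA') hd (ind_dep h) (ind_dep h')).measure_inter_preimage_eq_mul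
      {1} {1} (measurableSet_singleton _) (measurableSet_singleton _)
  have e : ∀ S : Set Env, S.indicator (fun _ => (1 : ℝ)) ⁻¹' {1} = S := fun S => by
    ext ω
    by_cases hω : ω ∈ S <;> simp [hω]
  rw [e, e] at h1
  rw [Measure.real, h1, ENNReal.toReal_mul]
  rfl

theorem inter_le_of_dep {ι : Type} (I : Finset ι) (A : ι → Set Env) (U : ι → Finset (Sym2 V))
    (hA : ∀ i ∈ I, MeasurableSet (A i))
    (hd : ∀ i ∈ I, ∀ j ∈ I, i ≠ j → Disjoint (U i) (U j))
    (hdep : ∀ i ∈ I, ∀ ω ω' : Env, (∀ e ∈ U i, ω e = ω' e) → ω ∈ A i → ω' ∈ A i)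
    {p : ℝ} (hp0 : 0 ≤ p) (hp : ∀ i ∈ I, (PP G).real (A i) ≤ p) :
    (PP G).real {ω | ∀ i ∈ I, ω ∈ A i} ≤ p ^ I.card := by
  induction I using Finset.induction_on with
  | empty => simp
  | insert a I ha ih =>
    have e : {ω | ∀ i ∈ insert a I, ω ∈ A i} = A a ∩ {ω | ∀ i ∈ I, ω ∈ A i} := by
      ext ω
      simp
    have hm : MeasurableSet {ω | ∀ i ∈ I, ω ∈ A i} := by
      have : {ω | ∀ i ∈ I, ω ∈ A i} = ⋂ i ∈ I, A i := by
        ext ω
        simp
      rw [this]
      exact I.measurableSet_biInter fun i hi => hA i (mem_insert_of_mem hi)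
    have hdis : Disjoint (U a) (I.biUnion U) :=
      (disjoint_biUnion_right _ _ _).2 fun i hi =>
        hd a (mem_insert_self _ _) i (mem_insert_of_mem hi) fun h => ha (h ▸ hi)
    rw [e, inter_eq_of_dep (hA a (mem_insert_self _ _)) hm hdis (hdep a (mem_insert_self _ _))
      (fun ω ω' he hω i hi => hdep i (mem_insert_of_mem hi) ω ω'
        (fun e he' => he e (mem_biUnion.2 ⟨i, hi, he'⟩)) (hω i hi)),
      card_insert_of_notMem ha, pow_succ']
    exact mul_le_mul (hp a (mem_insert_self _ _))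
      (ih (fun i hi => hA i (mem_insert_of_mem hi))
        (fun i hi j hj => hd i (mem_insert_of_mem hi) j (mem_insert_of_mem hj))
        (fun i hi => hdep i (mem_insert_of_mem hi)) fun i hi => hp i (mem_insert_of_mem hi))
      measureReal_nonneg hp0

end Vale.Agent.P158b
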