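import Vale.Agent.P158b.LLN
import Vale.Agent.P158b.ProbB
import Vale.Agent.P158b.ProbC

/-! The law of large numbers along a chain of boxes. -/

open MeasureTheory ProbabilityTheory Finset
open scoped Classical

namespace Vale.Agent.P158b

private lemma l1a_int (G : Measure ℝ) [IsProbabilityMeasure G] (v : V) {F : Env → ℝ}
    (hF : Integrable F (PP G)) : Integrable (fun ω => F (trans v ω)) (PP G) ∧
      ∫ ω, F (trans v ω) ∂(PP G) = ∫ ω, F ω ∂(PP G) :=
  ⟨(trans_mp G v).integrable_comp_of_integrable hF, by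
    rw [← integral_map (trans_mp G v).measurable.aemeasurable
      (by rw [(trans_mp G v).map_eq]; exact hF.1), (trans_mp G v).map_eq]⟩

private lemma l1a_trans (a b : V) (ω : Env) : trans a (trans b ω) = trans (b + a) ω := by
  funext e
  simp only [trans, Sym2.map_map, Function.comp_def, add_assoc, add_comm a b]

private lemma l1a_T (t : Env) (v u : V) (R : ℕ) :
    T (bx v R) t v (v + u) = T (bx 0 R) (trans v t) 0 u := by
  rw [← T_trans_bx, zero_add, add_comm]

private lemma l1a_le {t t' : Env} (ht : ∀ e, 0 ≤ t e) (h : ∀ e, t' e ≤ t e) {u : V} {R : ℕ}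
    (hu : Near R u 0) :
    T (bx 0 R) t 0 u ≤ T (bx 0 R) t' 0 u + ∑ e ∈ edgesOf (box 0 R), (t e - t' e) := by
  obtain ⟨l, hl, e⟩ := exists_min (bx_finite 0 R) t' (reach_bx (Near.refl R 0) hu)
  refine (T_le_wt ht hl).trans ?_
  rw [← e, hl.wt_eq_sum, hl.wt_eq_sum, ← sub_le_iff_le_add', ← sum_sub_distrib]
  refine sum_le_sum_of_subset_of_nonneg (fun f hf => ?_) fun f _ _ => sub_nonneg.2 (h f)
  obtain ⟨i, hi, rfl⟩ := mem_pedges.1 hf
  exact mem_edgesOf.2 ⟨_, mem_box.2 (hl.chain.2 i i.zero_le hi.le), _,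
    hl.chain.1 i i.zero_le hi, rfl⟩

private lemma l1a_far {u : V} (hu : u ≠ 0) {n i j : ℕ} (h : i + (n + 1) ≤ j) :
    ¬ Near n ((i : ℤ) • u) ((j : ℤ) • u) := by
  rintro ⟨h1, h2, h3, h4⟩
  simp only [Prod.smul_fst, Prod.smul_snd, smul_eq_mul] at h1 h2 h3 h4
  have h5 : (n : ℤ) + 1 ≤ j - i := by omega
  have key : ∀ a : ℤ, i * a - j * a ≤ n → j * a - i * a ≤ n → a = 0 := fun a a1 a2 => by
    rcases lt_trichotomy a 0 with a3 | a3 | a3
    · nlinarith
    · exact a3
    · nlinarith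
  exact hu (Prod.ext (key _ h1 h2) (key _ h3 h4))

/-- Take `R0` from `integral_T_bx_lim`. By `trans_mp`, `T_trans_bx`, `M.cov` reduce to `x = 0`.
For `u = 0` everything vanishes (`T_self`). Otherwise let `X i = T (bx 0 R) (loc r ·) 0 u ∘ trans (i u)`
with `r` from `loc_mean_small` (so that `card (edgesOf (box 0 R)) * η ≤ δ / 3`): `X i` are identically
distributed, independent at distance (`T_loc_dep`, `edgesOf_box_disjoint`, `indep_of_dep`),
`X 0 ≤ T (bx 0 R) Ψ 0 u ≤ X 0 + ∑ e ∈ edgesOf (box 0 R), (Ψ e - loc e)` (minimal path for `loc`,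
`IsPth.wt_eq_sum`). Apply `lln_mean`. -/
theorem chain_lln (M : Model) (u : V) {δ : ℝ} (hδ : 0 < δ) :
    ∃ R0 : ℕ, ∀ R : ℕ, R0 ≤ R → Near R u 0 ∧ ∃ k0 : ℕ, ∀ k : ℕ, k0 ≤ k → ∀ x : V,
      ∫ ω, max (∑ i ∈ range k, T (bx (x + (i : ℤ) • u) R) (M.Ψ ω) (x + (i : ℤ) • u)
          (x + (i : ℤ) • u + u) - k * ∫ ω', T Set.univ (M.Ψ ω') 0 u ∂(PP M.G)) 0 ∂(PP M.G) ≤
        δ * k := by
  obtain ⟨R0, hR0⟩ := integral_T_bx_lim M u (δ := δ / 3) (by positivity)
  refine ⟨R0, fun R hR => ⟨(hR0 R hR).1, ?_⟩⟩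
  obtain ⟨hu, hY⟩ := hR0 R hR
  obtain ⟨r, hr⟩ := loc_mean_small M (η := δ / 3 / ((edgesOf (box 0 R)).card + 1)) (by positivity)
  have iY := integrable_T M (reach_bx (Near.refl R 0) hu)
  have mX : Measurable fun ω => T (bx 0 R) (M.loc r ω) 0 u :=
    (measurable_T _ _ _).comp (M.loc_meas r)
  have hXY : ∀ ω, T (bx 0 R) (M.loc r ω) 0 u ≤ T (bx 0 R) (M.Ψ ω) 0 u := fun ω =>
    T_mono_wt _ (M.loc_nonneg r ω) (M.loc_le r ω) _ _
  have iX : Integrable (fun ω => T (bx 0 R) (M.loc r ω) 0 u) (PP M.G) :=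
    iY.mono' mX.aestronglyMeasurable (ae_of_all _ fun ω => by
      rw [Real.norm_of_nonneg (T_nonneg _ (M.loc_nonneg r ω) _ _)]
      exact hXY ω)
  have iD : ∀ e ∈ edgesOf (box 0 R), Integrable (fun ω => M.Ψ ω e - M.loc r ω e) (PP M.G) ∧
      ∫ ω, (M.Ψ ω e - M.loc r ω e) ∂(PP M.G) ≤ δ / 3 / ((edgesOf (box 0 R)).card + 1) := by
    intro e he
    obtain ⟨x, -, y, hxy, rfl⟩ := mem_edgesOf.1 he
    exact ⟨(M.integ x y hxy).sub ((M.integ x y hxy).mono'
      ((measurable_pi_apply _).comp (M.loc_meas r)).aestronglyMeasurable (ae_of_all _ fun ω => by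
        rw [Real.norm_of_nonneg (M.loc_nonneg r ω _)]
        exact M.loc_le r ω _)), hr x y hxy⟩
  have iD' := integrable_finsetSum _ fun e he => (iD e he).1
  have hD : ∫ ω, ∑ e ∈ edgesOf (box 0 R), (M.Ψ ω e - M.loc r ω e) ∂(PP M.G) ≤ δ / 3 := by
    rw [integral_finsetSum _ fun e he => (iD e he).1]
    refine (sum_le_card_nsmul _ _ _ fun e he => (iD e he).2).trans ?_
    rw [nsmul_eq_mul, mul_div_assoc', div_le_iff₀ (by positivity)]
    linarith
  have hid : ∀ v, IdentDistrib (fun ω => T (bx 0 R) (M.loc r (trans v ω)) 0 u)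
      (fun ω => T (bx 0 R) (M.loc r ω) 0 u) (PP M.G) (PP M.G) := fun v =>
    ⟨(mX.comp (trans_mp M.G v).measurable).aemeasurable, mX.aemeasurable, by
      rw [← (trans_mp M.G v).map_eq, Measure.map_map mX (trans_mp M.G v).measurable,
        (trans_mp M.G v).map_eq]
      rfl⟩
  obtain ⟨k0, hk0⟩ := lln_mean (PP M.G)
    (fun (i : ℕ) ω => T (bx 0 R) (M.loc r (trans ((i : ℤ) • u) ω)) 0 u) (l1a_int M.G _ iX).1
    (fun i => (hid _).trans (hid _).symm) (2 * (R + r) + 1 + 1) (fun i j hij _ => by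
      by_cases h0 : u = 0
      · simp only [h0, fun ω => T_self (M.loc_nonneg r ω) (show (0 : V) ∈ bx 0 R from Near.refl R 0)]
        exact indepFun_const_left _ _
      refine indep_of_dep (mX.comp (trans_mp M.G _).measurable)
        (mX.comp (trans_mp M.G _).measurable) (edgesOf_box_disjoint (l1a_far h0 hij))
        (fun ω ω' h => ?_) fun ω ω' h => ?_
      all_goals
        simp only [M.loc_cov, ← l1a_T]
        exact T_loc_dep M _ _ _ _ _ h) (δ := δ / 3) (by positivity)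
  refine ⟨k0, fun k hk x => ?_⟩
  have hk' := hk0 k hk
  rw [(l1a_int M.G _ iX).2] at hk'
  have i1 := ((integrable_finsetSum (range k) fun i _ => (l1a_int M.G ((i : ℤ) • u) iX).1).sub
    (integrable_const (k * ∫ ω, T (bx 0 R) (M.loc r ω) 0 u ∂(PP M.G)))).abs
  have i2 := integrable_finsetSum (range k) fun i _ => (l1a_int M.G ((i : ℤ) • u) iD').1
  have i3 := (i1.add i2).add (integrable_const (k * (δ / 3)))
  refine (integral_mono_of_nonneg (ae_of_all _ fun ω => le_max_right _ _) (l1a_int M.G x i3).1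
    (ae_of_all _ fun ω => max_le ?_ ?_)).trans ((l1a_int M.G x i3).2.trans_le ?_)
  · have a1 := mul_le_mul_of_nonneg_left ((integral_mono iX iY hXY).trans hY) k.cast_nonneg
    have a2 := sum_le_sum (s := range k) fun i _ => l1a_le (M.nonneg (trans (x + (i : ℤ) • u) ω))
      (M.loc_le r _) hu
    simp only [Pi.add_apply, Pi.sub_apply, l1a_T, ← M.cov, l1a_trans]
    rw [sum_add_distrib] at a2
    linarith [le_abs_self (∑ i ∈ range k, T (bx 0 R) (M.loc r (trans (x + (i : ℤ) • u) ω)) 0 u -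
      k * ∫ ω, T (bx 0 R) (M.loc r ω) 0 u ∂(PP M.G))]
  · exact add_nonneg (add_nonneg (abs_nonneg _) (sum_nonneg fun i _ => sum_nonneg fun e _ =>
      sub_nonneg.2 (M.loc_le r _ e))) (by positivity)
  · rw [integral_add' (i1.add i2) (integrable_const _), integral_add' i1 i2, integral_finsetSum _
      fun (i : ℕ) _ => (l1a_int M.G ((i : ℤ) • u) iD').1, sum_congr rfl
      fun (i : ℕ) _ => (l1a_int M.G ((i : ℤ) • u) iD').2]
    simp only [Pi.sub_apply, sum_const, card_range, nsmul_eq_mul, integral_const, probReal_univ,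
      one_smul]
    linarith [mul_le_mul_of_nonneg_left hD k.cast_nonneg]

end Vale.Agent.P158b
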