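import Vale.Agent.P158b.Defs

/-! A weak law of large numbers in mean for finite-range dependent sequences. -/

open MeasureTheory ProbabilityTheory Finset
open scoped Classical

namespace Vale.Agent.P158b

private theorem sum_blocks (f : ℕ → ℝ) (s q : ℕ) :
    ∑ i ∈ range (s * q), f i = ∑ j ∈ range s, ∑ i ∈ range q, f (s * i + j) := by
  induction q with
  | zero => simp
  | succ q ih =>
    rw [mul_add, mul_one, sum_range_add, ih, ← sum_add_distrib]
    exact sum_congr rfl fun j _ => (sum_range_succ _ _).symm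

private theorem lln_indep {Ω : Type} [MeasurableSpace Ω] (P : Measure Ω) [IsProbabilityMeasure P]
    (X : ℕ → Ω → ℝ) (hint : Integrable (X 0) P) (hid : ∀ i, IdentDistrib (X i) (X 0) P P)
    (hind : ∀ i j, i < j → IndepFun (X i) (X j) P) {δ : ℝ} (hδ : 0 < δ) :
    ∀ᶠ k : ℕ in Filter.atTop,
      ∫ ω, |∑ i ∈ range k, (X i ω - ∫ ω', X 0 ω' ∂P)| ∂P ≤ δ * k := by
  have h := strong_law_Lp (p := 1) le_rfl ENNReal.one_ne_top X (memLp_one_iff_integrable.2 hint)
    (fun i j hij => by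
      rcases lt_or_gt_of_ne hij with h | h
      · exact hind i j h
      · exact (hind j i h).symm) hid
  have h2 := h.eventually (gt_mem_nhds (ENNReal.ofReal_pos.2 hδ))
  filter_upwards [h2, Filter.eventually_gt_atTop 0] with k hk hk0
  have hk' : (0 : ℝ) < k := by exact_mod_cast hk0
  have hi : Integrable (fun ω => (k : ℝ)⁻¹ • (∑ i ∈ range k, X i ω) - ∫ ω', X 0 ω' ∂P) P :=
    ((integrable_finsetSum (range k) fun i _ => (hid i).integrable_iff.2 hint).const_mul
      (k : ℝ)⁻¹).sub (integrable_const _)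
  rw [eLpNorm_one_eq_lintegral_enorm, ← ofReal_integral_norm_eq_lintegral_enorm hi,
    ENNReal.ofReal_lt_ofReal_iff hδ] at hk
  have e : ∀ ω, |∑ i ∈ range k, (X i ω - ∫ ω', X 0 ω' ∂P)| =
      ‖(k : ℝ)⁻¹ • (∑ i ∈ range k, X i ω) - ∫ ω', X 0 ω' ∂P‖ * k := fun ω => by
    rw [Real.norm_eq_abs, ← abs_of_pos hk', ← abs_mul, abs_of_pos hk', sum_sub_distrib, sum_const,
      card_range, smul_eq_mul, nsmul_eq_mul]
    congr 1
    field_simp
  simp only [e]
  rw [integral_mul_const]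
  gcongr

/-- Split into the `r` subsequences `i ≡ j mod r` and use `strong_law_Lp` with `p = 1`, or
truncate and use the variance. -/
theorem lln_mean {Ω : Type} [MeasurableSpace Ω] (P : Measure Ω) [IsProbabilityMeasure P]
    (X : ℕ → Ω → ℝ) (hint : Integrable (X 0) P) (hid : ∀ i, IdentDistrib (X i) (X 0) P P)
    (r : ℕ) (hind : ∀ i j, i + r ≤ j → i < j → IndepFun (X i) (X j) P) {δ : ℝ} (hδ : 0 < δ) :
    ∃ k0 : ℕ, ∀ k : ℕ, k0 ≤ k →
      ∫ ω, |∑ i ∈ range k, X i ω - k * ∫ ω', X 0 ω' ∂P| ∂P ≤ δ * k := by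
  have hI : ∀ i, Integrable (X i) P := fun i => (hid i).integrable_iff.2 hint
  obtain ⟨m, hm⟩ : ∃ m, m = ∫ ω', X 0 ω' ∂P := ⟨_, rfl⟩
  have hZ : ∀ i, Integrable (fun ω => X i ω - m) P := fun i => (hI i).sub (integrable_const _)
  obtain ⟨a, ha⟩ : ∃ a, a = ∫ ω, |X 0 ω - m| ∂P := ⟨_, rfl⟩
  have haI : ∀ i, ∫ ω, |X i ω - m| ∂P = a := fun i => by
    rw [ha]
    exact ((hid i).comp (u := fun x : ℝ => |x - m|) (by fun_prop)).integral_eq
  have ha0 : 0 ≤ a := ha ▸ integral_nonneg fun _ => abs_nonneg _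
  have h1 : ∀ j ∈ range (r + 1), ∀ᶠ q : ℕ in Filter.atTop,
      ∫ ω, |∑ i ∈ range q, (X ((r + 1) * i + j) ω - m)| ∂P ≤ δ / 2 * q := by
    intro j _
    have h := lln_indep P (fun i => X ((r + 1) * i + j)) (hI _)
      (fun i => (hid _).trans (hid _).symm)
      (fun i i' h => hind _ _ (by nlinarith) (by nlinarith)) (half_pos hδ)
    rwa [(hid _).integral_eq, ← hm] at h
  obtain ⟨q0, hq0⟩ := Filter.eventually_atTop.1 ((Filter.eventually_all_finset _).2 h1)
  obtain ⟨k1, hk1⟩ := exists_nat_ge ((r + 1) * a / (δ / 2))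
  refine ⟨max ((r + 1) * q0) k1, fun k hk => ?_⟩
  have hq : q0 ≤ k / (r + 1) :=
    (Nat.le_div_iff_mul_le (Nat.succ_pos r)).2 (by rw [mul_comm]; exact (le_max_left _ _).trans hk)
  have hkq := Nat.div_add_mod k (r + 1)
  have hs : k % (r + 1) ≤ r + 1 := (Nat.mod_lt _ (Nat.succ_pos r)).le
  generalize k / (r + 1) = q at hq hkq
  generalize k % (r + 1) = s at hs hkq
  have e : ∀ ω, |∑ i ∈ range k, X i ω - k * m| ≤
      ∑ j ∈ range (r + 1), |∑ i ∈ range q, (X ((r + 1) * i + j) ω - m)| +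
        ∑ j ∈ range s, |X ((r + 1) * q + j) ω - m| := fun ω => by
    have : ∑ i ∈ range k, X i ω - k * m = ∑ i ∈ range k, (X i ω - m) := by
      rw [sum_sub_distrib, sum_const, card_range, nsmul_eq_mul]
    rw [this, ← hkq, sum_range_add, sum_blocks (fun i => X i ω - m)]
    exact (abs_add_le _ _).trans (add_le_add (abs_sum_le_sum_abs _ _) (abs_sum_le_sum_abs _ _))
  have i1 : ∀ j ∈ range (r + 1),
      Integrable (fun ω => |∑ i ∈ range q, (X ((r + 1) * i + j) ω - m)|) P := fun j _ =>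
    (integrable_finsetSum _ fun i _ => hZ _).abs
  have i2 : ∀ j ∈ range s, Integrable (fun ω => |X ((r + 1) * q + j) ω - m|) P := fun j _ =>
    (hZ _).abs
  rw [← hm]
  refine (integral_mono_of_nonneg (Filter.Eventually.of_forall fun _ => abs_nonneg _)
    ((integrable_finsetSum _ i1).add (integrable_finsetSum _ i2))
    (Filter.Eventually.of_forall e)).trans ?_
  simp only [Pi.add_apply]
  rw [integral_add (integrable_finsetSum _ i1) (integrable_finsetSum _ i2),
    integral_finsetSum _ i1, integral_finsetSum _ i2]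
  simp only [haI]
  have b1 := sum_le_card_nsmul _ _ _ (hq0 q hq)
  rw [card_range, nsmul_eq_mul] at b1
  rw [sum_const, card_range, nsmul_eq_mul]
  have c1 : ((r + 1 : ℕ) : ℝ) * q ≤ k := by exact_mod_cast (by omega : (r + 1) * q ≤ k)
  have c2 : (s : ℝ) ≤ r + 1 := by exact_mod_cast hs
  have c3 : (k1 : ℝ) ≤ k := by exact_mod_cast (le_max_right _ _).trans hk
  have c4 := (div_le_iff₀ (half_pos hδ)).1 (hk1.trans c3)
  nlinarith [mul_le_mul_of_nonneg_right c2 ha0, mul_le_mul_of_nonneg_left c1 (half_pos hδ).le]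

end Vale.Agent.P158b
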