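import Vale.Agent.P158b.Monge
import Vale.Agent.P158b.L1

/-! Total mass and the mass of the flat cells. -/

open MeasureTheory ProbabilityTheory Finset
open scoped Classical

namespace Vale.Agent.P158b

private theorem mass_fib {A J : Type} [DecidableEq J] (C : Finset A) (I : Finset J) (q : A → J)
    (D : A → ℝ) {B : ℝ} (hq : ∀ c ∈ C, q c ∈ I) (h : ∀ j, ∑ c ∈ C with q c = j, D c ≤ B) :
    ∑ c ∈ C, D c ≤ I.card * B := by
  rw [← Finset.sum_fiberwise_of_maps_to hq, ← nsmul_eq_mul]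
  exact Finset.sum_le_card_nsmul _ _ _ fun j _ => h j

private theorem mass_nonneg (M : Model) {N : ℕ} (hN : 1 ≤ N) {α β : ℤ} (h1 : α + 1 ≤ β)
    (h2 : β + 1 ≤ α + 8 * N) : 0 ≤ ∫ ω, Dm (M.Ψ ω) N α β ∂(PP M.G) :=
  integral_nonneg fun ω => Dm_nonneg (M.nonneg ω) hN h1 h2

/-- `cells ⊆` rows `β ∈ Ico (α+1) (α+8N)`, `Dm_nonneg`, `Dm_row` -/
theorem total_mass (M : Model) {N : ℕ} (hN : 1 ≤ N) (c2 : ℝ) :
    ∑ c ∈ cells N c2, ∫ ω, Dm (M.Ψ ω) N c.1 c.2 ∂(PP M.G) ≤ 16 * N * M.m := by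
  refine (mass_fib (cells N c2) (Ico (0 : ℤ) (8 * N)) Prod.fst _ (B := 2 * M.m)
    (fun c hc => (mem_product.1 (mem_filter.1 hc).1).1) fun α => ?_).trans_eq ?_
  · have h1 : ∑ c ∈ cells N c2 with c.1 = α, ∫ ω, Dm (M.Ψ ω) N c.1 c.2 ∂(PP M.G) ≤
        ∑ c ∈ {α} ×ˢ Ico (α + 1) (α + 8 * N), ∫ ω, Dm (M.Ψ ω) N c.1 c.2 ∂(PP M.G) := by
      refine sum_le_sum_of_subset_of_nonneg (fun c hc => ?_) fun c hc _ => ?_
      · obtain ⟨hc1, hc2⟩ := mem_filter.1 hc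
        have h := (mem_filter.1 hc1).2
        simp only [mem_product, mem_singleton, mem_Ico]
        omega
      · simp only [mem_product, mem_singleton, mem_Ico] at hc
        exact mass_nonneg M hN (by omega) (by omega)
    rw [sum_product, sum_singleton, ← integral_finsetSum _ fun β _ => integrable_Dm M hN α β] at h1
    refine h1.trans ((integral_mono (integrable_finsetSum _ fun β _ => integrable_Dm M hN α β)
      ((M.integ _ _ (bv_adj hN α)).const_mul 2) fun ω => Dm_row (M.nonneg ω) hN α).trans ?_)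
    rw [integral_const_mul]
    linarith [M.mean _ _ (bv_adj hN α)]
  · have h : (8 * (N : ℤ) - 0).toNat = 8 * N := by omega
    rw [Int.card_Ico, h]
    push_cast
    ring

private theorem mass_near {N K : ℕ} (hN : 1 ≤ N) {α β : ℤ} (h : (β - α).natAbs ≤ K) :
    ‖cv (bv N β) - cv (bv N α)‖ ≤ K :=
  near_iff_norm.1 ((bv_near hN α β).mono h).symm

private theorem mass_nv {N : ℕ} (hN : 1 ≤ N) (a b : V) : cv b - cv a = (N : ℝ) • nv N a b := by
  have : (N : ℝ) ≠ 0 := by positivity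
  rw [nv, smul_smul, mul_inv_cancel₀ this, one_smul]

private theorem mass_long {N : ℕ} (hN : 1 ≤ N) {α β : ℤ} {c : ℝ}
    (h : c ≤ ‖nv N (bv N α) (bv N β)‖) : c * N ≤ ((β - α).natAbs : ℕ) := by
  have h1 := mass_near hN (α := α) (β := β) le_rfl
  rw [mass_nv hN, norm_smul, Real.norm_natCast] at h1
  have h2 := mul_le_mul_of_nonneg_left h (Nat.cast_nonneg N : (0 : ℝ) ≤ N)
  linarith

private theorem mass_lin {μ : Seminorm ℝ (ℝ × ℝ)} {ρ : (ℝ × ℝ) →ₗ[ℝ] ℝ} {N K : ℕ} (hN : 1 ≤ N)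
    {r : ℝ} (hK : 2 * (K : ℝ) ≤ r * N) {α0 β0 α β : ℤ}
    (hρ : ∀ x, ‖x - nv N (bv N α0) (bv N β0)‖ ≤ r → μ x = ρ x) (ha : (α0 - α).natAbs ≤ K)
    (hb : (β - β0).natAbs ≤ K) :
    μ (cv (bv N β) - cv (bv N α)) = ρ (cv (bv N β)) - ρ (cv (bv N α)) := by
  have hN0 : (0 : ℝ) < N := by positivity
  have h1 := mass_near hN ha
  have h2 := mass_near hN hb
  have h3 : (N : ℝ) • (nv N (bv N α) (bv N β) - nv N (bv N α0) (bv N β0)) =
      (cv (bv N β) - cv (bv N β0)) + (cv (bv N α0) - cv (bv N α)) := by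
    rw [smul_sub, ← mass_nv hN, ← mass_nv hN]
    abel
  have h4 := norm_add_le (cv (bv N β) - cv (bv N β0)) (cv (bv N α0) - cv (bv N α))
  rw [← h3, norm_smul, Real.norm_natCast] at h4
  have h5 := hρ (nv N (bv N α) (bv N β)) (le_of_mul_le_mul_left (by linarith) hN0)
  rw [← map_sub, mass_nv hN, map_smul_eq_mul, Real.norm_natCast, h5, map_smul, smul_eq_mul]

private theorem mass_rect (M : Model) {μ : Seminorm ℝ (ℝ × ℝ)} {N : ℕ} (hN : 1 ≤ N) {B : ℝ}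
    (hB : ∀ x y, Near N x 0 → Near N y 0 →
      ∫ ω, |T (bx 0 N) (M.Ψ ω) x y - μ (cv y - cv x)| ∂(PP M.G) ≤ B)
    {α1 α2 β1 β2 : ℤ} (ha : α1 ≤ α2) (hb : β1 ≤ β2)
    (h0 : μ (cv (bv N β1) - cv (bv N α1)) + μ (cv (bv N β2) - cv (bv N α2)) -
      μ (cv (bv N β2) - cv (bv N α1)) - μ (cv (bv N β1) - cv (bv N α2)) = 0) :
    ∑ c ∈ Ico α1 α2 ×ˢ Ico β1 β2, ∫ ω, Dm (M.Ψ ω) N c.1 c.2 ∂(PP M.G) ≤ 4 * B := by
  have hI : ∀ α β : ℤ, Integrable (fun ω => T (bx 0 N) (M.Ψ ω) (bv N α) (bv N β)) (PP M.G) :=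
    fun α β => integrable_T M (reach_bx (bv_bd hN α).1 (bv_bd hN β).1)
  have hT : ∀ α β : ℤ, |(∫ ω, T (bx 0 N) (M.Ψ ω) (bv N α) (bv N β) ∂(PP M.G)) -
      μ (cv (bv N β) - cv (bv N α))| ≤ B := by
    intro α β
    refine le_trans ?_ (hB _ _ (bv_bd hN α).1 (bv_bd hN β).1)
    refine le_trans (le_of_eq ?_) abs_integral_le_integral_abs
    rw [integral_sub (hI α β) (integrable_const _)]
    simp
  rw [← integral_finsetSum _ fun c _ => integrable_Dm M hN c.1 c.2]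
  simp only [sum_product, Dm_rect _ N ha hb]
  have i1 : Integrable (fun ω => T (bx 0 N) (M.Ψ ω) (bv N α1) (bv N β1) +
      T (bx 0 N) (M.Ψ ω) (bv N α2) (bv N β2)) (PP M.G) := (hI _ _).add (hI _ _)
  have i2 : Integrable (fun ω => T (bx 0 N) (M.Ψ ω) (bv N α1) (bv N β1) +
      T (bx 0 N) (M.Ψ ω) (bv N α2) (bv N β2) - T (bx 0 N) (M.Ψ ω) (bv N α1) (bv N β2)) (PP M.G) :=
    i1.sub (hI _ _)
  rw [integral_sub i2 (hI _ _), integral_sub i1 (hI _ _), integral_add (hI _ _) (hI _ _)]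
  linarith [(abs_le.1 (hT α1 β1)).2, (abs_le.1 (hT α2 β2)).2, (abs_le.1 (hT α1 β2)).1,
    (abs_le.1 (hT α2 β1)).1]

/-- Tile by squares of side `K = ⌊δ1 N⌋₊`, `δ1 = min r c2 / 8`. In a square containing a long cell
all cells satisfy the hypotheses of `Dm_nonneg` (`bv_near`, `bv_period`). If `μ = ρ` is linear near
that cell, `Dm_rect` and `l1_conv` bound the mass of the square by `4 δ N` (the `μ`-terms cancel,
`μ (cv b - cv a) = N * μ (nv N a b)`). There are at most `(8N/K + 1)(16N/K + 1) ≤ C(δ1)` squares. -/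
theorem flat_mass (M : Model) {μ : Seminorm ℝ (ℝ × ℝ)} (hμ : Shape M μ) {r c2 η : ℝ}
    (hr : 0 < r) (hc2 : 0 < c2) (hη : 0 < η) : ∃ N0 : ℕ, ∀ N : ℕ, N0 ≤ N →
      ∑ c ∈ (cells N c2).filter (fun c => Flat μ (nv N (bv N c.1) (bv N c.2)) r),
        ∫ ω, Dm (M.Ψ ω) N c.1 c.2 ∂(PP M.G) ≤ η * N := by
  obtain ⟨δ1, hδ0, hδr, hδc⟩ : ∃ δ1 : ℝ, 0 < δ1 ∧ 2 * δ1 ≤ r ∧ 2 * δ1 ≤ c2 :=
    ⟨min r c2 / 2, by positivity, by linarith [min_le_left r c2], by linarith [min_le_right r c2]⟩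
  obtain ⟨A, hA⟩ := exists_nat_gt (32 / δ1)
  have hA0 : (0 : ℝ) < A := lt_trans (by positivity) hA
  rw [div_lt_iff₀ hδ0] at hA
  obtain ⟨N1, hN1⟩ := l1_conv M hμ (δ := η / (4 * (A : ℝ) ^ 2)) (by positivity)
  refine ⟨N1 + A + 1, fun N hN' => ?_⟩
  have hN : 1 ≤ N := by omega
  have hAN : (A : ℝ) ≤ N := by exact_mod_cast (show A ≤ N by omega)
  have h1 : A * δ1 ≤ N * δ1 := by gcongr
  obtain ⟨K, hK1, hK2⟩ : ∃ K : ℕ, (K : ℝ) ≤ δ1 * N ∧ δ1 * N < K + 1 :=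
    ⟨⌊δ1 * N⌋₊, Nat.floor_le (by positivity), Nat.lt_floor_add_one _⟩
  have hK3 : (1 : ℝ) < K := by linarith
  have hK4 : (0 : ℤ) < K := by exact_mod_cast (show (0 : ℝ) < K by linarith)
  have hAK : 16 * (N : ℤ) ≤ A * K := by
    have t1 : (A : ℝ) * (δ1 * N) ≤ A * (2 * K) :=
      mul_le_mul_of_nonneg_left (by linarith) hA0.le
    have t2 : 32 * (N : ℝ) ≤ A * δ1 * N := by gcongr
    exact_mod_cast (show 16 * (N : ℝ) ≤ A * K by linarith)
  have hN0 : (0 : ℝ) ≤ N := Nat.cast_nonneg N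
  have hKr : 2 * (K : ℝ) ≤ r * N := by nlinarith
  have hKc : 2 * (K : ℝ) ≤ c2 * N := by nlinarith
  refine (mass_fib _ (Ico (0 : ℤ) A ×ˢ Ico (0 : ℤ) A) (fun c : ℤ × ℤ => (c.1 / K, c.2 / K)) _
    (B := 4 * (η / (4 * (A : ℝ) ^ 2) * N)) (fun c hc => ?_) fun q => ?_).trans_eq ?_
  · have h := mem_product.1 (mem_filter.1 (mem_filter.1 hc).1).1
    simp only [mem_product, mem_Ico] at h ⊢
    exact ⟨⟨Int.ediv_nonneg h.1.1 hK4.le, Int.ediv_lt_of_lt_mul hK4 (by omega)⟩,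
      Int.ediv_nonneg h.2.1 hK4.le, Int.ediv_lt_of_lt_mul hK4 (by omega)⟩
  · have hmem : ∀ c : ℤ × ℤ, (c.1 / K, c.2 / K) = q → (q.1 * K ≤ c.1 ∧ c.1 < q.1 * K + K) ∧
        q.2 * K ≤ c.2 ∧ c.2 < q.2 * K + K := by
      rintro c rfl
      have a1 := Int.lt_ediv_add_one_mul_self c.1 hK4
      have a2 := Int.lt_ediv_add_one_mul_self c.2 hK4
      rw [add_one_mul] at a1 a2
      exact ⟨⟨Int.ediv_mul_le _ hK4.ne', a1⟩, Int.ediv_mul_le _ hK4.ne', a2⟩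
    rcases Finset.eq_empty_or_nonempty (((cells N c2).filter
      (fun c => Flat μ (nv N (bv N c.1) (bv N c.2)) r)).filter
        fun c : ℤ × ℤ => (c.1 / K, c.2 / K) = q) with h0 | ⟨c0, hc0⟩
    · rw [h0, sum_empty]
      positivity
    obtain ⟨hc0, hq0⟩ := mem_filter.1 hc0
    obtain ⟨hc0, ρ, hρ⟩ := mem_filter.1 hc0
    obtain ⟨-, b1, b2, b3⟩ := mem_filter.1 hc0
    have m0 := hmem c0 hq0
    have l1 : 2 * K ≤ (c0.2 - c0.1).natAbs := by exact_mod_cast hKc.trans (mass_long hN b3)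
    have l2 : 2 * K ≤ (c0.2 + 8 * N * (-1) - c0.1).natAbs := by
      rw [← bv_period N c0.2 (-1)] at b3
      exact_mod_cast hKc.trans (mass_long hN b3)
    refine le_trans (sum_le_sum_of_subset_of_nonneg (t := Ico (q.1 * K) (q.1 * K + K) ×ˢ
      Ico (q.2 * K) (q.2 * K + K)) (fun c hc => ?_) fun c hc _ => ?_)
      (mass_rect M hN (hN1 N (by omega)) (by omega) (by omega) ?_)
    · simpa only [mem_product, mem_Ico] using hmem c (mem_filter.1 hc).2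
    · simp only [mem_product, mem_Ico] at hc
      exact mass_nonneg M hN (by omega) (by omega)
    · rw [mass_lin hN hKr hρ (by omega) (by omega), mass_lin hN hKr hρ (by omega) (by omega),
        mass_lin hN hKr hρ (by omega) (by omega), mass_lin hN hKr hρ (by omega) (by omega)]
      ring
  · rw [card_product, Int.card_Ico]
    simp only [sub_zero, Int.toNat_natCast]
    push_cast
    field_simp

end Vale.Agent.P158b
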