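import Vale.Agent.P158b.PackB

/-! The fine flow, for cells in non-flat directions. -/

open MeasureTheory ProbabilityTheory Finset
open scoped Classical

namespace Vale.Agent.P158b

/-- the rare events attached to an edge -/
theorem rare_prob (M : Model) {μ : Seminorm ℝ (ℝ × ℝ)} {N L l0 : ℕ} {δ M1 K ε η : ℝ}
    (hN : 2 ≤ N) (RS : Sym2 V → Set Env) (hRS : ∀ e, (PP M.G).real (RS e) ≤ η)
    (hU : ∀ x, Near N x 0 → (PP M.G).real {ω | ∃ y, Bd 0 N y ∧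
      δ < |T (bx 0 N) (M.Ψ ω) x y - μ (cv y - cv x)|} ≤ η)
    (hH : M.G.real (Set.Ioi M1) ≤ η / (4 * (2 * l0 + 1) ^ 2))
    (hT : ∀ z, (PP M.G).real {ω | Tie (M.Ψ ω) N L K ε z} ≤ η / (2 * l0 + 1) ^ 2) :
    ∃ Rare : Sym2 V → Set Env, (∀ e ∈ bulk N, (PP M.G).real (Rare e) ≤ 7 * η) ∧
      ∀ e ω, ω ∉ Rare e → ω ∉ RS e ∧
        (∀ v ∈ e, ∀ y, Bd 0 N y → |T (bx 0 N) (M.Ψ ω) v y - μ (cv y - cv v)| ≤ δ) ∧
        ∀ v ∈ e, (∀ e' ∈ edgesOf (box v l0), M.Ψ ω e' ≤ max M1 M.t0) ∧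
          ∀ z, Near l0 z v → ¬ Tie (M.Ψ ω) N L K ε z := by
  set E1 : V → Set Env := fun x => {ω | ∃ y, Bd 0 N y ∧
    δ < |T (bx 0 N) (M.Ψ ω) x y - μ (cv y - cv x)|} with hE1
  set E2 : V → Set Env := fun x => {ω | ∃ e' ∈ edgesOf (box x l0), ω ∈ {ω : Env | ω e' ∈ Set.Ioi M1}}
    with hE2
  set E3 : V → Set Env := fun x => {ω | ∃ z ∈ box x l0, ω ∈ {ω : Env | Tie (M.Ψ ω) N L K ε z}}
    with hE3
  have hpos : (0 : ℝ) < (2 * l0 + 1) ^ 2 := by positivity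
  have hη : 0 ≤ η := le_trans measureReal_nonneg (hRS s(0, 0))
  have p2 : ∀ x, (PP M.G).real (E2 x) ≤ η := by
    intro x
    refine le_trans (prob_fin (PP M.G) _ _ (p := η / (4 * (2 * l0 + 1) ^ 2)) fun e' _ => ?_) ?_
    · rw [PP_eval e' measurableSet_Ioi]
      exact hH
    · have h1 : ((edgesOf (box x l0)).card : ℝ) ≤ 4 * (2 * l0 + 1) ^ 2 := by
        have := card_edgesOf (box x l0)
        rw [card_box] at this
        exact_mod_cast this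
      calc _ ≤ 4 * (2 * (l0 : ℝ) + 1) ^ 2 * (η / (4 * (2 * l0 + 1) ^ 2)) :=
            mul_le_mul_of_nonneg_right h1 (by positivity)
        _ = η := by field_simp
  have p3 : ∀ x, (PP M.G).real (E3 x) ≤ η := by
    intro x
    refine le_trans (prob_fin (PP M.G) _ _ (p := η / (2 * l0 + 1) ^ 2) fun z _ => hT z) ?_
    rw [card_box]
    push_cast
    exact le_of_eq (by field_simp)
  refine ⟨fun e => RS e ∪ ({ω | ∃ v ∈ e, ω ∈ E1 v} ∪ ({ω | ∃ v ∈ e, ω ∈ E2 v} ∪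
    {ω | ∃ v ∈ e, ω ∈ E3 v})), ?_, ?_⟩
  · intro e he
    obtain ⟨x, w, rfl, -, hx, hw⟩ := bulk_ends he
    have h8 : N / 8 + 1 ≤ N := by omega
    have q1 := prob_ends (PP M.G) E1 x w (hU x (hx.mono h8)) (hU w (hw.mono h8))
    have q2 := prob_ends (PP M.G) E2 x w (p2 x) (p2 w)
    have q3 := prob_ends (PP M.G) E3 x w (p3 x) (p3 w)
    have q0 := hRS s(x, w)
    have a1 := measureReal_union_le (μ := PP M.G) (RS s(x, w))
      ({ω | ∃ v ∈ s(x, w), ω ∈ E1 v} ∪ ({ω | ∃ v ∈ s(x, w), ω ∈ E2 v} ∪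
        {ω | ∃ v ∈ s(x, w), ω ∈ E3 v}))
    have a2 := measureReal_union_le (μ := PP M.G) {ω | ∃ v ∈ s(x, w), ω ∈ E1 v}
      ({ω | ∃ v ∈ s(x, w), ω ∈ E2 v} ∪ {ω | ∃ v ∈ s(x, w), ω ∈ E3 v})
    have a3 := measureReal_union_le (μ := PP M.G) {ω | ∃ v ∈ s(x, w), ω ∈ E2 v}
      {ω | ∃ v ∈ s(x, w), ω ∈ E3 v}
    linarith
  · intro e ω hω
    refine ⟨fun h => hω (Or.inl h), fun v hv y hy => ?_, fun v hv => ⟨fun e' he' => ?_,
      fun z hz hT' => ?_⟩⟩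
    · by_contra hc
      exact hω (Or.inr (Or.inl ⟨v, hv, y, hy, not_le.mp hc⟩))
    · have : ω e' ≤ M1 := by
        by_contra hc
        exact hω (Or.inr (Or.inr (Or.inl ⟨v, hv, e', he', not_le.mp hc⟩)))
      exact le_trans (M.ub ω e') (max_le_max this le_rfl)
    · exact hω (Or.inr (Or.inr (Or.inr ⟨v, hv, z, mem_box.mpr hz, hT'⟩)))

theorem three_union (P : Measure Env) [IsProbabilityMeasure P] {S1 S2 S3 : Set Env} {η : ℝ}
    (h1 : P.real S1 ≤ η) (h2 : P.real S2 ≤ η) (h3 : P.real S3 ≤ η) :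
    ∃ G0 : Set Env, P.real G0ᶜ ≤ 3 * η ∧ ∀ ω ∈ G0, ω ∉ S1 ∧ ω ∉ S2 ∧ ω ∉ S3 := by
  refine ⟨(S1 ∪ (S2 ∪ S3))ᶜ, ?_, fun ω hω => ⟨fun h => hω (Or.inl h),
    fun h => hω (Or.inr (Or.inl h)), fun h => hω (Or.inr (Or.inr h))⟩⟩
  rw [compl_compl]
  have a1 := measureReal_union_le (μ := P) S1 (S2 ∪ S3)
  have a2 := measureReal_union_le (μ := P) S2 S3
  linarith

theorem off_tube {N l d : ℕ} {sw : Bool} {s : ℝ} {a b a' b' : V} {p q : List V}
    (hp : IsPth (bx 0 N) a b p) (hq : IsPth (bx 0 N) a' b' q) {e : Sym2 V}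
    (he : e ∉ edgesOf (tube N sw s l d p q)) : e ∉ pedges p ∧ e ∉ pedges q := by
  constructor
  · intro h
    obtain ⟨i, hi, rfl⟩ := mem_pedges.mp h
    exact he (mem_edgesOf.mpr ⟨vx p i, mem_tube_of_on (hp.chain.2 i (Nat.zero_le _) hi.le)
      (Or.inl ⟨i, hi.le, rfl⟩), vx p (i + 1), hp.chain.1 i (Nat.zero_le _) hi, rfl⟩)
  · intro h
    obtain ⟨i, hi, rfl⟩ := mem_pedges.mp h
    exact he (mem_edgesOf.mpr ⟨vx q i, mem_tube_of_on (hq.chain.2 i (Nat.zero_le _) hi.le)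
      (Or.inr ⟨i, hi.le, rfl⟩), vx q (i + 1), hq.chain.1 i (Nat.zero_le _) hi, rfl⟩)

theorem pack_fine (M : Model) {μ : Seminorm ℝ (ℝ × ℝ)} (hμ : Shape M μ) {C1 c2 κ η ε : ℝ}
    (hC1 : 0 < C1) (hc2 : 0 < c2) (hκ : 0 < κ) (hκ1 : κ ≤ 1) (hη : 0 < η) (hε : 0 < ε) :
    ∃ r : ℝ, 0 < r ∧ ∃ N0 : ℕ, ∀ N : ℕ, N0 ≤ N → ∃ (G0 : Set Env) (Rare : Sym2 V → Set Env),
      (PP M.G).real G0ᶜ ≤ η ∧ (∀ e ∈ bulk N, (PP M.G).real (Rare e) ≤ η) ∧
      ∀ c ∈ cells N c2, ¬ Flat μ (nv N (bv N c.1) (bv N c.2)) r →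
        Dom M κ N (G0 ∩ {ω | Base (M.Ψ ω) C1 c2 N}) Rare c (ε * N) := by
  set g0 := M.G.real (Set.Iio (M.t0 + κ)) with hg0
  have hg : 0 < g0 := ENNReal.toReal_pos (M.acc0 κ hκ).ne' (measure_ne_top _ _)
  set A := 6 / (g0 * ε) with hAdef
  have hA : 0 < A := by positivity
  have hη7 : 0 < η / 7 := by positivity
  have hCk : 0 < 80 * (C1 + 1) + 1 := by positivity
  obtain ⟨ξ1, hξ1, hslab⟩ := slab_prob hA hη7 hCk
  obtain ⟨ξ2, hξ2, htube⟩ := tube_prob hA hC1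
  set ξ := min (min ξ1 ξ2) (min (1 / (168 * A ^ 2)) 1) with hξdef
  have hξ : 0 < ξ := lt_min (lt_min hξ1 hξ2) (lt_min (by positivity) one_pos)
  have x1 : ξ ≤ ξ1 := le_trans (min_le_left _ _) (min_le_left _ _)
  have x2 : ξ ≤ ξ2 := le_trans (min_le_left _ _) (min_le_right _ _)
  have x3 : ξ ≤ 1 / (168 * A ^ 2) := le_trans (min_le_right _ _) (min_le_left _ _)
  have x4 : ξ ≤ 1 := le_trans (min_le_right _ _) (min_le_right _ _)
  set k := ⌈80 * (C1 + 1) / ξ⌉₊ with hkdef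
  have hk1 : 80 * (C1 + 1) ≤ ξ * k := by
    have := Nat.le_ceil (80 * (C1 + 1) / ξ)
    rw [div_le_iff₀ hξ] at this
    linarith
  have hk2 : (k : ℝ) ≤ (80 * (C1 + 1) + 1) / ξ := by
    have h1 := Nat.ceil_lt_add_one (show 0 ≤ 80 * (C1 + 1) / ξ by positivity)
    have h2 : 1 ≤ 1 / ξ := by rw [le_div_iff₀ hξ]; linarith
    rw [add_div]
    linarith
  have hkpos : (0 : ℝ) < k := by
    by_contra hc
    have : ξ * k ≤ 0 := mul_nonpos_of_nonneg_of_nonpos hξ.le (not_lt.mp hc)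
    linarith
  have hk3 : 1 ≤ k := by exact_mod_cast hkpos
  obtain ⟨r, H, δ0, gsel, hr, hH, hδ0, hgs, hcrit, hst⟩ := straight_prob M hμ hC1 hc2 hξ hk1
  set d := ⌈H⌉₊ + 1 with hddef
  have hd1 : 1 ≤ d := Nat.le_add_left _ _
  have hdH : H ≤ d := by
    have := Nat.le_ceil H
    rw [hddef]
    push_cast
    linarith
  have hdr : (1 : ℝ) ≤ d := by exact_mod_cast hd1
  set l := ⌈(d : ℝ) / ξ⌉₊ with hldef
  have hl1 : (d : ℝ) ≤ ξ * l := by
    have := Nat.le_ceil ((d : ℝ) / ξ)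
    rw [div_le_iff₀ hξ] at this
    linarith
  have hl2 : ξ * l ≤ 2 * d := by
    have h1 := Nat.ceil_lt_add_one (show 0 ≤ (d : ℝ) / ξ by positivity)
    have h2 : ξ * l ≤ ξ * (d / ξ + 1) := mul_le_mul_of_nonneg_left h1.le hξ.le
    have h3 : ξ * (d / ξ + 1) = d + ξ := by field_simp
    linarith
  have hl3 : 1 ≤ l := by
    have : (0 : ℝ) < l := by
      by_contra hc
      have : ξ * l ≤ 0 := mul_nonpos_of_nonneg_of_nonpos hξ.le (not_lt.mp hc)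
      linarith
    exact_mod_cast this
  set l0 := l + d + 1 with hl0
  have hq0 : (0 : ℝ) < (2 * l0 + 1) ^ 2 := by positivity
  obtain ⟨M1, hM1, hheavy⟩ := heavy_small M.G (η := η / 7 / (4 * (2 * l0 + 1) ^ 2)) (by positivity)
  have hM1' : 0 ≤ max M1 M.t0 := le_trans hM1.le (le_max_left _ _)
  set ε2 := ε / (16 * (2 * l0 + 1) ^ 2 * (C1 + 1)) with hε2
  have hε2p : 0 < ε2 := by positivity
  obtain ⟨L, hL, htie⟩ := tie_prob M (K := 1 + 4 * l0 * max M1 M.t0) (ε := ε2)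
    (η := η / 7 / (2 * l0 + 1) ^ 2) (by positivity) hε2p (by positivity)
  obtain ⟨N1, h1⟩ := htube ξ hξ x2 k l d H hk3 hl3 hd1 hdH hl1 hl2 M.G M.M0 (η / 7) hη7
  obtain ⟨N2, h2⟩ := hst (η / 7) hη7
  obtain ⟨N3, h3⟩ := ul_two M hμ (δ := δ0 / 4) (by positivity) hη7
  obtain ⟨N4, h4⟩ := ul_one M hμ (δ := δ0 / 4) (by positivity) hη7
  obtain ⟨N5, h5⟩ := exists_nat_ge (2 * A + 1 / ξ + 1 / r + 4 / δ0)
  refine ⟨r, hr, N1 + N2 + N3 + N4 + N5 + 2 * (l0 + L + 2), fun N hN => ?_⟩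
  have hN2 : 2 ≤ N := by omega
  have hN1 : 1 ≤ N := by omega
  have hNr : (0 : ℝ) < N := by exact_mod_cast hN1
  have hN5 : 2 * A + 1 / ξ + 1 / r + 4 / δ0 ≤ N := le_trans h5 (by exact_mod_cast (by omega))
  have y1 : 0 < 1 / ξ := by positivity
  have y2 : 0 < 1 / r := by positivity
  have y3 : 0 < 4 / δ0 := by positivity
  have z1 : A / N ≤ 1 / 2 := by rw [div_le_iff₀ hNr]; linarith
  have z2 : 1 ≤ ξ * N := by
    have : 1 / ξ ≤ N := by linarith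
    rw [div_le_iff₀ hξ] at this
    linarith
  have z3 : 1 / (N : ℝ) ≤ r := by
    have : 1 / r ≤ N := by linarith
    rw [div_le_iff₀ hr] at this
    rw [div_le_iff₀ hNr]
    linarith
  have z4 : 4 ≤ δ0 * N := by
    have : 4 / δ0 ≤ N := by linarith
    rw [div_le_iff₀ hδ0] at this
    linarith
  have z5 : N / 8 + 1 + l0 + L < N := by omega
  have z6 : (L : ℝ) ≤ N := by exact_mod_cast (by omega)
  obtain ⟨Rare, hRp, hRd⟩ := rare_prob M (μ := μ) (L := L) (l0 := l0) (δ := δ0 / 4 * N) (M1 := M1)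
    (K := 1 + 4 * l0 * max M1 M.t0) (ε := ε2) (η := η / 7) hN2 _
    (hslab ξ hξ x1 k hk2 M.G M.M0 N hN1 z2) (h4 N (by omega)) hheavy (htie N hN1)
  have b1 := h1 N (by omega)
  have b2 := h2 N (by omega)
  have b3 := h3 N (by omega) N hN1 le_rfl
  obtain ⟨G0, hG0, hG⟩ := three_union (PP M.G) b1 b2 b3
  refine ⟨G0, Rare, le_trans hG0 (by linarith),
    fun e he => le_trans (hRp e he) (le_of_eq (by ring)), ?_⟩
  · intro c hc hnf
    obtain ⟨_, c1, c2', c3⟩ := Finset.mem_filter.mp hc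
    have ba := bv_bd hN1 c.1
    have bb := bv_bd hN1 c.2
    have ba' := bv_bd hN1 (c.1 + 1)
    have bb' := bv_bd hN1 (c.2 + 1)
    set w0 := nv N (bv N c.1) (bv N c.2) with hw0
    have hw2 : ‖w0‖ ≤ 2 := norm_nv_le ba.1 bb.1
    set sw := (gsel w0).1 with hsw
    set j := (gsel w0).2 with hj
    have hjk : |j| ≤ k := hgs w0
    have hs1 : |(j : ℝ) / k| ≤ 1 := by
      rw [abs_div, abs_of_pos hkpos, div_le_one hkpos]
      exact_mod_cast hjk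
    set i := ⌊gQ sw (j / k) (cv (bv N c.1)) / (ξ * N)⌋ with hi
    have hi2 : |(i : ℝ)| ≤ 2 / ξ + 1 := floor_idx hN1 hξ hs1 sw ba.1
    set SL := edgesOf (slab N sw (j / k) ξ i) with hSL
    obtain ⟨F, F1, F2, F3, F4⟩ := flow_cell M hN2 c1.le c2'.le hκ (show 0 < A / N by positivity) z1
      (fun p q => SL \ edgesOf (tube N sw (j / k) l d p q)) (by
        intro p q hp hq
        refine ⟨fun e he => off_tube hp hq (Finset.mem_sdiff.mp he).2, ?_⟩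
        have e1 : ((SL \ edgesOf (tube N sw (j / k) l d p q)).card : ℝ) ≤ 84 * ξ * N ^ 2 :=
          le_trans (by exact_mod_cast Finset.card_le_card Finset.sdiff_subset)
            (card_slab z2 hN1 sw _ i)
        have e2 : (A / N) ^ 2 * (84 * ξ * N ^ 2) = 84 * A ^ 2 * ξ := by field_simp
        have e3 : 84 * A ^ 2 * ξ ≤ 84 * A ^ 2 * (1 / (168 * A ^ 2)) :=
          mul_le_mul_of_nonneg_left x3 (by positivity)
        have e4 : 84 * A ^ 2 * (1 / (168 * A ^ 2)) = 1 / 2 := by field_simp; ring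
        have e5 := mul_le_mul_of_nonneg_left e1 (show 0 ≤ (A / N) ^ 2 by positivity)
        linarith)
    have hDi := integrable_Dm M hN1 c.1 c.2
    have hD0 : ∀ ω, 0 ≤ Dm (M.Ψ ω) N c.1 c.2 :=
      fun ω => Dm_nonneg (M.nonneg ω) hN1 c1.le c2'.le
    refine ⟨fun ω => F ω + ε * N / 2 * Dm (M.Ψ ω) N c.1 c.2, F1.add (hDi.const_mul _),
      fun ω => add_nonneg (F2 ω) (mul_nonneg (by positivity) (hD0 ω)), ?_, ?_⟩
    · rw [integral_add F1 (hDi.const_mul _), integral_const_mul]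
      have e1 : 3 / (g0 * (A / N)) = ε * N / 2 := by
        rw [hAdef]
        field_simp
        ring
      rw [← hg0, e1] at F3
      linarith
    · rintro ω ⟨hω, hB⟩
      have ht := M.nonneg ω
      obtain ⟨hU, hlen, -⟩ := hB
      obtain ⟨p, gp⟩ := exists_geo (bx_finite 0 N) ht hU (reach_bx ba.1 bb'.1)
      obtain ⟨q, gq⟩ := exists_geo (bx_finite 0 N) ht hU (reach_bx ba'.1 bb.1)
      have lp := hlen _ _ p ba bb' gp
      have lq := hlen _ _ q ba' bb gq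
      have sp : Straight sw (j / k) (ξ * N) H p := by
        by_contra hcon
        exact (hG ω hω).2.1 ⟨w0, _, _, p, c3, hw2, hnf, ba, bb',
          le_trans (nv_right hN1 _ (bv_adj hN1 c.2)) z3, gp, lp, hcon⟩
      have sq : Straight sw (j / k) (ξ * N) H q := by
        by_contra hcon
        exact (hG ω hω).2.1 ⟨w0, _, _, q, c3, hw2, hnf, ba', bb,
          le_trans (nv_left hN1 _ (bv_adj hN1 c.1)) z3, gq, lq, hcon⟩
      have key := fine_det M (μ := μ) (L := L) (l := l) (d := d) (A := A) (δ0 := δ0)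
        (M1 := max M1 M.t0) (ε := ε2) (sw := sw) hc hN2 hL hl3 hd1 z5 hκ hκ1 hξ hA hs1 z4 hM1'
        hε2p.le hU gp gq (fun y a1 a2 a3 => hcrit w0 y c3 hw2 hnf a1 a2 a3)
        (by
          by_contra hcon
          exact (hG ω hω).2.2 ⟨_, _, ba, bb, not_le.mp hcon⟩)
        SL hSL
        (by
          intro e he
          by_contra hcon
          exact (hG ω hω).1 ⟨sw, j, i, p, q, e, hjk, hi2, ⟨gp.1.chain, lp⟩, ⟨gq.1.chain, lq⟩, sp, sq,
            he, not_lt.mp hcon⟩)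
        Rare
        (by
          intro e _ hne
          obtain ⟨r1, r2, r3⟩ := hRd e ω hne
          refine ⟨?_, r2, r3⟩
          by_contra hcon
          exact r1 ⟨sw, j, i, hjk, hi2, not_lt.mp hcon⟩)
      refine le_trans key (add_le_add (F4 ω p q gp gq) (mul_le_mul_of_nonneg_right ?_ (hD0 ω)))
      have e1 : (len p : ℝ) + len q + 2 * L ≤ 2 * (C1 + 1) * N := by linarith
      calc 4 * (2 * (l0 : ℝ) + 1) ^ 2 * (ε2 * (len p + len q + 2 * L))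
          ≤ 4 * (2 * (l0 : ℝ) + 1) ^ 2 * (ε2 * (2 * (C1 + 1) * N)) :=
            mul_le_mul_of_nonneg_left (mul_le_mul_of_nonneg_left e1 hε2p.le) (by positivity)
        _ = ε * N / 2 := by
          rw [hε2]
          field_simp
          ring

end Vale.Agent.P158b
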