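import Vale.Agent.P158b.Norm
import Vale.Agent.P158b.ProbC
import Vale.Agent.P158b.Fam

/-! Existence of the limit norm. -/

open MeasureTheory ProbabilityTheory Finset
open scoped Classical

namespace Vale.Agent.P158b

/-- `stable_norm` for `a v = ∫ T univ 0 v`. Subadditivity: `T_triangle`, `integral_T_univ_trans`;
symmetry: `T_symm`. Lower bound: `κ` from `low_small` with the `η0` of `many_small 0 (1/2)`; with
`n = max |v.1| |v.2|` every path from `0` to `v` has length `≥ n` (`Chain.near`), so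
`T ≥ κ n / 2` off `Many` (`wt_ge_of_not_many`, `le_T`), and `a v ≥ κ n / 2 * (1 - C 2⁻ⁿ)`;
`n 2⁻ⁿ ≤ 1`. -/
theorem exists_shape (M : Model) : ∃ μ, Shape M μ := by
  set a : V → ℝ := fun v => ∫ ω, T Set.univ (M.Ψ ω) 0 v ∂(PP M.G) with ha
  have hint : ∀ x y, Integrable (fun ω => T Set.univ (M.Ψ ω) x y) (PP M.G) := fun x y =>
    integrable_T M (reach_univ x y)
  have h0 : ∀ v, 0 ≤ a v := fun v => integral_nonneg fun ω => T_nonneg _ (M.nonneg ω) _ _
  have hadd : ∀ v w, a (v + w) ≤ a v + a w := fun v w => by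
    have h1 := integral_T_univ_trans M v (v + w)
    rw [add_sub_cancel_left] at h1
    simp only [ha]
    rw [← h1, ← integral_add (hint _ _) (hint _ _)]
    exact integral_mono (hint _ _) ((hint _ _).add (hint _ _)) fun ω =>
      T_triangle (M.nonneg ω) (reach_univ _ _) (reach_univ _ _)
  have hneg : ∀ v, a (-v) = a v := fun v => by
    have h1 := integral_T_univ_trans M v 0
    rw [zero_sub] at h1
    simp only [ha]
    rw [← h1]
    exact integral_congr_ae (Filter.Eventually.of_forall fun ω => T_symm _ (M.nonneg ω) _ _)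
  obtain ⟨η0, C, hη0, hC, hmany⟩ := many_small 0 (show (0 : ℝ) < 1 / 2 by norm_num)
  obtain ⟨κ, hκ, hκ1, hκη⟩ := M.low_small hη0
  have hlow : ∀ v, κ / 2 * ‖cv v‖ - κ / 2 * C ≤ a v := fun v => by
    set n : ℕ := ⌈‖cv v‖⌉₊ with hn
    set E : Set Env := {ω | Many (Set.Iio κ) 0 n (1 / 2 * n) 0 ω} with hE
    have h1 : (PP M.G).real E ≤ C * (1 / 2) ^ n := hmany M.G _ measurableSet_Iio hκη n 0
    have h2 : Eᶜ ⊆ {ω | κ * n / 2 ≤ T Set.univ (M.Ψ ω) 0 v} := fun ω hω => by
      refine le_T (reach_univ _ _) fun l hl => ?_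
      refine wt_ge_of_not_many hκ.le (M.nonneg ω) (fun e he => M.le_of_le hκ1 he) hl ?_ hω
      have k1 := hl.chain.near le_rfl (Nat.zero_le _) le_rfl
      rw [hl.start, hl.stop, Nat.sub_zero, near_iff_norm] at k1
      have k2 : cv 0 = 0 := by ext <;> simp [cv]
      rw [k2, zero_sub, norm_neg] at k1
      exact Nat.ceil_le.2 k1
    have h3 := mul_meas_ge_le_integral_of_nonneg
      (Filter.Eventually.of_forall fun ω => T_nonneg Set.univ (M.nonneg ω) 0 v) (hint 0 v)
      (κ * n / 2)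
    have h4 : (PP M.G).real Eᶜ ≤ (PP M.G).real {ω | κ * n / 2 ≤ T Set.univ (M.Ψ ω) 0 v} :=
      measureReal_mono h2
    have h5 : 1 ≤ (PP M.G).real E + (PP M.G).real Eᶜ := by
      have k1 := measureReal_union_le (μ := PP M.G) E Eᶜ
      rwa [Set.union_compl_self, probReal_univ] at k1
    have h6 : (n : ℝ) * (1 / 2) ^ n ≤ 1 := by
      have k1 : (n : ℝ) ≤ 2 ^ n := by exact_mod_cast (Nat.lt_two_pow_self (n := n)).le
      rw [one_div, inv_pow, ← div_eq_mul_inv, div_le_one (by positivity)]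
      exact k1
    have h7 : ‖cv v‖ ≤ n := Nat.le_ceil _
    have h8 : κ * n / 2 * (1 - C * (1 / 2) ^ n) ≤
        κ * n / 2 * (PP M.G).real {ω | κ * n / 2 ≤ T Set.univ (M.Ψ ω) 0 v} :=
      mul_le_mul_of_nonneg_left (by linarith) (by positivity)
    have h9 := mul_le_mul_of_nonneg_left h6 (by positivity : 0 ≤ κ / 2 * C)
    have h10 := mul_le_mul_of_nonneg_left h7 (by positivity : 0 ≤ κ / 2)
    change _ ≤ ∫ ω, T Set.univ (M.Ψ ω) 0 v ∂(PP M.G)
    nlinarith
  obtain ⟨μ, m1, m2, m3, m4⟩ :=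
    stable_norm a M.m h0 hadd hneg (fun v => integral_T_univ_le M 0 v) hlow
  exact ⟨μ, m1, m2, m3, κ / 2, by positivity, m4⟩

end Vale.Agent.P158b
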