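import Vale.Agent.P158b.PackT
import Vale.Agent.P158b.PackF
import Vale.Agent.P158b.Mass
import Vale.Agent.P158b.Cover
import Vale.Agent.P158b.BaseP
import Vale.Agent.P158b.ShapeEx

/-! Few bulk edges are covered. -/

open MeasureTheory ProbabilityTheory Finset
open scoped Classical

namespace Vale.Agent.P158b

theorem Dom.mono {M : Model} {κ : ℝ} {N : ℕ} {G0 G1 : Set Env} {R0 R1 : Sym2 V → Set Env}
    {c : ℤ × ℤ} {A : ℝ} (h : Dom M κ N G0 R0 c A) (hG : G1 ⊆ G0) (hR : ∀ e, R0 e ⊆ R1 e) :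
    Dom M κ N G1 R1 c A := by
  obtain ⟨F, h1, h2, h3, h4⟩ := h
  refine ⟨F, h1, h2, h3, fun ω hω => le_trans ?_ (h4 ω (hG hω))⟩
  unfold load
  refine Finset.sum_le_sum_of_subset_of_nonneg ?_ fun e _ _ => dl_nonneg _ _ _ _ _
  intro e he
  rw [Finset.mem_filter] at he ⊢
  exact ⟨he.1, fun hh => he.2.1 (hR e hh), he.2.2⟩

theorem adj_add {d : V} (hd : Adj 0 d) (x : V) : Adj x (x + d) := by
  unfold Adj at *
  simp only [Prod.fst_add, Prod.snd_add, Prod.fst_zero, Prod.snd_zero] at *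
  omega

theorem edge_inj {d : V} (hd : Adj 0 d) {x y : V} (h : s(x, x + d) = s(y, y + d)) : x = y := by
  rcases Sym2.eq_iff.mp h with h | h
  · exact h.1
  · exfalso
    have h1 := congrArg Prod.fst h.1
    have h2 := congrArg Prod.snd h.1
    have h3 := congrArg Prod.fst h.2
    have h4 := congrArg Prod.snd h.2
    unfold Adj at hd
    simp only [Prod.fst_add, Prod.snd_add, Prod.fst_zero, Prod.snd_zero] at *
    omega

theorem good_sum (M : Model) {d : V} (hd : Adj 0 d) {N : ℕ} {C1 c2 κ : ℝ} (hN : 2 ≤ N)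
    (hc : 1 < c2 * N) (hκ0 : 0 < κ) (hκ1 : κ ≤ 1) {ω : Env} (hB : Base (M.Ψ ω) C1 c2 N)
    (R : Sym2 V → Set Env) (D : Finset V) (hD : D ⊆ box 0 (N / 8))
    (hgood : ∀ x ∈ D, ω ∉ R s(x, x + d) ∧ M.t0 + 2 * κ ≤ ω s(x, x + d) ∧ ω s(x, x + d) ≤ M.M0 ∧
      CovE 0 N x (x + d) (M.Ψ ω)) :
    κ * D.card ≤ ∑ c ∈ cells N c2, load M κ N R c ω := by
  have h1 : ∀ x ∈ D, κ ≤ ∑ c ∈ cells N c2, dl (M.Ψ ω) N κ c s(x, x + d) := by
    intro x hx
    obtain ⟨_, a1, a2, a3⟩ := hgood x hx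
    have hx8 : Near (N / 8) x 0 := mem_box.mp (hD hx)
    have hw : Near (N / 8 + 1) (x + d) 0 := by
      have := (adj_add hd x).near.symm.trans hx8
      rwa [add_comm 1] at this
    refine cover (M.nonneg ω) hB hN hc (hx8.mono (Nat.le_succ _)) hw (adj_add hd x) hκ0 hκ1 ?_ a3
    rw [M.light ω _ a2]
    have := M.t0_nonneg
    exact le_trans (by linarith) (le_max_left _ _)
  calc κ * D.card = ∑ _x ∈ D, κ := by rw [Finset.sum_const, nsmul_eq_mul, mul_comm]
    _ ≤ ∑ x ∈ D, ∑ c ∈ cells N c2, dl (M.Ψ ω) N κ c s(x, x + d) := Finset.sum_le_sum h1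
    _ = ∑ c ∈ cells N c2, ∑ x ∈ D, dl (M.Ψ ω) N κ c s(x, x + d) := Finset.sum_comm
    _ ≤ _ := by
      refine Finset.sum_le_sum fun c _ => ?_
      have e1 : ∑ x ∈ D, dl (M.Ψ ω) N κ c s(x, x + d) =
          ∑ e ∈ D.image (fun x => s(x, x + d)), dl (M.Ψ ω) N κ c e := by
        rw [Finset.sum_image]
        intro x _ y _ hxy
        exact edge_inj hd hxy
      rw [e1]
      unfold load
      refine Finset.sum_le_sum_of_subset_of_nonneg ?_ fun e _ _ => dl_nonneg _ _ _ _ _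
      intro e he
      obtain ⟨x, hx, rfl⟩ := Finset.mem_image.mp he
      obtain ⟨a0, a1, a2, _⟩ := hgood x hx
      exact Finset.mem_filter.mpr
        ⟨mem_edgesOf.mpr ⟨x, hD hx, x + d, adj_add hd x, rfl⟩, a0, a1, a2⟩

theorem integral_Dm_nonneg (M : Model) {N : ℕ} (hN : 1 ≤ N) {c2 : ℝ} {c : ℤ × ℤ}
    (hc : c ∈ cells N c2) : 0 ≤ ∫ ω, Dm (M.Ψ ω) N c.1 c.2 ∂(PP M.G) := by
  obtain ⟨_, h1, h2, _⟩ := Finset.mem_filter.mp hc
  exact integral_nonneg fun ω => Dm_nonneg (M.nonneg ω) hN h1.le h2.le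

theorem main_bound (M : Model) {d : V} (hd : Adj 0 d) {η : ℝ} (hη : 0 < η) :
    ∃ N0 : ℕ, ∀ N : ℕ, N0 ≤ N → ∑ x ∈ box 0 (N / 8),
      (PP M.G).real {ω | ω s(x, x + d) ≤ M.M0 ∧ CovE 0 N x (x + d) (M.Ψ ω)} ≤ η * N ^ 2 := by
  obtain ⟨μ, hμ⟩ := exists_shape M
  obtain ⟨C1, c2, hC1, hc2, hbase⟩ := base_prob M hμ
  have hη1 : 0 < η / 7 := by positivity
  obtain ⟨κ, hκ0, hκh, -, hκs⟩ := M.lo_small hη1
  have hκ1 : κ ≤ 1 := by linarith
  obtain ⟨C0, hC0, hT⟩ := pack_triv M (c2 := c2) hC1 hκ0 hη1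
  have hm := M.m_nonneg
  have hε : 0 < κ * (η / 7) / (16 * (M.m + 1)) := by positivity
  obtain ⟨r, hr, N1, hF⟩ := pack_fine M hμ hC1 hc2 hκ0 hκ1 hη1 hε
  have hη2 : 0 < κ * (η / 7) / C0 := by positivity
  obtain ⟨N2, hflat⟩ := flat_mass M hμ hr hc2 hη2
  obtain ⟨N3, hb⟩ := hbase (η / 7) hη1
  obtain ⟨N4, hN4⟩ := exists_nat_gt (1 / c2)
  refine ⟨max (max N1 N2) (max N3 (max N4 2)), fun N hN => ?_⟩
  have n1 : N1 ≤ N := le_trans (le_trans (le_max_left _ _) (le_max_left _ _)) hN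
  have n2 : N2 ≤ N := le_trans (le_trans (le_max_right _ _) (le_max_left _ _)) hN
  have n3 : N3 ≤ N := le_trans (le_trans (le_max_left _ _) (le_max_right _ _)) hN
  have n4 : N4 ≤ N :=
    le_trans (le_trans (le_trans (le_max_left _ _) (le_max_right _ _)) (le_max_right _ _)) hN
  have n5 : 2 ≤ N :=
    le_trans (le_trans (le_trans (le_max_right _ _) (le_max_right _ _)) (le_max_right _ _)) hN
  have hcN : 1 < c2 * N := by
    have : (N4 : ℝ) ≤ N := by exact_mod_cast n4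
    have h2 : 1 / c2 < N := lt_of_lt_of_le hN4 this
    rw [div_lt_iff₀ hc2] at h2
    linarith
  obtain ⟨R0, hR0, hD0⟩ := hT N n5
  obtain ⟨G1, R1, hG1, hR1, hD1⟩ := hF N n1
  set P := PP M.G with hP
  set B : Set Env := {ω | Base (M.Ψ ω) C1 c2 N} with hBdef
  set Gm : Set Env := (toMeasurable P (G1 ∩ B)ᶜ)ᶜ with hGm
  set Rm : Sym2 V → Set Env := fun e => toMeasurable P (R0 e ∪ R1 e) with hRm
  have hGsub : Gm ⊆ G1 ∩ B := by
    intro ω hω
    by_contra hc
    exact hω (subset_toMeasurable _ _ hc)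
  have hGmeas : MeasurableSet Gm := (measurableSet_toMeasurable _ _).compl
  have hGp : P.real Gmᶜ ≤ 2 * (η / 7) := by
    rw [hGm, compl_compl, Measure.real, measure_toMeasurable, Set.compl_inter]
    have h1 := measureReal_union_le (μ := P) G1ᶜ Bᶜ
    have h2 : P.real Bᶜ ≤ η / 7 := hb N n3
    unfold Measure.real at h1 h2 hG1
    linarith
  have hRp : ∀ e ∈ bulk N, P.real (Rm e) ≤ 2 * (η / 7) := by
    intro e he
    rw [hRm, Measure.real, measure_toMeasurable]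
    have h1 := measureReal_union_le (μ := P) (R0 e) (R1 e)
    have h2 := hR0 e
    have h3 := hR1 e he
    unfold Measure.real at h1 h2 h3
    linarith
  set A : ℤ × ℤ → ℝ := fun c => if Flat μ (nv N (bv N c.1) (bv N c.2)) r then C0 * N
    else κ * (η / 7) / (16 * (M.m + 1)) * N with hA
  have hdom : ∀ c ∈ cells N c2, Dom M κ N Gm Rm c (A c) := by
    intro c hc
    by_cases hf : Flat μ (nv N (bv N c.1) (bv N c.2)) r
    · simp only [hA, hf, if_true]
      exact (hD0 c hc).mono (fun ω hω => (hGsub hω).2)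
        fun e ω hω => subset_toMeasurable _ _ (Or.inl hω)
    · simp only [hA, hf, if_false]
      exact (hD1 c hc hf).mono hGsub fun e ω hω => subset_toMeasurable _ _ (Or.inr hω)
  choose! F hFi hF0 hFm hFp using hdom
  set Good : V → Set Env := fun x => {ω | ω ∈ Gm ∧ ω ∉ Rm s(x, x + d) ∧
    M.t0 + 2 * κ ≤ ω s(x, x + d) ∧ ω s(x, x + d) ≤ M.M0 ∧ CovE 0 N x (x + d) (M.Ψ ω)} with hGood
  have hGoodm : ∀ x, MeasurableSet (Good x) := by
    intro x
    have m1 : MeasurableSet {ω : Env | M.t0 + 2 * κ ≤ ω s(x, x + d)} :=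
      measurableSet_le measurable_const (measurable_pi_apply _)
    have m2 : MeasurableSet {ω : Env | ω s(x, x + d) ≤ M.M0} :=
      measurableSet_le (measurable_pi_apply _) measurable_const
    have m3 : MeasurableSet {ω : Env | CovE 0 N x (x + d) (M.Ψ ω)} :=
      M.meas (measurableSet_covE 0 x (x + d) N)
    exact hGmeas.inter ((measurableSet_toMeasurable _ _).compl.inter (m1.inter (m2.inter m3)))
  have hpt : ∀ ω, ∑ x ∈ box 0 (N / 8), (Good x).indicator (fun _ => κ) ω ≤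
      ∑ c ∈ cells N c2, F c ω := by
    intro ω
    by_cases hω : ω ∈ Gm
    · have e1 : ∑ x ∈ box 0 (N / 8), (Good x).indicator (fun _ => κ) ω =
          κ * ((box 0 (N / 8)).filter fun x => ω ∈ Good x).card := by
        simp only [Set.indicator_apply]
        rw [← Finset.sum_filter, Finset.sum_const, nsmul_eq_mul, mul_comm]
      rw [e1]
      refine le_trans (good_sum M hd n5 hcN hκ0 hκ1 (hGsub hω).2 Rm _ (Finset.filter_subset _ _)
        fun x hx => (Finset.mem_filter.mp hx).2.2) ?_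
      exact Finset.sum_le_sum fun c hc => hFp c hc ω hω
    · have e1 : ∑ x ∈ box 0 (N / 8), (Good x).indicator (fun _ => κ) ω = 0 :=
        Finset.sum_eq_zero fun x _ => Set.indicator_of_notMem (fun h => hω h.1) _
      rw [e1]
      exact Finset.sum_nonneg fun c hc => hF0 c hc ω
  have hint : κ * ∑ x ∈ box 0 (N / 8), P.real (Good x) ≤ ∑ c ∈ cells N c2, ∫ ω, F c ω ∂P := by
    have i1 : ∀ x ∈ box 0 (N / 8), Integrable ((Good x).indicator fun _ => κ) P :=
      fun x _ => (integrable_const κ).indicator (hGoodm x)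
    have h1 := integral_mono (integrable_finset_sum _ i1) (integrable_finset_sum _ hFi) hpt
    rw [integral_finset_sum _ i1, integral_finset_sum _ hFi] at h1
    refine le_trans (le_of_eq ?_) h1
    rw [Finset.mul_sum]
    refine Finset.sum_congr rfl fun x _ => ?_
    rw [integral_indicator_const _ (hGoodm x), smul_eq_mul, mul_comm]
  have hN1 : 1 ≤ N := by omega
  have hNr : (0 : ℝ) ≤ N := Nat.cast_nonneg N
  have hsumF : ∑ c ∈ cells N c2, ∫ ω, F c ω ∂P ≤ 2 * (κ * (η / 7)) * N ^ 2 := by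
    set I : ℤ × ℤ → ℝ := fun c => ∫ ω, Dm (M.Ψ ω) N c.1 c.2 ∂P with hI
    have s1 : ∑ c ∈ cells N c2, ∫ ω, F c ω ∂P ≤ ∑ c ∈ cells N c2,
        ((if Flat μ (nv N (bv N c.1) (bv N c.2)) r then C0 * N * I c else 0) +
          κ * (η / 7) / (16 * (M.m + 1)) * N * I c) := by
      refine Finset.sum_le_sum fun c hc => le_trans (hFm c hc) ?_
      have hI0 : 0 ≤ I c := integral_Dm_nonneg M hN1 hc
      by_cases hf : Flat μ (nv N (bv N c.1) (bv N c.2)) r
      · simp only [hA, hf, if_true]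
        have : 0 ≤ κ * (η / 7) / (16 * (M.m + 1)) * N * I c := by positivity
        linarith
      · simp only [hA, hf, if_false]
        linarith
    rw [Finset.sum_add_distrib, ← Finset.sum_filter, ← Finset.mul_sum, ← Finset.mul_sum] at s1
    have t1 := hflat N n2
    have t2 := total_mass M hN1 c2
    have u1 : C0 * N * ∑ c ∈ (cells N c2).filter
        (fun c => Flat μ (nv N (bv N c.1) (bv N c.2)) r), I c ≤ κ * (η / 7) * N ^ 2 := by
      calc _ ≤ C0 * N * (κ * (η / 7) / C0 * N) := mul_le_mul_of_nonneg_left t1 (by positivity)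
        _ = κ * (η / 7) * N ^ 2 := by field_simp
    have u2 : κ * (η / 7) / (16 * (M.m + 1)) * N * ∑ c ∈ cells N c2, I c ≤
        κ * (η / 7) * N ^ 2 := by
      have t3 : ∑ c ∈ cells N c2, I c ≤ 16 * N * (M.m + 1) := by
        refine le_trans t2 ?_
        nlinarith
      calc _ ≤ κ * (η / 7) / (16 * (M.m + 1)) * N * (16 * N * (M.m + 1)) :=
            mul_le_mul_of_nonneg_left t3 (by positivity)
        _ = κ * (η / 7) * N ^ 2 := by field_simp
    linarith
  have hgood : ∑ x ∈ box 0 (N / 8), P.real (Good x) ≤ 2 * (η / 7) * N ^ 2 := by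
    have h1 := le_trans hint hsumF
    have h2 : κ * ∑ x ∈ box 0 (N / 8), P.real (Good x) ≤ κ * (2 * (η / 7) * N ^ 2) := by
      linarith
    exact le_of_mul_le_mul_left h2 hκ0
  have hone : ∀ x ∈ box 0 (N / 8),
      P.real {ω | ω s(x, x + d) ≤ M.M0 ∧ CovE 0 N x (x + d) (M.Ψ ω)} ≤
        P.real (Good x) + 5 * (η / 7) := by
    intro x hx
    have hb : s(x, x + d) ∈ bulk N := mem_edgesOf.mpr ⟨x, hx, x + d, adj_add hd x, rfl⟩
    have hsub : {ω | ω s(x, x + d) ≤ M.M0 ∧ CovE 0 N x (x + d) (M.Ψ ω)} ⊆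
        Good x ∪ (Gmᶜ ∪ (Rm s(x, x + d) ∪ {ω | ω s(x, x + d) ∈ Set.Iio (M.t0 + 2 * κ)})) := by
      intro ω hω
      by_cases h1 : ω ∈ Gm
      · by_cases h2 : ω ∈ Rm s(x, x + d)
        · exact Or.inr (Or.inr (Or.inl h2))
        · by_cases h3 : M.t0 + 2 * κ ≤ ω s(x, x + d)
          · exact Or.inl ⟨h1, h2, h3, hω.1, hω.2⟩
          · exact Or.inr (Or.inr (Or.inr (not_le.mp h3)))
      · exact Or.inr (Or.inl h1)
    have a1 := measureReal_mono (μ := P) hsub
    have a2 := measureReal_union_le (μ := P) (Good x)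
      (Gmᶜ ∪ (Rm s(x, x + d) ∪ {ω | ω s(x, x + d) ∈ Set.Iio (M.t0 + 2 * κ)}))
    have a3 := measureReal_union_le (μ := P) Gmᶜ
      (Rm s(x, x + d) ∪ {ω | ω s(x, x + d) ∈ Set.Iio (M.t0 + 2 * κ)})
    have a4 := measureReal_union_le (μ := P) (Rm s(x, x + d))
      {ω | ω s(x, x + d) ∈ Set.Iio (M.t0 + 2 * κ)}
    have a5 := PP_eval (G := M.G) s(x, x + d) (B := Set.Iio (M.t0 + 2 * κ)) measurableSet_Iio
    have a6 := hRp _ hb
    linarith
  have hcard : ((box (0 : V) (N / 8)).card : ℝ) ≤ N ^ 2 := by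
    rw [card_box]
    have : 2 * (N / 8) + 1 ≤ N := by omega
    exact_mod_cast Nat.pow_le_pow_left this 2
  calc _ ≤ ∑ x ∈ box 0 (N / 8), (P.real (Good x) + 5 * (η / 7)) := Finset.sum_le_sum hone
    _ = ∑ x ∈ box 0 (N / 8), P.real (Good x) + (box (0 : V) (N / 8)).card * (5 * (η / 7)) := by
      rw [Finset.sum_add_distrib, Finset.sum_const, nsmul_eq_mul]
    _ ≤ 2 * (η / 7) * N ^ 2 + N ^ 2 * (5 * (η / 7)) :=
      add_le_add hgood (mul_le_mul_of_nonneg_right hcard (by positivity))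
    _ = η * N ^ 2 := by ring

end Vale.Agent.P158b
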