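import Vale.Agent.P158b.Clus

/-! The truncated model. -/

open MeasureTheory ProbabilityTheory Finset
open scoped Classical

namespace Vale.Agent.P158b

theorem mex_cdf_cont (G : Measure ℝ) [IsProbabilityMeasure G] [NullSingletonClass G] :
    Continuous (cdf G) := by
  rw [continuous_iff_continuousAt]
  intro x
  rw [(monotone_cdf G).continuousAt_iff_leftLim_eq_rightLim, StieltjesFunction.rightLim_eq]
  have h1 : (cdf G).measure {x} = 0 := by
    rw [measure_cdf]
    exact measure_singleton x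
  rw [StieltjesFunction.measure_singleton, ENNReal.ofReal_eq_zero] at h1
  have h2 := (monotone_cdf G).leftLim_le (le_refl x)
  linarith

theorem mex_level (G : Measure ℝ) [IsProbabilityMeasure G] [NullSingletonClass G]
    (h0 : cdf G 0 = 0) {c : ℝ} (hc0 : 0 ≤ c) (hc1 : c < 1) :
    ∃ s : ℝ, 0 ≤ s ∧ cdf G s = c ∧ ∀ t, s < t → c < cdf G t := by
  have hcont := mex_cdf_cont G
  have hcl : IsClosed {t | cdf G t ≤ c} := isClosed_le hcont continuous_const
  have hne : (0 : ℝ) ∈ {t | cdf G t ≤ c} := by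
    rw [Set.mem_ofPred_eq, h0]
    exact hc0
  obtain ⟨b, hb⟩ := Filter.eventually_atTop.mp ((tendsto_cdf_atTop G).eventually (lt_mem_nhds hc1))
  have hbd : BddAbove {t | cdf G t ≤ c} := by
    refine ⟨b, fun t ht => ?_⟩
    by_contra hlt
    exact absurd (hb t (not_le.mp hlt).le) (not_lt.mpr ht)
  have hs := hcl.csSup_mem ⟨0, hne⟩ hbd
  have hgt : ∀ t, sSup {t | cdf G t ≤ c} < t → c < cdf G t := by
    intro t ht
    by_contra hle
    exact absurd (le_csSup hbd (not_lt.mp hle)) (not_le.mpr ht)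
  refine ⟨_, le_csSup hbd hne, le_antisymm hs ?_, hgt⟩
  have hcl2 : IsClosed {t | c ≤ cdf G t} := isClosed_le continuous_const hcont
  have hsub : Set.Ioi (sSup {t | cdf G t ≤ c}) ⊆ {t | c ≤ cdf G t} := fun t ht => (hgt t ht).le
  have := hcl2.closure_subset_iff.mpr hsub
  rw [closure_Ioi] at this
  exact this (Set.mem_Ici.mpr le_rfl)

/-- `t0 = sSup {t | G (Iio t) = 0}`, `M0 = sSup {t | cdf G t ≤ 1 - η'}` with `η' = min η (1/2)`;
the distribution function is continuous because `G` has no atoms. -/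
theorem exists_levels (G : Measure ℝ) [IsProbabilityMeasure G] [NullSingletonClass G]
    (hG : G (Set.Iio 0) = 0) {η : ℝ} (hη : 0 < η) :
    ∃ t0 M0 : ℝ, 0 ≤ t0 ∧ t0 < M0 ∧ G (Set.Iio t0) = 0 ∧
      (∀ κ : ℝ, 0 < κ → 0 < G (Set.Iio (t0 + κ))) ∧
      (∀ κ : ℝ, 0 < κ → 0 < G (Set.Ioo M0 (M0 + κ))) ∧ G.real (Set.Ioi M0) ≤ η := by
  have h0 : cdf G 0 = 0 := by
    rw [cdf_eq_real, Measure.real, ← measure_congr (Iio_ae_eq_Iic (μ := G) (a := 0)), hG,
      ENNReal.toReal_zero]
  have e1 : min η (1 / 2) ≤ 1 / 2 := min_le_right _ _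
  have e2 : min η (1 / 2) ≤ η := min_le_left _ _
  have e3 : 0 < min η (1 / 2) := lt_min hη (by norm_num)
  obtain ⟨t0, ht0, ht1, ht2⟩ := mex_level G h0 le_rfl one_pos
  obtain ⟨M0, -, hM1, hM2⟩ := mex_level G h0 (c := 1 - min η (1 / 2)) (by linarith) (by linarith)
  refine ⟨t0, M0, ht0, ?_, ?_, fun κ hκ => ?_, fun κ hκ => ?_, ?_⟩
  · by_contra hle
    have := monotone_cdf G (not_lt.mp hle)
    linarith
  · refine measure_mono_null Set.Iio_subset_Iic_self ?_
    rw [← ofReal_cdf, ht1, ENNReal.ofReal_zero]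
  · refine lt_of_lt_of_le ?_
      (measure_mono (Set.Iic_subset_Iio.mpr (by linarith : t0 + κ / 2 < t0 + κ)))
    rw [← ofReal_cdf, ENNReal.ofReal_pos]
    exact ht2 _ (by linarith)
  · refine lt_of_lt_of_le ?_
      (measure_mono (Set.Ioc_subset_Ioo_right (by linarith : M0 + κ / 2 < M0 + κ)))
    have h1 := (cdf G).measure_Ioc M0 (M0 + κ / 2)
    rw [measure_cdf] at h1
    rw [h1, ENNReal.ofReal_pos]
    have := hM2 (M0 + κ / 2) (by linarith)
    linarith
  · rw [← Set.compl_Iic, probReal_compl_eq_one_sub measurableSet_Iic, ← cdf_eq_real, hM1]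
    linarith

theorem cap_le (Z z : ℝ) : cap Z z ≤ z := by
  unfold cap
  split_ifs with h
  · exact le_rfl
  · have h1 : 0 < z - Z := by linarith
    have h2 : (z - Z) / (1 + (z - Z)) ≤ z - Z := div_le_self h1.le (by linarith)
    linarith

theorem cap_le_add (Z z : ℝ) : cap Z z ≤ Z + 1 := by
  unfold cap
  split_ifs with h
  · linarith
  · have h1 : 0 < z - Z := by linarith
    have h2 : (z - Z) / (1 + (z - Z)) ≤ 1 := (div_le_one (by linarith)).mpr (by linarith)
    linarith

theorem min_le_cap (Z z : ℝ) : min z Z ≤ cap Z z := by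
  unfold cap
  split_ifs with h
  · exact min_le_left _ _
  · have h1 : 0 < z - Z := by linarith
    have h2 : 0 ≤ (z - Z) / (1 + (z - Z)) := div_nonneg h1.le (by linarith)
    have h3 := min_le_right z Z
    linarith

theorem cap_strictMono (Z : ℝ) : StrictMono (cap Z) := by
  intro a b hab
  unfold cap
  split_ifs with h1 h2 h2
  · exact hab
  · have h3 : 0 < b - Z := by linarith
    have h4 : 0 < (b - Z) / (1 + (b - Z)) := div_pos h3 (by linarith)
    linarith
  · linarith
  · have h3 : 0 < a - Z := by linarith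
    have h4 : (a - Z) / (1 + (a - Z)) < (b - Z) / (1 + (b - Z)) := by
      rw [div_lt_div_iff₀ (by linarith) (by linarith)]
      nlinarith
    linarith

theorem mex_csz (M0 : ℝ) (ω : Env) (x y : V) :
    csz M0 ω s(x, y) = ((clus M0 ω x).ncard : ℝ) + (clus M0 ω y).ncard := rfl

theorem mex_csz_nonneg (M0 : ℝ) (ω : Env) (e : Sym2 V) : 0 ≤ csz M0 ω e := by
  induction e using Sym2.ind with
  | _ x y =>
    rw [mex_csz]
    positivity

theorem mex_meas_ncard (M0 : ℝ) (x : V) :
    Measurable fun ω : Env => ((clus M0 ω x).ncard : ℝ) :=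
  (measurable_from_top (f := fun n : ℕ => (n : ℝ))).comp (measurable_ncard_clus M0 x)

theorem mex_meas_csz (M0 : ℝ) (e : Sym2 V) : Measurable fun ω : Env => csz M0 ω e := by
  induction e using Sym2.ind with
  | _ x y => exact (mex_meas_ncard M0 x).add (mex_meas_ncard M0 y)

theorem mex_meas_cap {f g : Env → ℝ} (hf : Measurable f) (hg : Measurable g) :
    Measurable fun ω => cap (f ω) (g ω) := by
  unfold cap
  exact Measurable.ite (measurableSet_le hg hf) hg
    (hf.add ((hg.sub hf).div (measurable_const.add (hg.sub hf))))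

theorem mex_meas_Psi_apply (t0 M0 : ℝ) (e : Sym2 V) : Measurable fun ω => Psi t0 M0 ω e := by
  unfold Psi
  exact Measurable.ite (measurableSet_le (measurable_pi_apply e) measurable_const)
    ((measurable_pi_apply e).max measurable_const)
    (mex_meas_cap (measurable_const.add (measurable_const.mul (mex_meas_csz M0 e)))
      (measurable_pi_apply e))

theorem mex_ncard_trans (M0 : ℝ) (ω : Env) (v x : V) :
    (clus M0 (trans v ω) x).ncard = (clus M0 ω (x + v)).ncard := by
  rw [clus_trans, Set.ncard_image_of_injective _ (add_left_injective v)]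

theorem mex_Psi_trans (t0 M0 : ℝ) (v : V) (ω : Env) :
    Psi t0 M0 (trans v ω) = trans v (Psi t0 M0 ω) := by
  funext e
  induction e using Sym2.ind with
  | _ x y =>
    have h1 : csz M0 (trans v ω) s(x, y) = csz M0 ω s(x + v, y + v) := by
      rw [mex_csz, mex_csz, mex_ncard_trans, mex_ncard_trans]
    change Psi t0 M0 (trans v ω) s(x, y) = Psi t0 M0 ω s(x + v, y + v)
    unfold Psi
    rw [h1]
    rfl

theorem mex_csz_congr {M0 : ℝ} {ω ω' : Env} (h : SameP M0 ω ω') (e : Sym2 V) :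
    csz M0 ω e = csz M0 ω' e := by
  induction e using Sym2.ind with
  | _ x y => rw [mex_csz, mex_csz, clus_congr h, clus_congr h]

theorem mex_lb {t0 M0 : ℝ} (hM : 0 ≤ M0) (ω : Env) (e : Sym2 V) :
    min (ω e) (M0 + 1) ≤ Psi t0 M0 ω e := by
  unfold Psi
  split_ifs with h
  · exact (min_le_left _ _).trans (le_max_left _ _)
  · refine le_trans (min_le_min_left _ ?_) (min_le_cap _ _)
    have := mul_nonneg (mul_nonneg (by norm_num : (0 : ℝ) ≤ 8) hM) (mex_csz_nonneg M0 ω e)
    linarith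

theorem mex_nonneg {t0 M0 : ℝ} (ht : 0 ≤ t0) (hM : 0 ≤ M0) (ω : Env) (e : Sym2 V) :
    0 ≤ Psi t0 M0 ω e := by
  by_cases h : ω e ≤ M0
  · unfold Psi
    rw [if_pos h]
    exact ht.trans (le_max_right _ _)
  · exact le_trans (le_min (by linarith) (by linarith)) (mex_lb hM ω e)

theorem mex_bound {t0 M0 : ℝ} (ht : t0 ≤ M0) (hM : 0 ≤ M0) (ω : Env) (e : Sym2 V) :
    Psi t0 M0 ω e ≤ M0 + 2 + 8 * M0 * csz M0 ω e := by
  have := mul_nonneg (mul_nonneg (by norm_num : (0 : ℝ) ≤ 8) hM) (mex_csz_nonneg M0 ω e)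
  unfold Psi
  split_ifs with h
  · exact (max_le h ht).trans (by linarith)
  · exact (cap_le_add _ _).trans (by linarith)

theorem mex_meas_sub (M0 : ℝ) (x : V) (S : Set V) :
    MeasurableSet {ω : Env | clus M0 ω x ⊆ S} := by
  have : {ω : Env | clus M0 ω x ⊆ S} = ⋂ y : V, {ω : Env | y ∈ clus M0 ω x}ᶜ ∪ {_ω | y ∈ S} := by
    ext ω
    simp only [Set.mem_ofPred_eq, Set.mem_iInter, Set.mem_union, Set.mem_compl_iff]
    exact forall_congr' fun y => imp_iff_not_or
  rw [this]
  exact MeasurableSet.iInter fun y =>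
    (measurableSet_mem_clus M0 x y).compl.union (MeasurableSet.const _)

theorem mex_PsiL (t0 M0 : ℝ) (r : ℕ) (ω : Env) (x y : V) :
    PsiL t0 M0 r ω s(x, y) =
      if 4 ≤ r ∧ clus M0 ω x ⊆ bx x (r - 4) ∧ clus M0 ω y ⊆ bx y (r - 4) then
        Psi t0 M0 ω s(x, y) else 0 := by
  unfold PsiL
  simp only [Sym2.mem_iff, forall_eq_or_imp, forall_eq]

theorem mex_sub_trans (M0 : ℝ) (ω : Env) (v x : V) (n : ℕ) :
    clus M0 (trans v ω) x ⊆ bx x n ↔ clus M0 ω (x + v) ⊆ bx (x + v) n := by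
  rw [clus_trans, Set.image_subset_iff]
  have : (fun y => y + v) ⁻¹' bx (x + v) n = bx x n := by
    ext y
    simp only [bx, Near, Set.mem_preimage, Set.mem_ofPred_eq, Prod.fst_add, Prod.snd_add]
    omega
  rw [this]

theorem mex_edges_mono {x y : V} {a b c : ℕ} (h : Near c y x) (hab : a + c ≤ b) :
    edgesOf (box y a) ⊆ edgesOf (box x b) := by
  intro e he
  obtain ⟨z, hz, w, hw, rfl⟩ := mem_edgesOf.mp he
  exact mem_edgesOf.mpr ⟨z, mem_box.mpr (((mem_box.mp hz).trans h).mono hab), w, hw, rfl⟩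

theorem mex_loc_dep (t0 M0 : ℝ) (r : ℕ) (x y : V) (ω ω' : Env) (hxy : Adj x y)
    (h : ∀ e ∈ edgesOf (box x r), ω e = ω' e) :
    PsiL t0 M0 r ω s(x, y) = PsiL t0 M0 r ω' s(x, y) := by
  have key : ∀ ω ω' : Env, (∀ e ∈ edgesOf (box x r), ω e = ω' e) →
      (4 ≤ r ∧ clus M0 ω x ⊆ bx x (r - 4) ∧ clus M0 ω y ⊆ bx y (r - 4)) →
      clus M0 ω' x = clus M0 ω x ∧ clus M0 ω' y = clus M0 ω y := by
    rintro ω ω' h ⟨h4, hx, hy⟩
    refine ⟨clus_local (fun e he => h e ?_) hx, clus_local (fun e he => h e ?_) hy⟩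
    · exact mex_edges_mono (Near.refl 0 x) (by omega) he
    · exact mex_edges_mono hxy.symm.near (by omega) he
  rw [mex_PsiL, mex_PsiL]
  by_cases h1 : 4 ≤ r ∧ clus M0 ω x ⊆ bx x (r - 4) ∧ clus M0 ω y ⊆ bx y (r - 4)
  · obtain ⟨k1, k2⟩ := key ω ω' h h1
    have h2 : ω s(x, y) = ω' s(x, y) :=
      h _ (mem_edgesOf.mpr ⟨x, mem_box.mpr (Near.refl r x), y, hxy, rfl⟩)
    rw [k1, k2, if_pos h1, if_pos h1]
    unfold Psi
    rw [mex_csz, mex_csz, k1, k2, h2]
  · rw [if_neg h1, if_neg]
    intro h2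
    obtain ⟨k1, k2⟩ := key ω' ω (fun e he => (h e he).symm) h2
    rw [k1, k2] at h1
    exact h1 h2

/-- `Ψ = Psi t0 M0`, `loc = PsiL t0 M0`; `m` is the larger of the two means (horizontal and
vertical edge at the origin, `trans_mp`), `C' = 32 C + 16`. -/
theorem exists_model (G : Measure ℝ) [IsProbabilityMeasure G] [NullSingletonClass G]
    (hG : G (Set.Iio 0) = 0) {η : ℝ} (hη : 0 < η) :
    ∃ M : Model, M.G = G ∧ M.Ψ = Psi M.t0 M.M0 ∧ G.real (Set.Ioi M.M0) ≤ η ∧
      ∀ᵐ ω ∂(PP G), ∀ x, (clus M.M0 ω x).Finite := by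
  obtain ⟨η0, C, hη0, hC, htail⟩ := clus_tail
  obtain ⟨t0, M0, ht0, htM, h1, h2, h3, h4⟩ := exists_levels G hG (lt_min hη hη0)
  have hM : 0 ≤ M0 := ht0.trans htM.le
  have ht := htail G M0 (h4.trans (min_le_right _ _))
  have hint := integrable_ncard_clus ht
  have hb : ∀ x y : V, Integrable (fun ω => M0 + 2 + 8 * M0 * csz M0 ω s(x, y)) (PP G) :=
    fun x y => (integrable_const _).add (((hint x).add (hint y)).const_mul _)
  have hI : ∀ x y : V, Integrable (fun ω => Psi t0 M0 ω s(x, y)) (PP G) := fun x y =>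
    (hb x y).mono' (mex_meas_Psi_apply t0 M0 _).aestronglyMeasurable
      (Filter.Eventually.of_forall fun ω => by
        rw [Real.norm_of_nonneg (mex_nonneg ht0 hM ω _)]
        exact mex_bound htM.le hM ω _)
  have hmean : ∀ x : V, ∫ ω, ((clus M0 ω x).ncard : ℝ) ∂(PP G) =
      ∫ ω, ((clus M0 ω 0).ncard : ℝ) ∂(PP G) := by
    intro x
    have e1 := integral_map (μ := PP G) (φ := trans x) (trans_mp G x).measurable.aemeasurable
      (mex_meas_ncard M0 0).aestronglyMeasurable
    rw [(trans_mp G x).map_eq] at e1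
    rw [e1]
    simp only [mex_ncard_trans, zero_add]
  refine ⟨{
    G := G
    prob := inferInstance
    atom := inferInstance
    t0 := t0
    M0 := M0
    m := M0 + 2 + 8 * M0 * (2 * ∫ ω, ((clus M0 ω 0).ncard : ℝ) ∂(PP G))
    C := 32 * C + 16
    Ψ := Psi t0 M0
    loc := PsiL t0 M0
    t0_nonneg := ht0
    t0_lt := htM
    below := h1
    acc0 := h2
    acc1 := h3
    meas := measurable_pi_lambda _ (mex_meas_Psi_apply t0 M0)
    cov := mex_Psi_trans t0 M0
    light := fun ω e h => if_pos h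
    lb := mex_lb hM
    ub := fun ω e => ?_
    mono := fun ω ω' h e he => ?_
    strict := fun ω ω' h e h0 he => ?_
    integ := fun x y _ => hI x y
    mean := fun x y _ => ?_
    loc_meas := fun r => measurable_pi_lambda _ fun e => ?_
    loc_cov := fun r v ω => ?_
    loc_nonneg := fun r ω e => ?_
    loc_le := fun r ω e => ?_
    loc_dep := fun r x y ω ω' hxy h => mex_loc_dep t0 M0 r x y ω ω' hxy h
    loc_prob := fun r x y _ => ?_ }, rfl, rfl, h4.trans (min_le_left _ _), clus_finite_ae ht⟩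
  · unfold Psi
    split_ifs
    · exact le_rfl
    · exact (cap_le _ _).trans (le_max_left _ _)
  · unfold Psi
    by_cases h5 : ω e ≤ M0
    · rw [if_pos h5, if_pos ((h e).mp h5)]
      exact max_le_max_right _ he
    · rw [if_neg h5, if_neg fun h6 => h5 ((h e).mpr h6), mex_csz_congr h]
      exact (cap_strictMono _).monotone he
  · unfold Psi
    by_cases h5 : ω e ≤ M0
    · rw [if_pos h5, if_pos ((h e).mp h5), max_eq_left h0]
      exact he.trans_le (le_max_left _ _)
    · rw [if_neg h5, if_neg fun h6 => h5 ((h e).mpr h6), mex_csz_congr h]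
      exact cap_strictMono _ he
  · refine (integral_mono (hI x y) (hb x y) fun ω => mex_bound htM.le hM ω _).trans (le_of_eq ?_)
    have hc : Integrable (fun ω => csz M0 ω s(x, y)) (PP G) := (hint x).add (hint y)
    rw [integral_add (integrable_const _) (hc.const_mul _), integral_const, integral_const_mul]
    simp only [mex_csz]
    rw [integral_add (hint x) (hint y), hmean x, hmean y]
    simp only [probReal_univ, smul_eq_mul]
    ring
  · induction e using Sym2.ind with
    | _ x y =>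
      simp only [mex_PsiL]
      exact Measurable.ite ((MeasurableSet.const _).inter
        ((mex_meas_sub M0 x _).inter (mex_meas_sub M0 y _))) (mex_meas_Psi_apply t0 M0 _)
        measurable_const
  · funext e
    induction e using Sym2.ind with
    | _ x y =>
      change PsiL t0 M0 r (trans v ω) s(x, y) = PsiL t0 M0 r ω s(x + v, y + v)
      rw [mex_PsiL, mex_PsiL, mex_sub_trans, mex_sub_trans, mex_Psi_trans]
      rfl
  · unfold PsiL
    split_ifs
    · exact mex_nonneg ht0 hM ω e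
    · exact le_rfl
  · unfold PsiL
    split_ifs
    · exact le_rfl
    · exact mex_nonneg ht0 hM ω e
  · have hp : (0 : ℝ) < (1 / 2) ^ r := by positivity
    by_cases h4r : 4 ≤ r
    · have hsub : {ω | PsiL t0 M0 r ω s(x, y) ≠ Psi t0 M0 ω s(x, y)} ⊆
          {ω | ¬ clus M0 ω x ⊆ bx x (r - 4)} ∪ {ω | ¬ clus M0 ω y ⊆ bx y (r - 4)} := by
        intro ω hω
        by_contra hn
        rw [Set.mem_union, not_or, Set.mem_ofPred_eq, Set.mem_ofPred_eq, not_not, not_not] at hn
        rw [Set.mem_ofPred_eq, mex_PsiL, if_pos ⟨h4r, hn⟩] at hω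
        exact hω rfl
      have e1 := (measureReal_mono (μ := PP G) hsub).trans (measureReal_union_le _ _)
      have e2 := ht (r - 4) x
      have e3 := ht (r - 4) y
      have e4 : ((1 : ℝ) / 2) ^ (r - 4) = 16 * (1 / 2) ^ r := by
        obtain ⟨k, rfl⟩ := Nat.exists_eq_add_of_le' h4r
        rw [Nat.add_sub_cancel, pow_add]
        ring
      rw [e4] at e2 e3
      nlinarith
    · have e1 : (PP G).real {ω | PsiL t0 M0 r ω s(x, y) ≠ Psi t0 M0 ω s(x, y)} ≤ 1 :=
        measureReal_le_one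
      have e2 : ((1 : ℝ) / 2) ^ 4 ≤ (1 / 2) ^ r :=
        pow_le_pow_of_le_one (by norm_num) (by norm_num) (by omega)
      have e3 := mul_pos hC hp
      nlinarith

end Vale.Agent.P158b
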