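import Vale.Agent.P158b.Cross
import Vale.Agent.P158b.PathC

/-! The Monge inequality and telescoping sums. -/

open MeasureTheory ProbabilityTheory Finset
open scoped Classical

namespace Vale.Agent.P158b

/-- minimal paths `bv α → bv β` and `bv (α+1) → bv (β+1)` cross; `T_split` and triangle -/
theorem Dm_nonneg {t : Env} (ht : ∀ e, 0 ≤ t e) {N : ℕ} (hN : 1 ≤ N) {α β : ℤ} (h1 : α + 1 ≤ β)
    (h2 : β + 1 ≤ α + 8 * N) : 0 ≤ Dm t N α β := by
  have hb : ∀ γ : ℤ, Near N (bv N γ) 0 := fun γ => (bv_bd hN γ).1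
  obtain ⟨p, hp, hpw⟩ := exists_min (bx_finite 0 N) t (reach_bx (hb α) (hb β))
  obtain ⟨q, hq, hqw⟩ := exists_min (bx_finite 0 N) t (reach_bx (hb (α + 1)) (hb (β + 1)))
  obtain ⟨i, j, hi, hj, hij⟩ := cross hN (α1 := α) (α2 := α + 1) (α3 := β) (α4 := β + 1)
    (by omega) h1 (by omega) h2 hp.chain hq.chain hp.start hp.stop hq.start hq.stop
  have hz : Near N (vx p i) 0 := hp.chain.2 i (Nat.zero_le _) hi
  have e1 := T_split ht hp hpw (z := vx p i) ⟨i, hi, rfl⟩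
  have e2 := T_split ht hq hqw (z := vx p i) ⟨j, hj, hij.symm⟩
  have e3 := T_triangle ht (reach_bx (hb α) hz) (reach_bx hz (hb (β + 1)))
  have e4 := T_triangle ht (reach_bx (hb (α + 1)) hz) (reach_bx hz (hb β))
  unfold Dm
  linarith

private theorem tele (f : ℤ → ℝ) {a b : ℤ} (h : a ≤ b) :
    ∑ k ∈ Ico a b, (f (k + 1) - f k) = f b - f a := by
  induction b, h using Int.leInduction with
  | base => rw [Ico_self, sum_empty, sub_self]
  | succ n hn ih =>
    have e : Ico a (n + 1) = insert n (Ico a n) := by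
      ext k
      rw [mem_insert, mem_Ico, mem_Ico]
      omega
    rw [e, sum_insert (by rw [mem_Ico]; omega), ih]
    ring

theorem Dm_rect (t : Env) (N : ℕ) {α1 α2 β1 β2 : ℤ} (ha : α1 ≤ α2) (hb : β1 ≤ β2) :
    ∑ α ∈ Ico α1 α2, ∑ β ∈ Ico β1 β2, Dm t N α β =
      T (bx 0 N) t (bv N α1) (bv N β1) + T (bx 0 N) t (bv N α2) (bv N β2) -
        T (bx 0 N) t (bv N α1) (bv N β2) - T (bx 0 N) t (bv N α2) (bv N β1) := by
  obtain ⟨F, hF⟩ : ∃ F : ℤ → ℤ → ℝ, ∀ α β, F α β = T (bx 0 N) t (bv N α) (bv N β) :=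
    ⟨_, fun _ _ => rfl⟩
  have hrow : ∀ α : ℤ, ∑ β ∈ Ico β1 β2, Dm t N α β =
      (F (α + 1) β2 - F (α + 1) β1) - (F α β2 - F α β1) := by
    intro α
    have h := tele (fun β => F (α + 1) β - F α β) hb
    have e : ∑ β ∈ Ico β1 β2, Dm t N α β =
        ∑ β ∈ Ico β1 β2, ((F (α + 1) (β + 1) - F α (β + 1)) - (F (α + 1) β - F α β)) := by
      refine sum_congr rfl fun β _ => ?_
      unfold Dm
      rw [hF, hF, hF, hF]
      ring
    rw [e, h]
    ring
  rw [sum_congr rfl fun α _ => hrow α, tele (fun α => F α β2 - F α β1) ha, hF, hF, hF, hF]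
  ring

theorem Dm_row {t : Env} (ht : ∀ e, 0 ≤ t e) {N : ℕ} (hN : 1 ≤ N) (α : ℤ) :
    ∑ β ∈ Ico (α + 1) (α + 8 * N), Dm t N α β ≤ 2 * t s(bv N α, bv N (α + 1)) := by
  have h := Dm_rect t N (α1 := α) (α2 := α + 1) (β1 := α + 1) (β2 := α + 8 * N) (by omega)
    (by omega)
  have e : Ico α (α + 1) = {α} := by
    ext k
    rw [mem_Ico, mem_singleton]
    omega
  have e1 : bv N (α + 8 * N) = bv N α := by
    have h1 := bv_period N α 1
    rwa [mul_one] at h1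
  have hb : ∀ γ : ℤ, bv N γ ∈ bx 0 N := fun γ => (bv_bd hN γ).1
  rw [e, sum_singleton, e1, T_self ht (hb α), T_self ht (hb (α + 1)),
    T_symm _ ht (bv N (α + 1)) (bv N α)] at h
  have h2 := T_adj_le ht (hb α) (hb (α + 1)) (bv_adj hN α)
  linarith

end Vale.Agent.P158b
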