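import Vale.Agent.P158b.Exc

/-! Influential edges close to a reference are few. -/

open MeasureTheory ProbabilityTheory Finset
open scoped Classical

namespace Vale.Agent.P158b

theorem near_mem {S : Set V} {a b v : V} {l : List V} (h : IsPth S a b l) (hv : On l v) :
    v ∈ S := by
  obtain ⟨i, hi, rfl⟩ := hv
  exact h.chain.2 i (Nat.zero_le _) hi

theorem near_start {S : Set V} {a b : V} {l : List V} (h : IsPth S a b l) : a ∈ S :=
  near_mem h ⟨0, Nat.zero_le _, h.start⟩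

theorem near_stop {S : Set V} {a b : V} {l : List V} (h : IsPth S a b l) : b ∈ S :=
  near_mem h ⟨_, le_rfl, h.stop⟩

theorem near_tri {t : Env} (ht : ∀ e, 0 ≤ t e) {N : ℕ} {x y z : V} (hx : Near N x 0)
    (hy : Near N y 0) (hz : Near N z 0) :
    T (bx 0 N) t x z ≤ T (bx 0 N) t x y + T (bx 0 N) t y z :=
  T_triangle ht (reach_bx hx hy) (reach_bx hy hz)

theorem near_not_out {n N : ℕ} {x : V} (h : Near n x 0) (hn : n < N) : ¬ Out 0 N x := by
  simp only [Near, Out, Prod.fst_zero, Prod.snd_zero] at h ⊢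
  omega

/-- With `f z = T z b' - T z b`: the hypothesis says `f a < f w`; if a minimal path from `w` to `b`
met `p` at `v` then `f w ≤ f v ≤ f a` (`T_split`, triangle inequality). -/
theorem sat_of_xo {t : Env} (ht : ∀ e, 0 ≤ t e) {N l0 : ℕ} {a b b' x w y : V} (hb : Near N b 0)
    (hx : Near N x 0) (hw : Near N w 0) (hxw : Adj x w) {p : List V}
    (hp : IsGeo (bx 0 N) t a b' p) (hy : On p y) (hwy : Near l0 w y) (h1 : xo t N a b x w < 1)
    (h2 : xo t N a b x w < xo t N a b' x w) : Sat t N a b p l0 w := by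
  have ha : Near N a 0 := near_start hp.1
  have hb' : Near N b' 0 := near_stop hp.1
  obtain ⟨τ, hτ, hwτ⟩ := exists_min (bx_finite 0 N) t (reach_bx hw hb)
  unfold xo at h1 h2
  refine ⟨⟨y, hy, hwy⟩, ⟨τ, hτ, hwτ, fun v hv hv' => ?_⟩, ?_⟩
  · have hv0 : Near N v 0 := near_mem hτ hv
    have e1 := T_split ht hτ hwτ hv
    have e2 := T_split ht hp.1 (hp.wt_eq ht) hv'
    have e3 := near_tri ht hw hv0 hb'
    have e4 := near_tri ht ha hv0 hb
    linarith
  · have e1 := near_tri ht ha hx hw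
    have e2 := T_adj_le (S := bx 0 N) ht hx hw hxw
    linarith

/-- Follow the staircase from `w` to `y` until it first meets `p`, at position `j`; reversed and
followed by `τ` it is a walk in `exD N p j`; its edges are in `edgesOf (box w l0)`. -/
theorem tie_of_sat {t : Env} (ht : ∀ e, 0 ≤ t e) {N l0 : ℕ} {a b b' w : V} {p : List V} {M1 : ℝ}
    (hM : 0 ≤ M1) (hp : IsGeo (bx 0 N) t a b' p) (hw : Sat t N a b p l0 w)
    (hl : ∀ e ∈ edgesOf (box w l0), t e ≤ M1) :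
    ∃ j, j ≤ len p ∧ Near l0 (vx p j) w ∧ Reach (exD N p j) (vx p j) b ∧
      W t (vx p) 0 j + ex t N p b j ≤ T (bx 0 N) t a b + (1 + 4 * l0 * M1) := by
  obtain ⟨⟨y, hy, hwy⟩, ⟨τ, hτ, hwτ, hav⟩, h3⟩ := hw
  have hw0 : Near N w 0 := near_start hτ
  have c1 := stair_chain hw0 (near_mem hp.1 hy)
  have c2 := stair_chain (Near.refl l0 w) hwy.symm
  have hex : ∃ k, On p (stair w y k) := ⟨dl1 w y, by rwa [stair_end]⟩
  have hk : Nat.find hex ≤ dl1 w y := Nat.find_min' hex (by rwa [stair_end])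
  have hmin := fun m => Nat.find_min hex (m := m)
  obtain ⟨j, hj, e⟩ := Nat.find_spec hex
  generalize Nat.find hex = k at hk hmin e
  have c3 : Chain (exD N p j) (stair w y) 0 k := ⟨fun i h0 hi => c1.1 i h0 (by omega),
    fun i h0 hi => ⟨c1.2 i h0 (by omega), (Nat.lt_or_eq_of_le hi).imp (hmin i) fun h => by
      rw [h, e]⟩⟩
  have hτ' : IsPth (exD N p j) w b τ := ⟨hτ.ne, hτ.start, hτ.stop, ⟨hτ.chain.1, fun i h0 hi =>
    ⟨hτ.chain.2 i h0 hi, Or.inl (hav _ ⟨i, hi, rfl⟩)⟩⟩, hτ.inj⟩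
  have r1 := reach_of_chain (Nat.zero_le k) c3
  have t1 := T_le_W ht (Nat.zero_le k) c3
  have t2 := T_le_W ht (Nat.zero_le k) (c1.mono subset_rfl le_rfl hk)
  rw [stair_zero, ← e] at r1 t1 t2
  have t3 := T_triangle ht r1.symm ⟨τ, hτ'⟩
  have t4 := T_le_wt ht hτ'
  have t5 := W_eq_T ht hp.1 (hp.wt_eq ht) (Nat.zero_le j) hj
  have t6 := near_tri ht (near_start hp.1) hw0 (near_mem hp.1 ⟨j, hj, rfl⟩)
  rw [hp.1.start] at t5
  rw [T_symm _ ht] at t1
  have t7 : W t (stair w y) 0 k ≤ 2 * l0 * M1 := by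
    have h1 := sum_le_card_nsmul (Ico 0 k) (fun i => t s(stair w y i, stair w y (i + 1))) M1
      fun i hi => hl _ (mem_edgesOf.2 ⟨_, mem_box.2 (c2.2 i (Nat.zero_le _)
        (by have := (mem_Ico.1 hi).2; omega)), _, c3.1 i (Nat.zero_le _) (mem_Ico.1 hi).2, rfl⟩)
    rw [Nat.card_Ico, nsmul_eq_mul] at h1
    refine h1.trans (mul_le_mul_of_nonneg_right ?_ hM)
    exact_mod_cast (hk.trans (dl1_le hwy) : k ≤ 2 * l0)
  refine ⟨j, hj, e ▸ c2.2 k (Nat.zero_le _) hk, r1.symm.trans ⟨τ, hτ'⟩, ?_⟩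
  unfold ex
  linarith

theorem near_block {t : Env} (ht : ∀ e, 0 ≤ t e) {N L n : ℕ} (hn : n + L < N)
    (hU : Uniq (bx 0 N) t) {a b b' : V} (hb : Bd 0 N b) (hb' : Bd 0 N b') {p : List V}
    (hp : IsGeo (bx 0 N) t a b' p) {K ε : ℝ} (D : Finset ℕ)
    (hD : ∀ j ∈ D, j ≤ len p ∧ Near n (vx p j) 0 ∧ ¬ Tie t N L K ε (vx p j) ∧
      Reach (exD N p j) (vx p j) b ∧ W t (vx p) 0 j + ex t N p b j ≤ T (bx 0 N) t a b + K)
    {j : ℕ} (hj : j ∈ D) (h : ∀ i ∈ D, j ≤ i ∧ i ≤ j + L) : (D.card : ℝ) ≤ ε * L := by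
  obtain ⟨h1, h2, h3, h4, h5⟩ := hD j hj
  have hnear : ∀ i, j ≤ i → i ≤ len p → Near (i - j + n) (vx p i) 0 := fun i hi hi' =>
    (hp.1.chain.near (Nat.zero_le j) hi hi').symm.trans h2
  have hL : j + L ≤ len p := by
    by_contra hc
    have := hnear _ h1 le_rfl
    rw [hp.1.stop] at this
    exact near_not_out this (by omega) hb'.2
  have hv : ∀ i, i ≤ L → vx (seg p j (j + L)) i = vx p (j + i) := fun i hi =>
    vx_seg p (by omega)
  have hlen : len (seg p j (j + L)) = L := by rw [len_seg]; omega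
  have hsub : ∀ i, i ≤ L → exD N p (j + i) ⊆ exD N (seg p j (j + L)) i := fun i hi v hv' =>
    ⟨hv'.1, hv'.2.imp (fun h0 ⟨m, hm, e⟩ => h0 ⟨j + m, by omega, by rw [← e, hv m (by omega)]⟩)
      fun h0 => by rw [hv i hi, h0]⟩
  have hW : ∀ i, i ≤ L → W t (vx p) 0 j + W t (vx (seg p j (j + L))) 0 i = W t (vx p) 0 (j + i) :=
    fun i hi => by
      rw [← W_add t (vx p) (Nat.zero_le j) (Nat.le_add_right j i), ← W_shift t (vx p) j,
        Nat.add_sub_cancel_left]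
      refine congrArg _ (sum_congr rfl fun m hm => ?_)
      have := (mem_Ico.1 hm).2
      rw [hv m (by omega), hv (m + 1) (by omega)]
  have hR : ∀ i, i ≤ L → Reach (exD N p (j + i)) (vx p (j + i)) b →
      Reach (exD N (seg p j (j + L)) i) (vx (seg p j (j + L)) i) b ∧
        ex t N (seg p j (j + L)) b i ≤ ex t N p b (j + i) := fun i hi hr => by
    unfold ex
    rw [hv i hi]
    exact ⟨hr.imp fun l hl => hl.mono (hsub i hi), T_mono_set ht (hsub i hi) hr⟩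
  have hT : ∀ i, i ≤ L → Reach (exD N (seg p j (j + L)) i) (vx (seg p j (j + L)) i) b →
      T (bx 0 N) t a b ≤ W t (vx p) 0 (j + i) + ex t N (seg p j (j + L)) b i := fun i hi hr => by
    have t1 := T_mono_set (S' := bx 0 N) ht (fun v hv => hv.1) hr
    have t2 := W_eq_T ht hp.1 (hp.wt_eq ht) (Nat.zero_le (j + i)) (by omega)
    have t3 := near_tri ht (near_start hp.1) (near_mem hp.1 ⟨j + i, by omega, rfl⟩) hb.1
    rw [hp.1.start] at t2
    unfold ex
    rw [hv i hi] at t1 ⊢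
    linarith
  have r0 := hR 0 (Nat.zero_le _) h4
  have t0 := hT 0 (Nat.zero_le _) r0.1
  rw [add_zero] at r0 t0
  by_contra hc
  refine h3 ⟨_, _, b, hp.seg ht hU (Nat.le_add_right j L) hL, hlen, fun i hi => ?_, hb, r0.1,
    fun i hi hr => ?_, (not_le.1 hc).le.trans ?_⟩
  · rw [hv i hi]
    exact near_not_out (hnear _ (by omega) (by omega)) (by omega)
  · linarith [hT i hi hr, hW i hi, r0.2]
  · refine Nat.cast_le.2 (card_le_card_of_injOn (fun i => i - j) (fun i hi => ?_)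
      fun i hi i' hi' e => ?_)
    · obtain ⟨m, rfl⟩ := Nat.exists_eq_add_of_le (h i hi).1
      have hm : m ≤ L := by have := (h _ hi).2; omega
      obtain ⟨-, -, -, g4, g5⟩ := hD _ hi
      simp only [Nat.add_sub_cancel_left, coe_filter, mem_range, Set.mem_ofPred_eq]
      exact ⟨by omega, (hR m hm g4).1, by linarith [hW m hm, (hR m hm g4).2]⟩
    · have a1 := (h i hi).1
      have a2 := (h i' hi').1
      simp only at e
      omega

/-- Cut `[0, len p]` into blocks of length `L`. If `j` is the first position of `D` in a block,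
`π = seg p j (j + L)` is a geodesic in the open box (`j + L ≤ len p` since `b'` is on the boundary),
`exD N p (j+i) ⊆ exD N π i ⊆ bx 0 N`, so `¬ Tie` leaves fewer than `ε L` positions of `D` in
`[j, j + L]`. -/
theorem card_ties {t : Env} (ht : ∀ e, 0 ≤ t e) {N L n : ℕ} (hL : 1 ≤ L) (hn : n + L < N)
    (hU : Uniq (bx 0 N) t) {a b b' : V} (hb : Bd 0 N b) (hb' : Bd 0 N b') {p : List V}
    (hp : IsGeo (bx 0 N) t a b' p) {K ε : ℝ} (hε : 0 ≤ ε) (D : Finset ℕ)
    (hD : ∀ j ∈ D, j ≤ len p ∧ Near n (vx p j) 0 ∧ ¬ Tie t N L K ε (vx p j) ∧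
      Reach (exD N p j) (vx p j) b ∧ W t (vx p) 0 j + ex t N p b j ≤ T (bx 0 N) t a b + K) :
    (D.card : ℝ) ≤ ε * (len p + L) := by
  rw [card_eq_sum_card_fiberwise (f := fun i => i / L) (t := range (len p / L + 1)) fun i hi =>
    mem_coe.2 (mem_range.2 (Nat.lt_succ_of_le (Nat.div_le_div_right (hD i hi).1))), Nat.cast_sum]
  refine (sum_le_card_nsmul _ _ (ε * L) fun m _ => ?_).trans ?_
  · rcases (D.filter fun i => i / L = m).eq_empty_or_nonempty with h | h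
    · rw [h, card_empty, Nat.cast_zero]
      positivity
    · refine near_block ht hn hU hb hb' hp _ (fun i hi => hD i (mem_filter.1 hi).1)
        (min'_mem _ h) fun i hi => ⟨min'_le _ _ hi, ?_⟩
      have h1 := (mem_filter.1 hi).2
      have h2 := (mem_filter.1 (min'_mem _ h)).2
      have h3 := Nat.lt_div_mul_add (a := i) hL
      have h4 := Nat.div_mul_le_self (min' _ h) L
      rw [h1] at h3
      rw [h2] at h4
      omega
  · rw [card_range, nsmul_eq_mul, mul_left_comm]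
    refine mul_le_mul_of_nonneg_left ?_ hε
    have := Nat.div_mul_le_self (len p) L
    exact_mod_cast (by rw [add_mul]; omega : (len p / L + 1) * L ≤ len p + L)

theorem card_sat {t : Env} (ht : ∀ e, 0 ≤ t e) {N L l0 n : ℕ} (hL : 1 ≤ L)
    (hn : n + l0 + L < N) (hU : Uniq (bx 0 N) t) {a b b' : V} (hb : Bd 0 N b) (hb' : Bd 0 N b')
    {p : List V} (hp : IsGeo (bx 0 N) t a b' p) {M1 ε : ℝ} (hM : 0 ≤ M1) (hε : 0 ≤ ε)
    (D : Finset V) (hD : ∀ w ∈ D, Near n w 0 ∧ Sat t N a b p l0 w ∧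
      (∀ e ∈ edgesOf (box w l0), t e ≤ M1) ∧
      ∀ z, Near l0 z w → ¬ Tie t N L (1 + 4 * l0 * M1) ε z) :
    (D.card : ℝ) ≤ (2 * l0 + 1) ^ 2 * (ε * (len p + L)) := by
  set D' := (range (len p + 1)).filter fun j => Near (l0 + n) (vx p j) 0 ∧
    ¬ Tie t N L (1 + 4 * l0 * M1) ε (vx p j) ∧ Reach (exD N p j) (vx p j) b ∧
      W t (vx p) 0 j + ex t N p b j ≤ T (bx 0 N) t a b + (1 + 4 * l0 * M1) with hD'
  have h1 := card_ties ht hL (n := l0 + n) (by omega) hU hb hb' hp hε D' fun j hj =>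
    ⟨Nat.le_of_lt_succ (mem_range.1 (mem_filter.1 hj).1), (mem_filter.1 hj).2⟩
  have h2 : D ⊆ thick l0 (D'.image (vx p)) := fun w hw => by
    obtain ⟨g1, g2, g3, g4⟩ := hD w hw
    obtain ⟨j, j1, j2, j3, j4⟩ := tie_of_sat ht hM hp g2 g3
    exact mem_thick.2 ⟨_, mem_image_of_mem _ (mem_filter.2
      ⟨mem_range.2 (Nat.lt_succ_of_le j1), j2.trans g1, g4 _ j2, j3, j4⟩), j2.symm⟩
  have h3 := (card_le_card h2).trans ((card_thick _ _).trans
    (Nat.mul_le_mul_left _ card_image_le))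
  refine le_trans ?_ (mul_le_mul_of_nonneg_left h1 (by positivity))
  exact_mod_cast h3

/-- Both references. `dl_pos` gives an orientation `x' → w'`; if the edge is close to `p` then `w'`
is a satellite of `p` (root `a`, target `b`), if it is close to `q` then `x'` is a satellite of
`rev q` (root `b`, target `a`; `xo_symm`). A vertex has four edges. -/
theorem card_near {t : Env} (ht : ∀ e, 0 ≤ t e) {N L l0 : ℕ} (hL : 1 ≤ L)
    (hn : N / 8 + 1 + l0 + L < N) (hU : Uniq (bx 0 N) t) {c : ℤ × ℤ} {p q : List V}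
    (hp : IsGeo (bx 0 N) t (bv N c.1) (bv N (c.2 + 1)) p)
    (hq : IsGeo (bx 0 N) t (bv N (c.1 + 1)) (bv N c.2) q) {M1 ε κ : ℝ} (hM : 0 ≤ M1) (hε : 0 ≤ ε)
    (hκ : κ ≤ 1) (D : Finset (Sym2 V))
    (hD : ∀ e ∈ D, e ∈ bulk N ∧ κ ≤ t e ∧ 0 < dl t N κ c e ∧
      (∃ y, (On p y ∨ On q y) ∧ ∀ v ∈ e, Near l0 v y) ∧
      ∀ v ∈ e, (∀ e' ∈ edgesOf (box v l0), t e' ≤ M1) ∧
        ∀ z, Near l0 z v → ¬ Tie t N L (1 + 4 * l0 * M1) ε z) :
    (D.card : ℝ) ≤ 4 * (2 * l0 + 1) ^ 2 * (ε * (len p + len q + 2 * L)) := by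
  have hN : 1 ≤ N := by omega
  have hq' := hq.rev ht hU
  set D1 := (box 0 (1 + N / 8)).filter fun w => Sat t N (bv N c.1) (bv N c.2) p l0 w ∧
    (∀ e ∈ edgesOf (box w l0), t e ≤ M1) ∧
      ∀ z, Near l0 z w → ¬ Tie t N L (1 + 4 * l0 * M1) ε z with hD1
  set D2 := (box 0 (1 + N / 8)).filter fun w => Sat t N (bv N c.2) (bv N c.1) (rev q) l0 w ∧
    (∀ e ∈ edgesOf (box w l0), t e ≤ M1) ∧
      ∀ z, Near l0 z w → ¬ Tie t N L (1 + 4 * l0 * M1) ε z with hD2
  have h1 := card_sat ht hL (n := 1 + N / 8) (by omega) hU (bv_bd hN _) (bv_bd hN _) hp hM hε D1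
    fun w hw => ⟨mem_box.1 (mem_filter.1 hw).1, (mem_filter.1 hw).2⟩
  have h2 := card_sat ht hL (n := 1 + N / 8) (by omega) hU (bv_bd hN _) (bv_bd hN _) hq' hM hε D2
    fun w hw => ⟨mem_box.1 (mem_filter.1 hw).1, (mem_filter.1 hw).2⟩
  have h3 : D ⊆ edgesOf D1 ∪ edgesOf D2 := fun e he => by
    obtain ⟨g1, g2, g3, ⟨y, hy, g4⟩, g5⟩ := hD e he
    obtain ⟨x, hx, w, hxw, rfl⟩ := mem_edgesOf.1 g1
    have hx1 : Near (1 + N / 8) x 0 := (mem_box.1 hx).mono (by omega)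
    have hw1 : Near (1 + N / 8) w 0 := hxw.symm.near.trans (mem_box.1 hx)
    obtain ⟨x', w', ho, k1, k2, k3⟩ :=
      dl_pos ht hN (hx1.mono (by omega)) (hw1.mono (by omega)) hxw g2 g3
    obtain ⟨a1, a2, a3, a4⟩ : Near (1 + N / 8) x' 0 ∧ Near (1 + N / 8) w' 0 ∧ Adj x' w' ∧
        s(x, w) = s(x', w') := by
      rcases ho with ⟨rfl, rfl⟩ | ⟨rfl, rfl⟩
      exacts [⟨hx1, hw1, hxw, rfl⟩, ⟨hw1, hx1, hxw.symm, Sym2.eq_swap⟩]
    rw [a4] at g4 g5 ⊢
    rcases hy with hy | hy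
    · exact mem_union_left _ (mem_edgesOf.2 ⟨w', mem_filter.2 ⟨mem_box.2 a2,
        sat_of_xo ht (bv_bd hN _).1 (a1.mono (by omega)) (a2.mono (by omega)) a3 hp hy
          (g4 _ (Sym2.mem_mk_right _ _)) (k1.trans_le hκ) k2, g5 _ (Sym2.mem_mk_right _ _)⟩,
        x', a3.symm, Sym2.eq_swap⟩)
    · rw [xo_symm ht] at k1
      rw [xo_symm ht, xo_symm ht N (bv N (c.1 + 1))] at k3
      exact mem_union_right _ (mem_edgesOf.2 ⟨x', mem_filter.2 ⟨mem_box.2 a1,
        sat_of_xo ht (bv_bd hN _).1 (a2.mono (by omega)) (a1.mono (by omega)) a3.symm hq'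
          (on_rev.2 hy) (g4 _ (Sym2.mem_mk_left _ _)) (k1.trans_le hκ) k3,
        g5 _ (Sym2.mem_mk_left _ _)⟩, w', a3, rfl⟩)
  have h4 : (D.card : ℝ) ≤ 4 * D1.card + 4 * D2.card := by
    exact_mod_cast (card_le_card h3).trans ((card_union_le _ _).trans
      (add_le_add (card_edgesOf _) (card_edgesOf _)))
  rw [len_rev] at h2
  linarith

end Vale.Agent.P158b
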