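import Vale.Agent.P158b.Timar
import Vale.Agent.P158b.ModelEx
import Vale.Agent.P158b.PathC

/-! Bigeodesics survive the truncation. -/

open MeasureTheory ProbabilityTheory Finset
open scoped Classical

namespace Vale.Agent.P158b

private theorem reach_mono {S S' : Set V} {a b : V} (h : Reach S a b) (hS : S ⊆ S') :
    Reach S' a b := by
  obtain ⟨l, hl⟩ := h
  exact ⟨l, hl.mono hS⟩

private theorem reach_right {S : Set V} {a b : V} (h : Reach S a b) : b ∈ S := by
  obtain ⟨l, hl⟩ := h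
  have := hl.chain.2 (len l) (Nat.zero_le _) le_rfl
  rwa [hl.stop] at this

private theorem reach_refl {S : Set V} {a : V} (h : a ∈ S) : Reach S a a := by
  have hc : Chain S (fun _ => a) 0 0 := ⟨fun k _ hk => absurd hk (Nat.not_lt_zero k), fun _ _ _ => h⟩
  exact reach_of_chain le_rfl hc

private theorem reach_adj {S : Set V} {a b : V} (ha : a ∈ S) (hb : b ∈ S) (h : Adj a b) :
    Reach S a b := by
  have hc : Chain S (fun k => if k = 0 then a else b) 0 1 := by
    refine ⟨fun k _ hk => ?_, fun k _ _ => ?_⟩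
    · have : k = 0 := by omega
      subst this
      simpa using h
    · by_cases hk : k = 0
      · simpa [hk] using ha
      · simpa [hk] using hb
  have := reach_of_chain (Nat.zero_le 1) hc
  simpa using this

private theorem reach_clus {M0 : ℝ} {ω : Env} {x c : V} (hc : c ∈ clus M0 ω x) :
    Reach (clus M0 ω x) x c := by
  obtain ⟨l, hl⟩ := hc
  refine ⟨l, ⟨hl.ne, hl.start, hl.stop, ⟨hl.chain.1, fun k _ hk => ?_⟩, hl.inj⟩⟩
  have := reach_of_chain (Nat.zero_le k) (hl.chain.mono subset_rfl le_rfl hk)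
  rw [hl.start] at this
  exact this

private theorem not_bad {M0 : ℝ} {ω : Env} {x v c : V} (hv : v ∉ clus M0 ω x)
    (hc : c ∈ clus M0 ω x) (h : Adj v c) : ¬ bad M0 ω v := by
  intro hb
  apply hv
  have hc' : Reach {v | bad M0 ω v} x c := hc
  exact hc'.trans (reach_adj (reach_right hc') hb h.symm)

/-- a light walk with `n` steps -/
private def LW (M0 : ℝ) (ω : Env) (u w : V) (n : ℕ) : Prop :=
  ∃ g : ℕ → V, g 0 = u ∧ g n = w ∧ Chain Set.univ g 0 n ∧ ∀ k, k < n → ω s(g k, g (k + 1)) ≤ M0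

private theorem LW.refl (M0 : ℝ) (ω : Env) (u : V) : LW M0 ω u u 0 :=
  ⟨fun _ => u, rfl, rfl, ⟨fun k _ hk => absurd hk (Nat.not_lt_zero k), fun _ _ _ => trivial⟩,
    fun k hk => absurd hk (Nat.not_lt_zero k)⟩

private theorem LW.trans {M0 : ℝ} {ω : Env} {u v w : V} {n m : ℕ} (h : LW M0 ω u v n)
    (h' : LW M0 ω v w m) : LW M0 ω u w (n + m) := by
  obtain ⟨f, f0, fn, fc, fl⟩ := h
  obtain ⟨g, g0, gm, gc, gl⟩ := h'
  obtain ⟨F, Fc, F1, F2, -⟩ := exists_concat fc gc (fn.trans g0.symm)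
  refine ⟨F, (F1 0 (Nat.zero_le _)).trans f0, (F2 m le_rfl).trans gm, Fc, fun k hk => ?_⟩
  by_cases hkn : k < n
  · rw [F1 k hkn.le, F1 (k + 1) hkn]
    exact fl k hkn
  · obtain ⟨d, rfl⟩ : ∃ d, k = n + d := ⟨k - n, by omega⟩
    rw [F2 d (by omega), add_assoc, F2 (d + 1) (by omega)]
    exact gl d (by omega)

private theorem LW.king {M0 : ℝ} {ω : Env} {v v' : V} (hv : ¬ bad M0 ω v) (h : Near 1 v v') :
    ∃ n, n ≤ 2 ∧ LW M0 ω v v' n := by
  have hc := stair_chain (c := v) (n := 1) (Near.refl 1 v) h.symm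
  refine ⟨dl1 v v', by simpa using dl1_le h, stair v v', stair_zero v v', stair_end v v',
    hc.mono (Set.subset_univ _) le_rfl le_rfl, fun k hk => ?_⟩
  by_contra hlt
  apply hv
  refine ⟨_, mem_edgesOf.2 ⟨stair v v' k, mem_box.2 (hc.2 k (Nat.zero_le _) hk.le), _,
    hc.1 k (Nat.zero_le _) hk, rfl⟩, lt_of_not_ge hlt⟩

private theorem exists_nbhd (A : Finset V) :
    ∃ D : Finset V, D.card ≤ 4 * A.card ∧ ∀ v c, c ∈ A → Adj v c → v ∈ D := by
  refine ⟨A.biUnion fun c => {(c.1 + 1, c.2), (c.1 - 1, c.2), (c.1, c.2 + 1), (c.1, c.2 - 1)},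
    ?_, fun v c hc h => ?_⟩
  · rw [mul_comm]
    exact card_biUnion_le_card_mul _ _ _ fun c _ => card_le_four
  · refine mem_biUnion.2 ⟨c, hc, ?_⟩
    obtain ⟨v1, v2⟩ := v
    obtain ⟨c1, c2⟩ := c
    simp only [Adj] at h
    simp only [mem_insert, mem_singleton, Prod.mk.injEq]
    omega

private theorem single_le_W {t : Env} (ht : ∀ e, 0 ≤ t e) (f : ℕ → V) {i j k : ℕ} (hi : i ≤ k)
    (hj : k < j) : t s(f k, f (k + 1)) ≤ W t f i j :=
  single_le_sum (f := fun k => t s(f k, f (k + 1))) (fun _ _ => ht _) (mem_Ico.2 ⟨hi, hj⟩)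

private theorem W_mono {t t' : Env} (h : ∀ e, t e ≤ t' e) (f : ℕ → V) (i j : ℕ) :
    W t f i j ≤ W t' f i j := sum_le_sum fun _ _ => h _

private theorem psi_nonneg {t0 M0 : ℝ} (ht0 : 0 ≤ t0) (hM : t0 < M0) (ω : Env) (e : Sym2 V) :
    0 ≤ Psi t0 M0 ω e := by
  unfold Psi
  split_ifs with h
  · exact ht0.trans (le_max_right _ _)
  · refine le_trans (le_min (by linarith [lt_of_not_ge h]) ?_) (min_le_cap _ _)
    have h1 : 0 ≤ csz M0 ω e := by
      induction e using Sym2.ind with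
      | _ x y => simp only [csz, Sym2.lift_mk]; positivity
    have h2 : 0 ≤ M0 := by linarith
    positivity

private theorem psi_le {t0 M0 : ℝ} {ω : Env} (hω : ∀ e, t0 ≤ ω e) (e : Sym2 V) :
    Psi t0 M0 ω e ≤ ω e := by
  unfold Psi
  split_ifs with h
  · exact max_le le_rfl (hω e)
  · exact cap_le _ _

private theorem le_psi_of_light {t0 M0 : ℝ} {ω : Env} {e : Sym2 V} (h : ω e ≤ M0) :
    ω e ≤ Psi t0 M0 ω e := by
  unfold Psi
  rw [if_pos h]
  exact le_max_left _ _

private theorem finite_bdd {A : Set V} (hA : A.Finite) : ∃ n : ℕ, A ⊆ bx 0 n := by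
  obtain ⟨n, hn⟩ := (hA.image fun v : V => v.1.natAbs + v.2.natAbs).bddAbove
  refine ⟨n, fun v hv => ?_⟩
  have : v.1.natAbs + v.2.natAbs ≤ n := hn (Set.mem_image_of_mem _ hv)
  simp only [bx, Near, Set.mem_ofPred_eq, Prod.fst_zero, Prod.snd_zero]
  omega

private theorem exists_out {g : ℕ → V} (hg : Function.Injective g) (n : ℕ) :
    ∃ a, ¬ Near n (g a) 0 := by
  by_contra h
  push Not at h
  exact Set.infinite_range_of_injective hg ((bx_finite 0 n).subset (by
    rintro _ ⟨a, rfl⟩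
    exact h a))

/-- Detour along the boundary of a cluster. Among the finite sets `A` of vertices outside `C`,
adjacent to `C`, with `u ∈ A` and every point of `A` joined to `u` by a light walk of length
`≤ 2 (card A - 1)`, take one of maximal cardinality (they have at most `4 * ncard C` elements).
Such vertices are not bad, so a king-step from one of them costs at most two light edges;
maximality makes `A` closed and `timar` applies. -/
theorem detour {M0 : ℝ} {ω : Env} {x : V} (hfin : (clus M0 ω x).Finite) {u u' c c' : V}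
    (huC : u ∉ clus M0 ω x) (hc : c ∈ clus M0 ω x) (huc : Adj u c) (hu' : u' ∉ clus M0 ω x)
    (hc' : c' ∈ clus M0 ω x) (huc' : Adj u' c') (h1 : Reach (clus M0 ω x)ᶜ u u') :
    ∃ (g : ℕ → V) (n : ℕ), n ≤ 8 * (clus M0 ω x).ncard ∧ g 0 = u ∧ g n = u' ∧
      Chain Set.univ g 0 n ∧ ∀ k, k < n → ω s(g k, g (k + 1)) ≤ M0 := by
  obtain ⟨D, hD, hDm⟩ := exists_nbhd hfin.toFinset
  have hcard : hfin.toFinset.card = (clus M0 ω x).ncard := (Set.ncard_eq_toFinset_card _ hfin).symm
  have hmem : ∀ v, (∃ c ∈ clus M0 ω x, Adj v c) → v ∈ D := by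
    rintro v ⟨c, hc, h⟩
    exact hDm v c (hfin.mem_toFinset.2 hc) h
  obtain ⟨A, hA, hmax⟩ := exists_max_image (D.powerset.filter fun A : Finset V => u ∈ A ∧
      ∀ w ∈ A, ¬ bad M0 ω w ∧ ∃ n, n + 2 ≤ 2 * A.card ∧ LW M0 ω u w n) card (by
    refine ⟨{u}, mem_filter.2 ⟨mem_powerset.2 (singleton_subset_iff.2 (hmem u ⟨c, hc, huc⟩)),
      mem_singleton_self u, fun w hw => ?_⟩⟩
    rw [mem_singleton.1 hw]
    exact ⟨not_bad huC hc huc, 0, by simp, LW.refl M0 ω u⟩)
  obtain ⟨hAD, huA, hAw⟩ := mem_filter.1 hA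
  have hAD' : A ⊆ D := mem_powerset.1 hAD
  have hK : ∀ v ∈ (A : Set V), ∀ v', v' ∉ clus M0 ω x → (∃ c ∈ clus M0 ω x, Adj v' c) →
      Near 1 v v' → v' ∈ (A : Set V) := by
    intro v hv v' hv' hadj hnear
    by_contra hn
    have hn' : v' ∉ A := hn
    have hins : (insert v' A).card = A.card + 1 := card_insert_of_notMem hn'
    have := hmax (insert v' A) (mem_filter.2 ⟨mem_powerset.2
      (insert_subset (hmem v' hadj) hAD'), mem_insert_of_mem huA, fun w hw => ?_⟩)
    · omega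
    · rcases mem_insert.1 hw with rfl | hw
      · obtain ⟨c1, hc1, h⟩ := hadj
        obtain ⟨hb, n, hn, hl⟩ := hAw v hv
        obtain ⟨m, hm, hl'⟩ := LW.king hb hnear
        exact ⟨not_bad hv' hc1 h, n + m, by omega, hl.trans hl'⟩
      · obtain ⟨hb, n, hn, hl⟩ := hAw w hw
        exact ⟨hb, n, by omega, hl⟩
  have hu'A : u' ∈ (A : Set V) := timar (clus M0 ω x) A hK huA huC hc huc hu' hc' huc' h1
    ((reach_clus hc).symm.trans (reach_clus hc'))
  obtain ⟨-, n, hn, g, g0, gn, gc, gl⟩ := hAw u' hu'A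
  have := card_le_card hAD'
  exact ⟨g, n, by omega, g0, gn, gc, gl⟩

/-- the outside of a box is connected -/
theorem reach_out {n : ℕ} {x y : V} (hx : ¬ Near n x 0) (hy : ¬ Near n y 0) :
    Reach {v | ¬ Near n v 0} x y := by
  have key : ∀ (a b c : V) (m : ℕ), Near m a c → Near m b c →
      (∀ v, Near m v c → ¬ Near n v 0) → Reach {v | ¬ Near n v 0} a b :=
    fun a b c m ha hb h => reach_mono (reach_bx ha hb) fun v hv => h v hv
  have hE : ∀ a : V, (n : ℤ) < a.1 → Reach {v | ¬ Near n v 0} a (n + 1, n + 1) := by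
    intro a ha
    refine key a _ ((n + 1 + (a.1.natAbs + a.2.natAbs + n + 1 : ℕ) : ℤ), 0)
      (a.1.natAbs + a.2.natAbs + n + 1) ?_ ?_ fun v hv => ?_
    · simp only [Near]; omega
    · simp only [Near]; omega
    · simp only [Near, Prod.fst_zero, Prod.snd_zero] at hv ⊢; omega
  have hN : ∀ a : V, (n : ℤ) < a.2 → Reach {v | ¬ Near n v 0} a (n + 1, n + 1) := by
    intro a ha
    refine key a _ (0, (n + 1 + (a.1.natAbs + a.2.natAbs + n + 1 : ℕ) : ℤ))
      (a.1.natAbs + a.2.natAbs + n + 1) ?_ ?_ fun v hv => ?_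
    · simp only [Near]; omega
    · simp only [Near]; omega
    · simp only [Near, Prod.fst_zero, Prod.snd_zero] at hv ⊢; omega
  have hW : ∀ a : V, a.1 < -(n : ℤ) → Reach {v | ¬ Near n v 0} a (n + 1, n + 1) := by
    intro a ha
    refine Reach.trans (b := (-(n + 1), n + 1)) ?_ (hN _ (by simp))
    refine key a _ ((-(n + 1) - (a.1.natAbs + a.2.natAbs + n + 1 : ℕ) : ℤ), 0)
      (a.1.natAbs + a.2.natAbs + n + 1) ?_ ?_ fun v hv => ?_
    · simp only [Near]; omega
    · simp only [Near]; omega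
    · simp only [Near, Prod.fst_zero, Prod.snd_zero] at hv ⊢; omega
  have hS : ∀ a : V, a.2 < -(n : ℤ) → Reach {v | ¬ Near n v 0} a (n + 1, n + 1) := by
    intro a ha
    refine Reach.trans (b := (n + 1, -(n + 1))) ?_ (hE _ (by simp))
    refine key a _ (0, (-(n + 1) - (a.1.natAbs + a.2.natAbs + n + 1 : ℕ) : ℤ))
      (a.1.natAbs + a.2.natAbs + n + 1) ?_ ?_ fun v hv => ?_
    · simp only [Near]; omega
    · simp only [Near]; omega
    · simp only [Near, Prod.fst_zero, Prod.snd_zero] at hv ⊢; omega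
  have hall : ∀ a : V, ¬ Near n a 0 → Reach {v | ¬ Near n v 0} a (n + 1, n + 1) := by
    intro a ha
    simp only [Near, Prod.fst_zero, Prod.snd_zero] at ha
    by_cases h1 : (n : ℤ) < a.1
    · exact hE a h1
    by_cases h2 : (n : ℤ) < a.2
    · exact hN a h2
    by_cases h3 : a.1 < -(n : ℤ)
    · exact hW a h3
    exact hS a (by omega)
  exact (hall x hx).trans (hall y hy).symm

/-- Strong induction on the number of steps `k < L` with `t' (f k, f (k+1)) < ω (..)`; if there is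
none use `T_le_W`. Such a step is heavy, has `t' ≥ 8 M0 * ncard C` (`min_le_cap`), and both ends lie in
`C = clus M0 ω (f k) ⊆ bx 0 n`. Let `i + 1` be the first and `j - 1` the last visit to `C`;
`f i, f j` are joined outside `C` (through `f 0`, `reach_out`, `f L`). Replace `f` on `[i, j]` by
the light walk of `detour` (on light edges `t' = ω ≤ M0`). -/
theorem T_le_W_trunc {t0 M0 : ℝ} (ht0 : 0 ≤ t0) (hM : t0 < M0) {ω t' : Env}
    (hω : ∀ e, t0 ≤ ω e) (hge : ∀ e, Psi t0 M0 ω e ≤ t' e) (hle : ∀ e, t' e ≤ ω e) {n : ℕ}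
    (hin : ∀ x y, Adj x y → t' s(x, y) < ω s(x, y) → clus M0 ω x ⊆ bx 0 n) {f : ℕ → V} {L : ℕ}
    (hf : Chain Set.univ f 0 L) (h0 : ¬ Near n (f 0) 0) (hL : ¬ Near n (f L) 0) :
    T Set.univ ω (f 0) (f L) ≤ W t' f 0 L := by
  have hω0 : ∀ e, 0 ≤ ω e := fun e => ht0.trans (hω e)
  have ht' : ∀ e, 0 ≤ t' e := fun e => (psi_nonneg ht0 hM ω e).trans (hge e)
  have hM0 : 0 ≤ M0 := by linarith
  obtain ⟨ind, hind⟩ : ∃ ind : Env, ∀ e, ind e = if t' e < ω e then 1 else 0 := ⟨_, fun _ => rfl⟩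
  have hind0 : ∀ e, 0 ≤ ind e := fun e => by rw [hind]; split_ifs <;> norm_num
  have main : ∀ (N : ℕ) (f : ℕ → V) (L : ℕ), Chain Set.univ f 0 L → ¬ Near n (f 0) 0 →
      ¬ Near n (f L) 0 → W ind f 0 L < N → T Set.univ ω (f 0) (f L) ≤ W t' f 0 L := by
    intro N
    induction N with
    | zero =>
      intro f L _ _ _ h
      have := W_nonneg hind0 f 0 L
      simp only [Nat.cast_zero] at h
      linarith
    | succ N ih =>
      intro f L hf h0 hL hN
      by_cases hex : ∃ k, k < L ∧ t' s(f k, f (k + 1)) < ω s(f k, f (k + 1))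
      swap
      · push Not at hex
        refine (T_le_W hω0 (Nat.zero_le L) hf).trans (sum_le_sum fun k hk => ?_)
        exact hex k (mem_Ico.1 hk).2
      obtain ⟨k, hk, hlt⟩ := hex
      have hadj : Adj (f k) (f (k + 1)) := hf.1 k (Nat.zero_le _) hk
      have hheavy : M0 < ω s(f k, f (k + 1)) := by
        by_contra h
        have h1 := le_psi_of_light (t0 := t0) (le_of_not_gt h)
        have h2 := hge s(f k, f (k + 1))
        linarith
      have hbig : 8 * M0 * ((clus M0 ω (f k)).ncard : ℝ) ≤ t' s(f k, f (k + 1)) := by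
        have h1 := hge s(f k, f (k + 1))
        unfold Psi at h1
        rw [if_neg (not_le.2 hheavy)] at h1
        have h2 := (min_le_cap _ _).trans h1
        have h3 : M0 + 1 + 8 * M0 * csz M0 ω s(f k, f (k + 1)) ≤ t' s(f k, f (k + 1)) := by
          rcases min_le_iff.1 h2 with h | h
          · linarith
          · exact h
        simp only [csz, Sym2.lift_mk] at h3
        have h4 : 0 ≤ M0 * ((clus M0 ω (f (k + 1))).ncard : ℝ) := by positivity
        nlinarith
      have hb1 : bad M0 ω (f k) :=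
        ⟨_, mem_edgesOf.2 ⟨f k, mem_box.2 (Near.refl 1 _), f (k + 1), hadj, rfl⟩, hheavy⟩
      have hb2 : bad M0 ω (f (k + 1)) :=
        ⟨_, mem_edgesOf.2 ⟨f k, mem_box.2 hadj.near, f (k + 1), hadj, rfl⟩, hheavy⟩
      have hC1 : f k ∈ clus M0 ω (f k) := reach_refl (S := {v | bad M0 ω v}) hb1
      have hC2 : f (k + 1) ∈ clus M0 ω (f k) := reach_adj (S := {v | bad M0 ω v}) hb1 hb2 hadj
      have hsub := hin _ _ hadj hlt
      have hfin : (clus M0 ω (f k)).Finite := (bx_finite 0 n).subset hsub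
      generalize hx : f k = x at hC1 hC2 hsub hfin hbig
      rw [← hx] at hbig
      have hCk : f k ∈ clus M0 ω x := by rw [hx]; exact hC1
      have hbig' : 8 * M0 * ((clus M0 ω x).ncard : ℝ) ≤ t' s(f k, f (k + 1)) := by
        rw [← hx]; exact hbig
      have hout : {v | ¬ Near n v 0} ⊆ (clus M0 ω x)ᶜ := fun v hv hC => hv (hsub hC)
      have hex1 : ∃ m, f m ∈ clus M0 ω x := ⟨k, hCk⟩
      obtain ⟨i, hik, hi1, hi2⟩ : ∃ i, i < k ∧ f (i + 1) ∈ clus M0 ω x ∧
          ∀ m, m ≤ i → f m ∉ clus M0 ω x := by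
        have h1 := Nat.find_spec hex1
        have h2 : Nat.find hex1 ≤ k := Nat.find_min' hex1 hCk
        have h3 : Nat.find hex1 ≠ 0 := by
          intro h
          rw [h] at h1
          exact hout h0 h1
        refine ⟨Nat.find hex1 - 1, by omega, ?_, fun m hm => Nat.find_min hex1 (by omega)⟩
        rwa [Nat.sub_add_cancel (by omega)]
      obtain ⟨j, hkj, hjL, hj1, hj2⟩ : ∃ j, k < j ∧ j < L ∧ f j ∈ clus M0 ω x ∧
          ∀ m, j < m → m ≤ L → f m ∉ clus M0 ω x := by
        have h1 : f (Nat.findGreatest (fun m => f m ∈ clus M0 ω x) L) ∈ clus M0 ω x :=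
          Nat.findGreatest_spec (P := fun m => f m ∈ clus M0 ω x) (m := k + 1) hk hC2
        have h2 : k + 1 ≤ Nat.findGreatest (fun m => f m ∈ clus M0 ω x) L :=
          Nat.le_findGreatest (P := fun m => f m ∈ clus M0 ω x) hk hC2
        have h3 := Nat.findGreatest_le (P := fun m => f m ∈ clus M0 ω x) L
        have h4 : Nat.findGreatest (fun m => f m ∈ clus M0 ω x) L ≠ L := by
          intro h
          rw [h] at h1
          exact hout hL h1
        exact ⟨_, h2, by omega, h1, fun m hm hmL =>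
          Nat.findGreatest_is_greatest (P := fun m => f m ∈ clus M0 ω x) hm hmL⟩
      have hc1 : Chain (clus M0 ω x)ᶜ f 0 i :=
        ⟨fun m _ hm => hf.1 m (Nat.zero_le _) (by omega), fun m _ hm => hi2 m hm⟩
      have hc2 : Chain (clus M0 ω x)ᶜ f (j + 1) L :=
        ⟨fun m _ hm => hf.1 m (Nat.zero_le _) hm, fun m hm hm' => hj2 m hm hm'⟩
      have hr : Reach (clus M0 ω x)ᶜ (f i) (f (j + 1)) :=
        ((reach_of_chain (Nat.zero_le i) hc1).symm.trans
          (reach_mono (reach_out h0 hL) hout)).trans (reach_of_chain hjL hc2).symm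
      obtain ⟨g, m, hm, g0, gm, gc, gl⟩ := detour hfin (hi2 i le_rfl) hi1
        (hf.1 i (Nat.zero_le _) (by omega)) (hj2 (j + 1) (Nat.lt_succ_self j) hjL) hj1
        (hf.1 j (Nat.zero_le _) hjL).symm hr
      obtain ⟨F1, F1c, F1a, F1b, F1w⟩ := exists_concat
        (hf.mono subset_rfl le_rfl (by omega : i ≤ L)) gc g0.symm
      have hf3 : Chain Set.univ (fun m => f (j + 1 + m)) 0 (L - (j + 1)) :=
        (hf.mono subset_rfl (Nat.zero_le (j + 1)) le_rfl).shift hjL
      obtain ⟨F, Fc, Fa, Fb, Fw⟩ := exists_concat F1c hf3 (by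
        rw [F1b m le_rfl, gm])
      have e0 : F 0 = f 0 := (Fa 0 (Nat.zero_le _)).trans (F1a 0 (Nat.zero_le _))
      have eL : F (i + m + (L - (j + 1))) = f L := by
        rw [Fb _ le_rfl]
        show f (j + 1 + (L - (j + 1))) = f L
        rw [Nat.add_sub_cancel' hjL]
      have hW : ∀ t : Env, W t F 0 (i + m + (L - (j + 1))) + W t f i (j + 1) =
          W t f 0 L + W t g 0 m := by
        intro t
        rw [Fw, F1w, W_shift, ← W_add t f (Nat.zero_le (j + 1)) hjL,
          ← W_add t f (Nat.zero_le i) (by omega : i ≤ j + 1)]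
        ring
      have hg1 : W ind g 0 m = 0 := by
        refine sum_eq_zero fun a ha => ?_
        rw [hind, if_neg]
        exact not_lt.2 ((le_psi_of_light (t0 := t0) (gl a (mem_Ico.1 ha).2)).trans (hge _))
      have hg2 : W t' g 0 m ≤ m * M0 := by
        have := sum_le_card_nsmul (Ico 0 m) (fun a => t' s(g a, g (a + 1))) M0
          fun a ha => (hle _).trans (gl a (mem_Ico.1 ha).2)
        simpa [W] using this
      have hf1 : 1 ≤ W ind f i (j + 1) := by
        have := single_le_W hind0 f hik.le (by omega : k < j + 1)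
        rwa [hind, if_pos hlt] at this
      have hf2 := single_le_W ht' f hik.le (by omega : k < j + 1)
      have hm' : (m : ℝ) ≤ 8 * ((clus M0 ω x).ncard : ℝ) := by exact_mod_cast hm
      have hm'' : (m : ℝ) * M0 ≤ 8 * ((clus M0 ω x).ncard : ℝ) * M0 :=
        mul_le_mul_of_nonneg_right hm' hM0
      have key := ih F _ Fc (by rwa [e0]) (by rwa [eL]) (by
        have := hW ind
        push_cast at hN
        linarith)
      rw [e0, eL] at key
      have := hW t'
      linarith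
  obtain ⟨N, hN⟩ := exists_nat_gt (W ind f 0 L)
  exact main N f L hf h0 hL hN

/-- Let `P` be a path from `v i` to `v (i + n)`. Put `t' = Psi` on `pedges P` and `ω` elsewhere;
choose a box containing the clusters of the vertices of `P`, and `a, b` with `v (i - a)`,
`v (i + n + b)` outside. Apply `T_le_W_trunc` to the walk `v[i-a, i] + P + v[i+n, i+n+b]`, use
`t' ≤ ω`, `W_add` and `Psi ≤ ω`. -/
theorem big_trunc {t0 M0 : ℝ} (ht0 : 0 ≤ t0) (hM : t0 < M0) {ω : Env} (hω : ∀ e, t0 ≤ ω e)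
    (hfin : ∀ x, (clus M0 ω x).Finite) {v : ℤ → V} (h : Big ω v) : Big (Psi t0 M0 ω) v := by
  obtain ⟨hinj, hadj, hgeo⟩ := h
  refine ⟨hinj, hadj, fun i n => le_T (reach_univ _ _) fun P hP => ?_⟩
  obtain ⟨t', ht'⟩ : ∃ t' : Env, ∀ e, t' e = if e ∈ pedges P then Psi t0 M0 ω e else ω e :=
    ⟨_, fun _ => rfl⟩
  have hge : ∀ e, Psi t0 M0 ω e ≤ t' e := fun e => by
    rw [ht']; split_ifs
    · exact le_rfl
    · exact psi_le hω e
  have hle : ∀ e, t' e ≤ ω e := fun e => by
    rw [ht']; split_ifs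
    · exact psi_le hω e
    · exact le_rfl
  obtain ⟨r, hr⟩ := finite_bdd ((Set.finite_le_nat (len P)).biUnion
    (t := fun k => clus M0 ω (vx P k)) fun k _ => hfin _)
  have hin : ∀ x y, Adj x y → t' s(x, y) < ω s(x, y) → clus M0 ω x ⊆ bx 0 r := by
    intro x y _ hlt
    have hmem : s(x, y) ∈ pedges P := by
      by_contra hn
      rw [ht', if_neg hn] at hlt
      exact lt_irrefl _ hlt
    obtain ⟨k, hk, rfl⟩ := (on_of_mem_pedges hmem).1
    exact fun z hz => hr (Set.mem_biUnion (t := fun k => clus M0 ω (vx P k)) hk hz)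
  obtain ⟨a, ha⟩ := exists_out (g := fun a : ℕ => v (i - a))
    (fun a b hab => by have := hinj hab; omega) r
  obtain ⟨b, hb⟩ := exists_out (g := fun b : ℕ => v (i + n + b))
    (fun a b hab => by have := hinj hab; omega) r
  have hch : ∀ (s : ℤ) (m : ℕ), Chain Set.univ (fun k : ℕ => v (s + k)) 0 m := by
    intro s m
    refine ⟨fun k _ _ => ?_, fun _ _ _ => trivial⟩
    have := hadj (s + k)
    simp only [Nat.cast_add, Nat.cast_one]
    rwa [← add_assoc]
  obtain ⟨F1, F1c, F1a, F1b, F1w⟩ := exists_concat (hch (i - a) a) hP.chain (by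
    rw [hP.start]; simp)
  obtain ⟨F, Fc, Fa, Fb, Fw⟩ := exists_concat F1c (hch (i + n) b) (by
    rw [F1b _ le_rfl, hP.stop]; simp)
  have e0 : F 0 = v (i - a) := by
    rw [Fa 0 (Nat.zero_le _), F1a 0 (Nat.zero_le _)]; simp
  have eL : F (a + len P + b) = v (i + n + b) := Fb b le_rfl
  have key := T_le_W_trunc ht0 hM hω hge hle hin Fc (by rwa [e0]) (by rwa [eL])
  rw [e0, eL, Fw, F1w] at key
  have h1 := hgeo (i - a) (a + n + b)
  have e1 : i - a + ((a + n + b : ℕ) : ℤ) = i + n + b := by push_cast; ring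
  rw [e1, ← W_add ω _ (Nat.zero_le (a + n)) (Nat.le_add_right _ b),
    ← W_add ω _ (Nat.zero_le a) (Nat.le_add_right a n), ← W_shift ω _ a (a + n),
    ← W_shift ω _ (a + n) (a + n + b), Nat.add_sub_cancel_left, Nat.add_sub_cancel_left] at h1
  have e2 : (fun k : ℕ => v (i - a + ((a + k : ℕ) : ℤ))) = fun k : ℕ => v (i + k) := by
    funext k; congr 1; push_cast; ring
  have e3 : (fun k : ℕ => v (i - a + ((a + n + k : ℕ) : ℤ))) = fun k : ℕ => v (i + n + k) := by
    funext k; congr 1; push_cast; ring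
  rw [e2, e3] at h1
  have h2 : W t' (vx P) 0 (len P) = wt (Psi t0 M0 ω) P := by
    refine sum_congr rfl fun k hk => ?_
    rw [ht', if_pos]
    exact mem_pedges.2 ⟨k, (mem_Ico.1 hk).2, rfl⟩
  have h3 := W_mono hle (fun k : ℕ => v (i - a + k)) 0 a
  have h4 := W_mono hle (fun k : ℕ => v (i + n + k)) 0 b
  have h5 := W_mono (psi_le (M0 := M0) hω) (fun k : ℕ => v (i + k)) 0 n
  linarith

end Vale.Agent.P158b
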