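import Vale.Agent.P158b.Reduce
import Vale.Agent.P158b.ModelEx
import Vale.Agent.P158b.Trunc

/-! No bigeodesics in the product model. -/

open MeasureTheory ProbabilityTheory Finset
open scoped Classical

namespace Vale.Agent.P158b

theorem ae_ge (G : Measure ℝ) [IsProbabilityMeasure G] {a : ℝ} (h : G (Set.Iio a) = 0) :
    ∀ᵐ ω ∂(PP G), ∀ e, a ≤ ω e := by
  rw [ae_all_iff]
  intro e
  rw [ae_iff]
  have h1 := PP_eval (G := G) e (B := Set.Iio a) measurableSet_Iio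
  have h2 : G.real (Set.Iio a) = 0 := by rw [Measure.real, h]; rfl
  rw [h2, measureReal_eq_zero_iff] at h1
  refine le_antisymm (le_trans (measure_mono fun ω hω => ?_) h1.le) zero_le
  exact not_le.mp hω

theorem no_big_edge (G : Measure ℝ) [IsProbabilityMeasure G] [NullSingletonClass G]
    (hG : G (Set.Iio 0) = 0) (x w : V) :
    ∀ᵐ ω ∂(PP G), ∀ v, v 0 = x → v 1 = w → ¬ Big ω v := by
  by_cases hxw : Adj x w
  swap
  · refine Filter.Eventually.of_forall fun ω v h0 h1 hb => hxw ?_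
    have := hb.2.1 0
    rwa [zero_add, h0, h1] at this
  rw [ae_iff, ← measureReal_eq_zero_iff]
  refine le_antisymm (le_of_forall_pos_le_add fun η hη => ?_) measureReal_nonneg
  obtain ⟨M, hMG, hΨ, hη', hfin⟩ := exists_model G hG hη
  have hb : G (Set.Iio M.t0) = 0 := hMG ▸ M.below
  have hge := ae_ge G hb
  have hnull := ca_null M hxw
  rw [hMG] at hnull
  have hbad : (PP G).real {ω | ¬ ((∀ x, (clus M.M0 ω x).Finite) ∧ ∀ e, M.t0 ≤ ω e)} = 0 := by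
    rw [measureReal_eq_zero_iff, ← ae_iff]
    exact hfin.and hge
  have hsub : {ω | ¬ ∀ v, v 0 = x → v 1 = w → ¬ Big ω v} ⊆
      {ω | ¬ ((∀ x, (clus M.M0 ω x).Finite) ∧ ∀ e, M.t0 ≤ ω e)} ∪
        ({ω | ω s(x, w) ≤ M.M0 ∧ CA x w (M.Ψ ω)} ∪ {ω | ω s(x, w) ∈ Set.Ioi M.M0}) := by
    intro ω hω
    by_cases h1 : (∀ x, (clus M.M0 ω x).Finite) ∧ ∀ e, M.t0 ≤ ω e
    · by_cases h2 : ω s(x, w) ≤ M.M0
      · refine Or.inr (Or.inl ⟨h2, ?_⟩)
        by_contra hc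
        refine hω fun v h0 h1' hb => hc ?_
        have h3 := big_trunc M.t0_nonneg M.t0_lt h1.2 h1.1 hb
        rw [← hΨ] at h3
        have h4 := Big.ca (M.nonneg ω) h3
        rwa [h0, h1'] at h4
      · exact Or.inr (Or.inr (not_le.mp h2))
    · exact Or.inl h1
  have a1 := measureReal_mono (μ := PP G) hsub
  have a2 := measureReal_union_le (μ := PP G)
    {ω | ¬ ((∀ x, (clus M.M0 ω x).Finite) ∧ ∀ e, M.t0 ≤ ω e)}
    ({ω | ω s(x, w) ≤ M.M0 ∧ CA x w (M.Ψ ω)} ∪ {ω | ω s(x, w) ∈ Set.Ioi M.M0})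
  have a3 := measureReal_union_le (μ := PP G) {ω | ω s(x, w) ≤ M.M0 ∧ CA x w (M.Ψ ω)}
    {ω : Env | ω s(x, w) ∈ Set.Ioi M.M0}
  have a4 := PP_eval (G := G) s(x, w) (B := Set.Ioi M.M0) measurableSet_Ioi
  linarith

theorem no_big (G : Measure ℝ) [IsProbabilityMeasure G] [NullSingletonClass G]
    (hG : G (Set.Iio 0) = 0) : ∀ᵐ ω ∂(PP G), ∀ v, ¬ Big ω v := by
  have h : ∀ᵐ ω ∂(PP G), ∀ x w : V, ∀ v, v 0 = x → v 1 = w → ¬ Big ω v :=
    ae_all_iff.mpr fun x => ae_all_iff.mpr fun w => no_big_edge G hG x w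
  filter_upwards [h] with ω hω v
  exact hω _ _ v rfl rfl

end Vale.Agent.P158b
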