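import Vale.Agent.P158b.Defs

/-! The stable norm of a subadditive function on the lattice. -/

open MeasureTheory ProbabilityTheory Finset
open scoped Classical

namespace Vale.Agent.P158b

namespace NormAux

noncomputable def flr (x : ℝ × ℝ) : V := (⌊x.1⌋, ⌊x.2⌋)

lemma cv_add (v w : V) : cv (v + w) = cv v + cv w := by ext <;> simp [cv]

lemma cv_sub (v w : V) : cv (v - w) = cv v - cv w := by ext <;> simp [cv]

lemma cv_neg (v : V) : cv (-v) = -cv v := by ext <;> simp [cv]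

lemma cv_smul (n : ℕ) (v : V) : cv ((n : ℤ) • v) = (n : ℝ) • cv v := by ext <;> simp [cv]

lemma flr_cv (v : V) : flr (cv v) = v := by ext <;> simp [cv, flr]

lemma norm_flr (x : ℝ × ℝ) : ‖cv (flr x) - x‖ ≤ 1 := by
  have h : ∀ y : ℝ, |(⌊y⌋ : ℝ) - y| ≤ 1 := fun y => by
    have h1 := Int.floor_le y
    have h2 := Int.lt_floor_add_one y
    rw [abs_le]
    constructor <;> linarith
  rw [Prod.norm_def, max_le_iff]
  exact ⟨h x.1, h x.2⟩

lemma dl1_le (v : V) : (dl1 0 v : ℝ) ≤ 2 * ‖cv v‖ := by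
  have h1 : |(v.1 : ℝ)| ≤ ‖cv v‖ := norm_fst_le (cv v)
  have h2 : |(v.2 : ℝ)| ≤ ‖cv v‖ := norm_snd_le (cv v)
  have e : (dl1 0 v : ℝ) = |(v.1 : ℝ)| + |(v.2 : ℝ)| := by
    simp [dl1, Nat.cast_natAbs]
  linarith

/-- `s` is an upper rate of `a` in the direction `x` -/
def Rate (a : V → ℝ) (x : ℝ × ℝ) (s : ℝ) : Prop :=
  ∃ K : ℝ, ∀ t : ℝ, 0 ≤ t → a (flr (t • x)) ≤ s * t + K

lemma le_of_lin {p q K : ℝ} (h : ∀ t : ℝ, 0 ≤ t → p * t ≤ q * t + K) : p ≤ q := by
  by_contra hpq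
  have h1 : 0 < p - q := by linarith [not_le.1 hpq]
  have h2 := h ((|K| + 1) / (p - q)) (by positivity)
  have h3 : (p - q) * ((|K| + 1) / (p - q)) = |K| + 1 := by field_simp
  have h4 := le_abs_self K
  nlinarith

end NormAux

open NormAux in
/-- For `x : ℝ × ℝ` the sequence `u n = a (⌊n x.1⌋, ⌊n x.2⌋) + 2 m` is subadditive; put
`μ x = lim u n / n` (`Subadditive.lim`, `Subadditive.tendsto_lim`). Subadditivity, symmetry and the
Lipschitz bound pass to the limit; homogeneity for naturals (subsequence), positive rationals,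
then reals by continuity. `a (n v) ≤ n a v` gives `μ (cv v) ≤ a v`. -/
theorem stable_norm (a : V → ℝ) (m : ℝ) (h0 : ∀ v, 0 ≤ a v) (hadd : ∀ v w, a (v + w) ≤ a v + a w)
    (hneg : ∀ v, a (-v) = a v) (hm : ∀ v, a v ≤ m * dl1 0 v) {c C : ℝ}
    (hlow : ∀ v, c * ‖cv v‖ - C ≤ a v) :
    ∃ μ : Seminorm ℝ (ℝ × ℝ), (∀ v, μ (cv v) ≤ a v) ∧
      (∀ (v : V) (δ : ℝ), 0 < δ → ∃ n0 : ℕ, ∀ n : ℕ, n0 ≤ n →
        a ((n : ℤ) • v) ≤ n * (μ (cv v) + δ)) ∧
      (∀ x, μ x ≤ 2 * m * ‖x‖) ∧ ∀ x, c * ‖x‖ ≤ μ x := by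
  have hm0 : 0 ≤ m := by
    have h1 := (h0 (1, 0)).trans (hm (1, 0))
    simpa [dl1] using h1
  have hbd : ∀ v, a v ≤ 2 * m * ‖cv v‖ := fun v => by
    have h1 := mul_le_mul_of_nonneg_left (NormAux.dl1_le v) hm0
    linarith [hm v]
  have hlip : ∀ v w (R : ℝ), ‖cv v - cv w‖ ≤ R → a v ≤ a w + 2 * m * R := fun v w R h => by
    have h1 := hadd w (v - w)
    rw [add_sub_cancel] at h1
    have h2 := hbd (v - w)
    rw [cv_sub] at h2
    have h3 := mul_le_mul_of_nonneg_left h (by positivity : 0 ≤ 2 * m)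
    linarith
  have hn : ∀ (n : ℕ) v, a ((n : ℤ) • v) ≤ n * a v := fun n v => by
    induction n with
    | zero => simpa [dl1] using hm 0
    | succ n ih =>
      have h1 := hadd ((n : ℤ) • v) v
      push_cast
      rw [add_smul, one_smul]
      linarith
  have rlow : ∀ x s, Rate a x s → c * ‖x‖ ≤ s := by
    rintro x s ⟨K, hK⟩
    refine le_of_lin (K := K + C + |c|) fun t ht => ?_
    have h1 := hK t ht
    have h2 := hlow (flr (t • x))
    have h3 := (abs_norm_sub_norm_le _ _).trans (norm_flr (t • x))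
    rw [norm_smul, Real.norm_of_nonneg ht] at h3
    have h4 : |c * (‖cv (flr (t • x))‖ - t * ‖x‖)| ≤ |c| := by
      rw [abs_mul]
      exact mul_le_of_le_one_right (abs_nonneg c) h3
    have h5 := neg_abs_le (c * (‖cv (flr (t • x))‖ - t * ‖x‖))
    nlinarith
  have rnn : ∀ x s, Rate a x s → 0 ≤ s := by
    rintro x s ⟨K, hK⟩
    refine le_of_lin (K := K) fun t ht => ?_
    linarith [hK t ht, h0 (flr (t • x))]
  have rbd : ∀ x, Rate a x (2 * m * ‖x‖) := fun x => ⟨2 * m, fun t ht => by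
    have h1 := hbd (flr (t • x))
    have h3 := (norm_sub_norm_le _ _).trans (norm_flr (t • x))
    rw [norm_smul, Real.norm_of_nonneg ht] at h3
    have h4 := mul_le_mul_of_nonneg_left h3 (by positivity : 0 ≤ 2 * m)
    nlinarith⟩
  have radd : ∀ x y s s', Rate a x s → Rate a y s' → Rate a (x + y) (s + s') := by
    rintro x y s s' ⟨K, hK⟩ ⟨K', hK'⟩
    refine ⟨K + K' + 2 * m * 3, fun t ht => ?_⟩
    have h1 : ‖cv (flr (t • (x + y))) - cv (flr (t • x) + flr (t • y))‖ ≤ 3 := by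
      have e : cv (flr (t • (x + y))) - cv (flr (t • x) + flr (t • y)) =
          (cv (flr (t • (x + y))) - t • (x + y)) - (cv (flr (t • x)) - t • x) -
            (cv (flr (t • y)) - t • y) := by
        rw [cv_add, smul_add]; abel
      rw [e]
      have k1 := norm_sub_le ((cv (flr (t • (x + y))) - t • (x + y)) - (cv (flr (t • x)) - t • x))
        (cv (flr (t • y)) - t • y)
      have k2 := norm_sub_le (cv (flr (t • (x + y))) - t • (x + y)) (cv (flr (t • x)) - t • x)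
      linarith [norm_flr (t • (x + y)), norm_flr (t • x), norm_flr (t • y)]
    have h2 := hlip _ _ _ h1
    have h3 := hadd (flr (t • x)) (flr (t • y))
    linarith [hK t ht, hK' t ht]
  have rneg : ∀ x s, Rate a x s → Rate a (-x) s := by
    rintro x s ⟨K, hK⟩
    refine ⟨K + 2 * m * 2, fun t ht => ?_⟩
    have h1 : ‖cv (flr (t • -x)) - cv (-flr (t • x))‖ ≤ 2 := by
      have e : cv (flr (t • -x)) - cv (-flr (t • x)) =
          (cv (flr (t • -x)) - t • -x) + (cv (flr (t • x)) - t • x) := by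
        rw [cv_neg, smul_neg]; abel
      rw [e]
      have k1 := norm_add_le (cv (flr (t • -x)) - t • -x) (cv (flr (t • x)) - t • x)
      linarith [norm_flr (t • -x), norm_flr (t • x)]
    have h2 := hlip _ _ _ h1
    rw [hneg] at h2
    linarith [hK t ht]
  have rpos : ∀ (r : ℝ) x s, 0 ≤ r → Rate a x s → Rate a (r • x) (r * s) := by
    rintro r x s hr ⟨K, hK⟩
    refine ⟨K, fun t ht => ?_⟩
    have h1 := hK (t * r) (by positivity)
    rw [smul_smul]
    linarith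
  have rsmul : ∀ (r : ℝ) x s, Rate a x s → Rate a (r • x) (‖r‖ * s) := by
    intro r x s h
    rcases le_total 0 r with hr | hr
    · rw [Real.norm_of_nonneg hr]
      exact rpos r x s hr h
    · rw [Real.norm_of_nonpos hr]
      have h1 := rpos (-r) (-x) s (by linarith) (rneg x s h)
      rwa [smul_neg, neg_smul, neg_neg] at h1
  have rcv : ∀ v, Rate a (cv v) (a v) := fun v => ⟨2 * m * (1 + ‖cv v‖), fun t ht => by
    have h1 : ‖cv (flr (t • cv v)) - cv ((⌊t⌋₊ : ℤ) • v)‖ ≤ 1 + ‖cv v‖ := by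
      have e : cv (flr (t • cv v)) - cv ((⌊t⌋₊ : ℤ) • v) =
          (cv (flr (t • cv v)) - t • cv v) + (t - ⌊t⌋₊) • cv v := by
        rw [cv_smul, sub_smul]; abel
      rw [e]
      have k1 := norm_add_le (cv (flr (t • cv v)) - t • cv v) ((t - ⌊t⌋₊) • cv v)
      have k2 : ‖(t - ⌊t⌋₊) • cv v‖ ≤ ‖cv v‖ := by
        rw [norm_smul, Real.norm_of_nonneg (by linarith [Nat.floor_le ht])]
        exact mul_le_of_le_one_left (norm_nonneg _) (by linarith [Nat.lt_floor_add_one t])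
      linarith [norm_flr (t • cv v)]
    have h2 := hlip _ _ _ h1
    have h3 := hn ⌊t⌋₊ v
    have h4 := mul_le_mul_of_nonneg_right (Nat.floor_le ht) (h0 v)
    linarith⟩
  set f : ℝ × ℝ → ℝ := fun x => sInf {s | Rate a x s} with hf
  have fle : ∀ x s, Rate a x s → f x ≤ s := fun x s h => csInf_le ⟨0, rnn x⟩ h
  have lef : ∀ x y, (∀ s, Rate a x s → y ≤ s) → y ≤ f x := fun x y h => le_csInf ⟨_, rbd x⟩ h
  have f0 : f 0 = 0 := le_antisymm (by simpa using fle 0 _ (rbd 0)) (lef 0 0 (rnn 0))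
  have fadd : ∀ x y, f (x + y) ≤ f x + f y := fun x y => by
    have h1 : f (x + y) - f x ≤ f y := lef y _ fun s' hs' => by
      have h2 : f (x + y) - s' ≤ f x := lef x _ fun s hs => by
        linarith [fle _ _ (radd x y s s' hs hs')]
      linarith
    linarith
  have fsmul : ∀ (r : ℝ) x, f (r • x) ≤ ‖r‖ * f x := fun r x => by
    rcases eq_or_ne r 0 with rfl | hr
    · simp [f0]
    · have hr' : 0 < ‖r‖ := norm_pos_iff.2 hr
      rw [← div_le_iff₀' hr']
      refine lef x _ fun s hs => ?_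
      rw [div_le_iff₀' hr']
      exact fle _ _ (rsmul r x s hs)
  refine ⟨Seminorm.ofSMulLE f f0 fadd fsmul, fun v => fle _ _ (rcv v), fun v δ hδ => ?_,
    fun x => fle _ _ (rbd x), fun x => lef x _ (rlow x)⟩
  change ∃ n0 : ℕ, ∀ n : ℕ, n0 ≤ n → a ((n : ℤ) • v) ≤ n * (f (cv v) + δ)
  obtain ⟨s, ⟨K, hK⟩, hs⟩ := exists_lt_of_csInf_lt (s := {s | Rate a (cv v) s}) ⟨_, rbd _⟩
    (show f (cv v) < f (cv v) + δ / 2 by linarith)
  obtain ⟨n0, hn0⟩ := exists_nat_ge (K / (δ / 2))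
  refine ⟨n0, fun n hn' => ?_⟩
  have h1 := hK n (Nat.cast_nonneg n)
  rw [← cv_smul, flr_cv] at h1
  have h2 : (n0 : ℝ) ≤ n := by exact_mod_cast hn'
  rw [div_le_iff₀ (by positivity)] at hn0
  have h3 := mul_le_mul_of_nonneg_right hs.le (Nat.cast_nonneg (α := ℝ) n)
  have h4 := mul_le_mul_of_nonneg_right h2 (by positivity : 0 ≤ δ / 2)
  nlinarith

end Vale.Agent.P158b
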