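import Vale.Agent.P158b.Straight
import Vale.Agent.P158b.Block

/-! Geodesics in non-flat directions are straight with high probability. -/

open MeasureTheory ProbabilityTheory Finset
open scoped Classical

namespace Vale.Agent.P158b

private theorem sp_window {μ : Seminorm ℝ (ℝ × ℝ)} {ρ : (ℝ × ℝ) →ₗ[ℝ] ℝ} {sw : Bool}
    {s σ B ξ0 δ0 : ℝ} {w x : ℝ × ℝ} (hξ : 0 ≤ ξ0) (hρ : ∀ x, ρ x ≤ μ x) (hσ : σ = 1 ∨ σ = -1)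
    (hB : 0 ≤ B) (hδ : B * δ0 ≤ ξ0) (h1 : B * (μ w - ρ w) ≤ ξ0) (h2 : |gQ sw s w| ≤ ξ0)
    (h3 : ∀ x, σ * gQ sw s x ≤ B * (μ x - ρ x) + ξ0 * ‖x‖) (hx : ‖x‖ ≤ 2) (hwx : ‖w - x‖ ≤ 2)
    (h : μ x + μ (w - x) ≤ μ w + δ0) : |gQ sw s x| ≤ 5 * ξ0 := by
  have a1 := h3 x
  have a2 := h3 (w - x)
  have a3 := mul_nonneg hB (sub_nonneg.2 (hρ x))
  have a4 := mul_nonneg hB (sub_nonneg.2 (hρ (w - x)))
  have a5 := mul_le_mul_of_nonneg_left h hB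
  have a6 := mul_le_mul_of_nonneg_left hx hξ
  have a7 := mul_le_mul_of_nonneg_left hwx hξ
  have a8 := abs_le.1 h2
  rw [gQ_sub, map_sub ρ] at a2
  rw [map_sub ρ] at a4
  rcases hσ with rfl | rfl <;> refine abs_le.2 ⟨?_, ?_⟩ <;> nlinarith [a8.1, a8.2]

private theorem sp_many (M : Model) {C1 δ : ℝ} (hC1 : 0 < C1) (hδ : 0 < δ) :
    ∃ κ : ℝ, 0 < κ ∧ κ ≤ 1 ∧ ∀ η : ℝ, 0 < η → ∃ N0 : ℕ, ∀ N : ℕ, N0 ≤ N →
      (PP M.G).real {ω | ∃ x ∈ box 0 N,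
        Many (Set.Iio κ) 0 ⌈C1 * N⌉₊ (δ * (⌈C1 * N⌉₊ : ℕ)) x ω} ≤ η := by
  obtain ⟨η0, C, h0, hC, hm⟩ := many_small 0 hδ
  obtain ⟨κ, k0, k1, hk⟩ := M.low_small h0
  refine ⟨κ, k0, k1, fun η hη => ?_⟩
  have hl : 0 < Real.log 2 := Real.log_pos (by norm_num)
  obtain ⟨N0, hN0⟩ := poly_geom_small (4 * C) (C1 * Real.log 2) (by positivity) 2 hη
  refine ⟨N0, fun N hN => le_trans ?_ (hN0 N hN)⟩
  have e : {ω : Env | ∃ x ∈ box 0 N, Many (Set.Iio κ) 0 ⌈C1 * N⌉₊ (δ * (⌈C1 * N⌉₊ : ℕ)) x ω} =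
      ⋃ x ∈ box 0 N, {ω | Many (Set.Iio κ) 0 ⌈C1 * N⌉₊ (δ * (⌈C1 * N⌉₊ : ℕ)) x ω} := by
    ext ω; simp
  have a1 : (1 / 2 : ℝ) ^ ⌈C1 * N⌉₊ ≤ Real.exp (-(C1 * Real.log 2) * N) := by
    have : (1 / 2 : ℝ) = Real.exp (-Real.log 2) := by
      rw [Real.exp_neg, Real.exp_log (by norm_num)]; norm_num
    rw [this, ← Real.exp_nat_mul]
    have := mul_le_mul_of_nonneg_right (Nat.le_ceil (C1 * N)) hl.le
    exact Real.exp_le_exp.2 (by linarith)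
  rw [e]
  refine (measureReal_biUnion_finset_le _ _).trans ((Finset.sum_le_card_nsmul _ _ _
    fun x _ => hm M.G _ measurableSet_Iio hk _ x).trans ?_)
  rw [card_box, nsmul_eq_mul]
  push_cast
  have a2 : (2 * (N : ℝ) + 1) ^ 2 ≤ 4 * (N + 1) ^ 2 := by nlinarith [Nat.cast_nonneg (α := ℝ) N]
  calc _ ≤ 4 * ((N : ℝ) + 1) ^ 2 * (C * Real.exp (-(C1 * Real.log 2) * N)) := by gcongr
    _ = _ := by ring

private theorem sp_low (M : Model) {C1 ξ0 κ : ℝ} (hC1 : 0 < C1) (hξ : 0 < ξ0) (k1 : κ ≤ 1)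
    {N : ℕ} (hN : 1 ≤ N) {ω : Env} {a b : V} {l : List V} (hl : IsPth (bx 0 N) a b l)
    (hlen : (len l : ℝ) ≤ C1 * N)
    (h : ¬ Many (Set.Iio κ) 0 ⌈C1 * N⌉₊ (ξ0 / (C1 + 1) * (⌈C1 * N⌉₊ : ℕ)) a ω) :
    (((range (len l)).filter fun i => M.Ψ ω (ed l i) < κ).card : ℝ) ≤ ξ0 * N := by
  have a0 : len l ≤ ⌈C1 * N⌉₊ := by exact_mod_cast hlen.trans (Nat.le_ceil _)
  rw [← hl.start] at h
  have a1 := card_lt_of_not_many a0 (fun i hi => hl.chain.1 i (Nat.zero_le _) hi) hl.inj h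
  have a2 : ((range (len l)).filter fun i => M.Ψ ω (ed l i) < κ) ⊆
      (range (len l)).filter fun i => ω s(vx l i, vx l (i + 1)) ∈ Set.Iio κ := by
    intro i hi
    rw [mem_filter] at hi ⊢
    exact ⟨hi.1, lt_of_not_ge fun hc => absurd (M.le_of_le k1 hc) (not_le.2 hi.2)⟩
  have a3 : (((range (len l)).filter fun i => M.Ψ ω (ed l i) < κ).card : ℝ) ≤ _ :=
    Nat.cast_le.2 (card_le_card a2)
  have hN' : (1 : ℝ) ≤ N := by exact_mod_cast hN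
  have a4 : ((⌈C1 * N⌉₊ : ℕ) : ℝ) ≤ (C1 + 1) * N := by
    have := Nat.ceil_lt_add_one (a := C1 * N) (by positivity)
    linarith
  refine a3.trans (a1.le.trans ?_)
  calc _ ≤ ξ0 / (C1 + 1) * ((C1 + 1) * N) := by gcongr
    _ = _ := by field_simp

private theorem sp_h4 {B B' ξ0 C1 m h N : ℝ} (hB : 0 < B) (h0 : 0 ≤ B') (hB' : B' ≤ B)
    (hξ : 0 < ξ0) (hC : 0 < C1) (hm : 0 ≤ m) (hh : 0 ≤ h) (hN : 16 * B * m * h / ξ0 ≤ N) :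
    B' * ((ξ0 / (4 * B * (1 + 2 * C1)) + 2 * (ξ0 / (4 * B * (1 + 2 * C1))) * C1 +
      4 * m * (ξ0 / (4 * B * (4 * m + 1)))) * N + 8 * m * h) ≤ ξ0 * N := by
  have hN0 : 0 ≤ N := le_trans (by positivity) hN
  rw [div_le_iff₀ hξ] at hN
  have a1 : ξ0 / (4 * B * (1 + 2 * C1)) + 2 * (ξ0 / (4 * B * (1 + 2 * C1))) * C1 =
      ξ0 / (4 * B) := by field_simp
  have a2 : 4 * m * (ξ0 / (4 * B * (4 * m + 1))) ≤ ξ0 / (4 * B) := by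
    calc _ ≤ (4 * m + 1) * (ξ0 / (4 * B * (4 * m + 1))) := by gcongr; linarith
      _ = _ := by field_simp
  calc _ ≤ B * ((ξ0 / (4 * B) + ξ0 / (4 * B)) * N + 8 * m * h) := by rw [a1]; gcongr
    _ = ξ0 * N / 2 + 16 * B * m * h / 2 := by field_simp; ring
    _ ≤ _ := by linarith

/-- Put `ξ0 = ξ / (20 (C1 + 1))`, `m = 2 M.m`. Take `κ` from `low_small` with the `η0` of
`many_small 0 (ξ0 / (C1 + 1))` (used with `n = ⌈C1 N⌉₊` from all points of the box), `geo_cover`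
with `B0 = 1 / κ`, then `δ, ζ` with `B (δ + 2 δ C1 + 4 m ζ) ≤ ξ0 / 2`, `h` from `block_small`,
`H = 8 h`, `δ0 = ξ0 / (B + 1)`; `ul_two` with `h = N` bounds the weight; `gsel` by choice;
`straight_core` (homogeneity: `cv b - cv a = N • nv N a b`). -/
theorem straight_prob (M : Model) {μ : Seminorm ℝ (ℝ × ℝ)} (hμ : Shape M μ) {C1 c2 ξ : ℝ}
    (hC1 : 0 < C1) (hc2 : 0 < c2) (hξ : 0 < ξ) {k : ℕ} (hk : 80 * (C1 + 1) ≤ ξ * k) :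
    ∃ (r H δ0 : ℝ) (gsel : ℝ × ℝ → Bool × ℤ), 0 < r ∧ 0 ≤ H ∧ 0 < δ0 ∧
      (∀ w, |(gsel w).2| ≤ k) ∧
      (∀ w x : ℝ × ℝ, c2 ≤ ‖w‖ → ‖w‖ ≤ 2 → ¬ Flat μ w r → ‖x‖ ≤ 2 → ‖w - x‖ ≤ 2 →
        μ x + μ (w - x) ≤ μ w + δ0 → |gQ (gsel w).1 ((gsel w).2 / k) x| ≤ ξ) ∧
      ∀ η : ℝ, 0 < η → ∃ N0 : ℕ, ∀ N : ℕ, N0 ≤ N → (PP M.G).real
        {ω | ∃ w a b l, c2 ≤ ‖w‖ ∧ ‖w‖ ≤ 2 ∧ ¬ Flat μ w r ∧ Bd 0 N a ∧ Bd 0 N b ∧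
          ‖nv N a b - w‖ ≤ r ∧ IsGeo (bx 0 N) (M.Ψ ω) a b l ∧ (len l : ℝ) ≤ C1 * N ∧
          ¬ Straight (gsel w).1 ((gsel w).2 / k) (ξ * N) H l} ≤ η := by
  obtain ⟨ξ0, hξ0⟩ : ∃ x, x = ξ / (20 * (C1 + 1)) := ⟨_, rfl⟩
  have x0 : 0 < ξ0 := by rw [hξ0]; positivity
  have x1 : 20 * (C1 + 1) * ξ0 = ξ := by rw [hξ0]; field_simp
  have hk4 : 4 ≤ ξ0 * k := by
    rw [← x1] at hk
    refine le_of_mul_le_mul_left ?_ (by positivity : 0 < 20 * (C1 + 1))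
    linarith
  have hk0 : (0 : ℝ) < k := by
    by_contra hc
    nlinarith [Nat.cast_nonneg (α := ℝ) k]
  have hm0 : 0 ≤ 2 * M.m := by linarith [M.m_nonneg]
  obtain ⟨c0, hc0, hpos⟩ := hμ.pos
  obtain ⟨κ, k0, k1, hκ⟩ := sp_many M hC1 (δ := ξ0 / (C1 + 1)) (by positivity)
  obtain ⟨r, B, hr, hcov⟩ := geo_cover μ hc0 hpos hμ.bound hc2 x0 (1 / κ) hk4
  obtain ⟨Bm, b0, b1⟩ : ∃ Bm : ℝ, 0 < Bm ∧ B ≤ Bm :=
    ⟨|B| + 1, by positivity, by linarith [le_abs_self B]⟩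
  have hsel : ∀ w : ℝ × ℝ, ∃ g : Bool × ℤ, |g.2| ≤ k ∧ (c2 ≤ ‖w‖ → ‖w‖ ≤ 2 → ¬ Flat μ w r →
      ∃ (ρ : (ℝ × ℝ) →ₗ[ℝ] ℝ) (σ B' : ℝ), (∀ x, ρ x ≤ μ x) ∧
        (σ = 1 ∨ σ = -1) ∧ 1 / κ ≤ B' ∧ 0 ≤ B' ∧ B' ≤ B ∧
        (∀ w', ‖w' - w‖ ≤ r → B' * (μ w' - ρ w') ≤ ξ0 ∧ |gQ g.1 (g.2 / k) w'| ≤ ξ0) ∧
        ∀ x, σ * gQ g.1 (g.2 / k) x ≤ B' * (μ x - ρ x) + ξ0 * ‖x‖) := by
    intro w
    by_cases hw : c2 ≤ ‖w‖ ∧ ‖w‖ ≤ 2 ∧ ¬ Flat μ w r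
    · obtain ⟨sw, j, ρ, σ, B', hj, h⟩ := hcov w hw.1 hw.2.1 hw.2.2
      exact ⟨(sw, j), hj, fun _ _ _ => ⟨ρ, σ, B', h⟩⟩
    · exact ⟨(true, 0), by simp, fun a b c => absurd ⟨a, b, c⟩ hw⟩
  choose gsel hg1 hg2 using hsel
  obtain ⟨δ, hδ⟩ : ∃ x, x = ξ0 / (4 * Bm * (1 + 2 * C1)) := ⟨_, rfl⟩
  obtain ⟨ζ, hζ⟩ : ∃ x, x = ξ0 / (4 * Bm * (4 * (2 * M.m) + 1)) := ⟨_, rfl⟩
  have d0 : 0 < δ := by rw [hδ]; positivity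
  have z0 : 0 < ζ := by rw [hζ]; positivity
  obtain ⟨h, h1, hblk⟩ := block_small M hμ d0 z0 (C := C1 + ζ + 3) (by positivity)
  refine ⟨r, 8 * h, ξ0 / Bm, gsel, hr, by positivity, by positivity, hg1, ?_, fun η hη => ?_⟩
  · intro w x w1 w2 w3 hx hwx hs
    obtain ⟨ρ, σ, B', p1, p2, -, p4, p5, p6, p7⟩ := hg2 w w1 w2 w3
    have q := p6 w (by simpa using hr.le)
    have a1 : B' * (ξ0 / Bm) ≤ ξ0 := by
      calc _ ≤ Bm * (ξ0 / Bm) := by gcongr; exact p5.trans b1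
        _ = _ := by field_simp
    refine (sp_window x0.le p1 p2 p4 a1 q.1 q.2 p7 hx hwx hs).trans ?_
    nlinarith [mul_pos hC1 x0]
  have hη3 : 0 < η / 3 := by positivity
  obtain ⟨N1, hN1⟩ := hblk _ hη3
  obtain ⟨N2, hN2⟩ := ul_two M hμ d0 hη3
  obtain ⟨N3, hN3⟩ := hκ _ hη3
  refine ⟨N1 + N2 + N3 + h + ⌈16 * Bm * (2 * M.m) * h / ξ0⌉₊, fun N hN => ?_⟩
  have n1 : 1 ≤ N := by omega
  have nR : (0 : ℝ) < N := by exact_mod_cast n1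
  have e1 := hN1 N (by omega)
  have e2 := hN2 N (by omega) N n1 le_rfl
  have e3 := hN3 N (by omega)
  refine le_trans (measureReal_mono ?_ (measure_ne_top _ _))
    (((measureReal_union_le _ _).trans (add_le_add (measureReal_union_le _ _) le_rfl)).trans
      ((add_le_add (add_le_add e1 e2) e3).trans (by linarith)))
  rintro ω ⟨w, a, b, l, w1, w2, w3, ha, hb, hw, hl, hlen, hns⟩
  by_contra hc
  simp only [Set.mem_union, Set.mem_setOf_eq, not_or, not_not, not_exists, not_and, not_lt] at hc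
  obtain ⟨⟨c1, c2'⟩, c3⟩ := hc
  obtain ⟨ρ, σ, B', p1, p2, p3, p4, p5, p6, p7⟩ := hg2 w w1 w2 w3
  obtain ⟨q1, q2⟩ := p6 _ hw
  have hv : cv b - cv a = (N : ℝ) • nv N a b := by
    rw [nv, smul_smul, mul_inv_cancel₀ nR.ne', one_smul]
  have hs : |((gsel w).2 : ℝ) / k| ≤ 1 := by
    rw [abs_div, abs_of_pos hk0, div_le_one hk0]
    exact_mod_cast hg1 w
  apply hns
  rw [← x1]
  refine straight_core (M.nonneg ω) μ ρ hm0 hμ.bound p1 p2 hs k0 ?_ x0.le d0.le z0 hC1.le h1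
    (by omega) hl.1 hlen ?_ c1 (sp_low M hC1 x0 k1 n1 hl.1 hlen (c3 a (mem_box.2 ha.1))) ?_ ?_ p7 ?_
  · rwa [div_le_iff₀ k0] at p3
  · rw [hl.wt_eq (M.nonneg ω)]
    linarith [(abs_le.1 (c2' a b ha hb)).2]
  · rw [hv, map_smul_eq_mul, map_smul, smul_eq_mul, Real.norm_natCast, ← mul_sub, mul_left_comm,
      mul_comm ξ0]
    gcongr
  · rw [hv, gQ_smul, abs_mul, abs_of_pos nR, mul_comm ξ0]
    gcongr
  · rw [hδ, hζ]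
    refine sp_h4 b0 p4 (p5.trans b1) x0 hC1 hm0 (by positivity) ((Nat.le_ceil _).trans ?_)
    exact_mod_cast (by omega)

end Vale.Agent.P158b
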