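import Vale.Agent.P158b.TieA
import Vale.Agent.P158b.Fam

/-! Many near ties are unlikely. -/

open MeasureTheory ProbabilityTheory Finset
open scoped Classical

namespace Vale.Agent.P158b

theorem tieP_det (M : Model) {K ε κ : ℝ} (hK : 0 ≤ K) (hε : 0 < ε) (hκ : 0 < κ) (hκ1 : 4 * κ ≤ 1)
    {L L0 L1 N : ℕ} (hL0 : 4 * (K + 1) < κ * L0) (hL1 : 4 * L0 ≤ ε * L1) (h1 : 1 ≤ L1) {z : V}
    {ω : Env} (hT : Tie (M.Ψ ω) N L K ε z)
    (hM : ¬ Many (Lo M.t0 M.M0 (4 * κ)) 0 L (ε / 8 * L) z ω)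
    (hS : ∑ e ∈ edgesOf (box z L), M.Ψ ω e ≤ (L : ℝ) ^ 3) :
    ∃ z' π b, IsGeo (bx 0 N) (M.Ψ ω) z z' π ∧ len π = L ∧
      (∀ i, i ≤ L → ¬ Out 0 N (vx π i)) ∧ Bd 0 N b ∧
      (∀ c ∈ pat (M.Ψ ω) N π (L ^ 3 + ⌈K⌉₊) b,
        -(K + 1) ≤ ∑ k ∈ range c.1, M.Ψ ω (ed π k) + c.2) ∧
      ⌊(ε * L / (2 * L0) - 2) / L1⌋₊ * L1 ≤ ((range L).filter fun i =>
        Elig (pat (M.Ψ ω) N π (L ^ 3 + ⌈K⌉₊) b) (fun k => M.Ψ ω (ed π k))
          (fun k => fl M.t0 M.M0 (ω (ed π k))) (K + 1) κ L1 i).card := by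
  obtain ⟨z', π, b, hg, rfl, hin, hb, r0, hlo, hcnt⟩ := hT
  have ht := M.nonneg ω
  have eW : ∀ i, W (M.Ψ ω) (vx π) 0 i = ∑ k ∈ range i, M.Ψ ω (ed π k) := fun i => by
    rw [range_eq_Ico]
    rfl
  have hW : ∀ i, i ≤ len π → W (M.Ψ ω) (vx π) 0 i ≤ (len π : ℝ) ^ 3 := fun i hi => by
    have c1 := W_add (M.Ψ ω) (vx π) (Nat.zero_le i) hi
    have c2 := W_nonneg ht (vx π) i (len π)
    have c3 : W (M.Ψ ω) (vx π) 0 (len π) = ∑ e ∈ pedges π, M.Ψ ω e := hg.1.wt_eq_sum _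
    have c4 : ∑ e ∈ pedges π, M.Ψ ω e ≤ ∑ e ∈ edgesOf (box z (len π)), M.Ψ ω e := by
      refine sum_le_sum_of_subset_of_nonneg (fun e he => ?_) fun e _ _ => ht e
      obtain ⟨k, hk, rfl⟩ := mem_pedges.1 he
      refine mem_edgesOf.2 ⟨vx π k, mem_box.2 ?_, _, hg.1.chain.1 k k.zero_le hk, rfl⟩
      have c5 := hg.1.chain.near le_rfl k.zero_le hk.le
      rw [hg.1.start] at c5
      exact c5.symm.mono (by omega)
    linarith
  have hP : ∀ c ∈ pat (M.Ψ ω) N π (len π ^ 3 + ⌈K⌉₊) b, c.1 ≤ len π := fun c hc =>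
    Nat.lt_succ_iff.1 (mem_range.1 (mem_product.1 (mem_filter.1 hc).1).1)
  have hbar : ∀ c ∈ pat (M.Ψ ω) N π (len π ^ 3 + ⌈K⌉₊) b,
      -(K + 1) ≤ ∑ k ∈ range c.1, M.Ψ ω (ed π k) + c.2 := fun c hc => by
    obtain ⟨-, -, c1, c2⟩ := mem_filter.1 hc
    have c3 := hlo c.1 (hP c hc) c1
    have c4 := Int.lt_floor_add_one (ex (M.Ψ ω) N π b c.1 - ex (M.Ψ ω) N π b 0)
    rw [← eW, ← c2]
    linarith
  refine ⟨z', π, b, hg, rfl, hin, hb, hbar, ?_⟩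
  have hlow := card_lt_of_not_many (B := Lo M.t0 M.M0 (4 * κ)) (r := 0) (k := ε / 8 * len π)
    (ω := ω) (f := vx π) le_rfl (fun i hi => hg.1.chain.1 i i.zero_le hi) hg.1.inj
    (by rwa [hg.1.start])
  have h := elig_many _ (fun k => M.Ψ ω (ed π k)) (fun k => fl M.t0 M.M0 (ω (ed π k))) hκ hε
    (by linarith) hL0 hL1 (fun k => M.fl_le ω _) hP hbar
    (hcnt.trans (Nat.cast_le.2 (card_le_card fun i hi => by
      obtain ⟨c0, c1, c2⟩ := mem_filter.1 hi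
      have c3 : i ≤ len π := Nat.lt_succ_iff.1 (mem_range.1 c0)
      have c4 := hlo i c3 c1
      have c5 := hW i c3
      have c6 := W_nonneg ht (vx π) 0 i
      have c7 := Int.floor_le (ex (M.Ψ ω) N π b i - ex (M.Ψ ω) N π b 0)
      have c8 := Nat.le_ceil K
      have c9 : (0 : ℝ) ≤ (len π : ℝ) ^ 3 := by positivity
      refine mem_filter.2 ⟨c0, ⌊ex (M.Ψ ω) N π b i - ex (M.Ψ ω) N π b 0⌋,
        mem_filter.2 ⟨mem_product.2 ⟨c0, mem_Icc.2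
        ⟨Int.le_floor.2 ?_, Int.cast_le (R := ℝ).1 ?_⟩⟩, r0, c1, rfl⟩, ?_⟩
      · push_cast
        linarith
      · push_cast
        linarith
      · rw [← eW]
        linarith)))
    (le_trans (Nat.cast_le.2 (card_le_card fun k hk => mem_filter.2 ⟨(mem_filter.1 hk).1,
      by_contra fun c1 => not_le.2 (mem_filter.1 hk).2 (M.le_of_not_lo hκ1 c1)⟩)) hlow.le)
  refine (Nat.le_div_iff_mul_le h1).1 ?_
  rw [← Nat.floor_div_eq_div (K := ℝ)]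
  exact Nat.floor_mono (div_le_div_of_nonneg_right h (Nat.cast_nonneg _))

theorem tieP_markov (M : Model) {L : ℕ} (hL : 1 ≤ L) (z : V) :
    (PP M.G).real {ω | (L : ℝ) ^ 3 ≤ ∑ e ∈ edgesOf (box z L), M.Ψ ω e} ≤ 36 * M.m / L := by
  have h0 : ∀ e ∈ edgesOf (box z L), Integrable (fun ω => M.Ψ ω e) (PP M.G) ∧
      ∫ ω, M.Ψ ω e ∂(PP M.G) ≤ M.m := fun e he => by
    obtain ⟨x, -, y, h, rfl⟩ := mem_edgesOf.1 he
    exact ⟨M.integ x y h, M.mean x y h⟩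
  have h1 := mul_meas_ge_le_integral_of_nonneg
    (.of_forall fun ω => sum_nonneg fun e _ => M.nonneg ω e)
    (integrable_finsetSum _ fun e he => (h0 e he).1) ((L : ℝ) ^ 3)
  rw [integral_finsetSum _ fun e he => (h0 e he).1] at h1
  have h2 := sum_le_card_nsmul _ _ _ fun e he => (h0 e he).2
  have h3 : ((edgesOf (box z L)).card : ℝ) ≤ 36 * (L : ℝ) ^ 2 := by
    have c1 := card_edgesOf (box z L)
    rw [card_box] at c1
    exact_mod_cast c1.trans (by nlinarith)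
  have h4 := mul_le_mul_of_nonneg_right h3 M.m_nonneg
  have h5 : (0 : ℝ) < L := by exact_mod_cast hL
  rw [nsmul_eq_mul] at h2
  rw [le_div_iff₀ h5]
  exact le_of_mul_le_mul_left (a := (L : ℝ) ^ 2) (by linarith) (by positivity)

theorem tieP_num {c a b : ℝ} (hc0 : 0 ≤ c) (hc1 : c ≤ 1) (k L R : ℕ) (hR : a * L - b ≤ R) :
    (2 * L + 1 : ℝ) ^ 2 * (1 + 2 * ((L + 1) * (2 * (L ^ 3 + k : ℕ) + 2))) * (1 - c) ^ R ≤
      4 * (4 * k + 9) * Real.exp (c * b) * (L + 1) ^ 6 * Real.exp (-(c * a) * L) := by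
  have h0 : (0 : ℝ) ≤ L := Nat.cast_nonneg _
  have hk : (0 : ℝ) ≤ k := Nat.cast_nonneg _
  have h1 : (1 - c) ^ R ≤ Real.exp (c * b) * Real.exp (-(c * a) * L) := by
    refine (pow_le_pow_left₀ (by linarith) (Real.one_sub_le_exp_neg c) R).trans ?_
    rw [← Real.exp_nat_mul, ← Real.exp_add]
    exact Real.exp_le_exp.2 (by linarith [mul_le_mul_of_nonneg_left hR hc0])
  have h2 : (2 * L + 1 : ℝ) ^ 2 ≤ 4 * (L + 1) ^ 2 := by nlinarith
  have h3 : (L : ℝ) ^ 3 ≤ (L + 1) ^ 3 := pow_le_pow_left₀ h0 (by linarith) 3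
  have h4 : (1 : ℝ) ≤ (L + 1) ^ 3 := one_le_pow₀ (by linarith)
  have h5 : (1 : ℝ) ≤ (L + 1) ^ 4 := one_le_pow₀ (by linarith)
  have h6 : 2 * ((L : ℝ) ^ 3 + k) + 2 ≤ (2 * k + 4) * (L + 1) ^ 3 := by nlinarith
  have h7 := mul_le_mul_of_nonneg_left h6 (by linarith : (0 : ℝ) ≤ L + 1)
  have h8 : 1 + 2 * (((L : ℝ) + 1) * (2 * ((L : ℝ) ^ 3 + k) + 2)) ≤ (4 * k + 9) * (L + 1) ^ 4 := by
    linarith
  push_cast
  exact le_trans (mul_le_mul (mul_le_mul h2 h8 (by positivity) (by positivity)) h1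
    (pow_nonneg (by linarith) _) (by positivity)) (le_of_eq (by ring))

/-- Choose `κ` by `lo_small` (with the `η0` of `many_small 0 (ε / 8)`, so `Lo (4 κ)` is rare, `4 κ ≤ 1`),
`c` by `lo_pos`, `L0`, `L1` for `K + 1`, `Km = L ^ 3 + ⌈K⌉₊ + 1`, `R = ⌊(ε L / (2 L0) - 2) / L1⌋₊`.
Off `Many (Lo (4 κ)) 0 L (ε / 8 * L) z` and `L ^ 3 < ∑ e ∈ edgesOf (box z L), Ψ e` (Markov), `Tie`
gives the hypotheses of `elig_many` for `P = pat ..` and `K + 1` (`W (vx π) 0 i ≤ L ^ 3` because the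
edges of `π` are distinct elements of `edgesOf (box z L)`), hence the event of `elig_prob`. -/
theorem tie_prob (M : Model) {K ε η : ℝ} (hK : 0 ≤ K) (hε : 0 < ε) (hη : 0 < η) :
    ∃ L : ℕ, 1 ≤ L ∧ ∀ N : ℕ, 1 ≤ N → ∀ z : V,
      (PP M.G).real {ω | Tie (M.Ψ ω) N L K ε z} ≤ η := by
  obtain ⟨η0, C, hη0, -, hM⟩ := many_small 0 (by positivity : 0 < ε / 8)
  obtain ⟨κ, hκ, hκ1, hlo, -⟩ := M.lo_small hη0
  obtain ⟨c, hc0, hc1, h1, h2⟩ := M.lo_pos (half_pos hκ)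
  obtain ⟨L0, hL0⟩ := exists_nat_gt (4 * (K + 1) / (κ / 2))
  rw [div_lt_iff₀' (half_pos hκ)] at hL0
  have h0 : (0 : ℝ) < L0 := (mul_pos_iff_of_pos_left (half_pos hκ)).1 (by linarith)
  obtain ⟨L1, hL1⟩ := exists_nat_ge (4 * L0 / ε)
  rw [div_le_iff₀' hε] at hL1
  have h3 : (0 : ℝ) < L1 := (mul_pos_iff_of_pos_left hε).1 (by linarith)
  have h4 : 1 ≤ L1 := by exact_mod_cast h3
  obtain ⟨N0, hN0⟩ := poly_geom_small (4 * (4 * ⌈K⌉₊ + 9) * Real.exp (c ^ L1 * (2 / L1 + 1)))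
    (c ^ L1 * (ε / (2 * L0) / L1)) (by positivity) 6 (by positivity : 0 < η / 3)
  have t1 : Filter.Tendsto (fun n : ℕ => C * (1 / 2 : ℝ) ^ n) Filter.atTop (nhds (C * 0)) :=
    (tendsto_pow_atTop_nhds_zero_of_lt_one (by norm_num) (by norm_num)).const_mul C
  rw [mul_zero] at t1
  obtain ⟨L, ⟨e1, e2⟩, e3, e4⟩ := (((t1.eventually (ge_mem_nhds (by positivity : 0 < η / 3))).and
    ((tendsto_const_div_atTop_nhds_zero_nat (36 * M.m)).eventually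
      (ge_mem_nhds (by positivity : 0 < η / 3)))).and
    ((Filter.eventually_ge_atTop N0).and (Filter.eventually_ge_atTop 1))).exists
  refine ⟨L, e4, fun N hN z => ?_⟩
  have p1 := hM M.G _ (measurableSet_Lo _ _ _) hlo L z
  have p2 := tieP_markov M e4 z
  have p3 := elig_prob M (K := K + 1) (half_pos hκ).le hc0.le hc1 h1 h2 hN L L1
    ⌊(ε * L / (2 * L0) - 2) / L1⌋₊ (L ^ 3 + ⌈K⌉₊) h4 z
  have p4 := tieP_num (a := ε / (2 * L0) / L1) (b := 2 / L1 + 1) (by positivity)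
    (pow_le_one₀ hc0.le hc1 : c ^ L1 ≤ 1) ⌈K⌉₊ L ⌊(ε * L / (2 * L0) - 2) / L1⌋₊
    (le_trans (le_of_eq (by ring)) (Nat.sub_one_lt_floor _).le)
  refine le_trans (measureReal_mono ?_) (((measureReal_union_le _ _).trans
    (add_le_add ((measureReal_union_le _ _).trans (add_le_add (p1.trans e1) (p2.trans e2)))
      (p3.trans (p4.trans (hN0 L e3))))).trans (by linarith))
  intro ω hω
  by_contra h
  simp only [Set.mem_union, not_or] at h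
  exact h.2 (tieP_det M hK hε (half_pos hκ) (by linarith) hL0 hL1 h4 hω
    (by rw [show 4 * (κ / 2) = 2 * κ by ring]; exact h.1.1) (not_le.1 h.1.2).le)

end Vale.Agent.P158b
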