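import Vale.Agent.P158b.ProbA
import Vale.Agent.P158b.GeoB
import Vale.Agent.P158b.Fam

/-! Slabs: size and lower tail. -/

open MeasureTheory ProbabilityTheory Finset
open scoped Classical

namespace Vale.Agent.P158b

theorem slab_card_Icc (N : ℕ) : (Icc (-(N : ℤ)) N).card = 2 * N + 1 := by
  rw [Int.card_Icc]
  omega

theorem slab_card_int (u : ℝ) {L : ℝ} (hL : 0 ≤ L) : ((Icc ⌈u⌉ ⌊u + L⌋).card : ℝ) ≤ L + 1 := by
  rw [Int.card_Icc, ← Int.cast_natCast, Int.toNat_eq_max]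
  push_cast
  exact max_le (by linarith [Int.floor_le (u + L), Int.le_ceil u]) (by linarith)

/-- for each value of the longitudinal coordinate there are at most `6 ξ N + 1` points -/
theorem card_slab {N : ℕ} {ξ : ℝ} (hξ : 1 ≤ ξ * N) (hN : 1 ≤ N) (sw : Bool) (s : ℝ) (i : ℤ) :
    ((edgesOf (slab N sw s ξ i)).card : ℝ) ≤ 84 * ξ * N ^ 2 := by
  have hN' : (1 : ℝ) ≤ N := by exact_mod_cast hN
  have hsub : slab N sw s ξ i ⊆ (Icc (-(N : ℤ)) N).biUnion fun a =>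
      (Icc ⌈s * a + i * (ξ * N) - 3 * (ξ * N)⌉
        ⌊s * a + i * (ξ * N) - 3 * (ξ * N) + 6 * (ξ * N)⌋).image
        fun b => if sw = true then (b, a) else (a, b) := by
    intro x hx
    obtain ⟨h1, h2⟩ := mem_filter.1 hx
    have h3 := mem_box.1 h1
    simp only [Near, Prod.fst_zero, Prod.snd_zero] at h3
    rw [abs_le] at h2
    cases sw
    · simp only [gQ, cv, Bool.false_eq_true, if_false] at h2 ⊢
      refine mem_biUnion.2 ⟨x.1, mem_Icc.2 (by omega), mem_image.2 ⟨x.2, mem_Icc.2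
        ⟨Int.ceil_le.2 (by linarith [h2.1]), Int.le_floor.2 (by linarith [h2.2])⟩, rfl⟩⟩
    · simp only [gQ, cv, if_true] at h2 ⊢
      refine mem_biUnion.2 ⟨x.2, mem_Icc.2 (by omega), mem_image.2 ⟨x.1, mem_Icc.2
        ⟨Int.ceil_le.2 (by linarith [h2.1]), Int.le_floor.2 (by linarith [h2.2])⟩, rfl⟩⟩
  have h1 : ((slab N sw s ξ i).card : ℝ) ≤ ((2 * N + 1 : ℕ) : ℝ) * (6 * (ξ * N) + 1) := by
    refine (Nat.cast_le.2 ((card_le_card hsub).trans card_biUnion_le)).trans ?_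
    rw [Nat.cast_sum, ← slab_card_Icc, ← nsmul_eq_mul]
    exact sum_le_card_nsmul _ _ _ fun a _ => (Nat.cast_le.2 card_image_le).trans
      (slab_card_int _ (by linarith))
  have h2 : ((edgesOf (slab N sw s ξ i)).card : ℝ) ≤ 4 * (slab N sw s ξ i).card := by
    exact_mod_cast card_edgesOf _
  have h3 : ((2 * N + 1 : ℕ) : ℝ) * (6 * (ξ * N) + 1) ≤ 3 * N * (7 * (ξ * N)) := by
    push_cast
    exact mul_le_mul (by linarith) (by linarith) (by linarith) (by linarith)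
  linarith

/-- `hs_family` over `sw, j, i` with `n = 84 ξ N ^ 2`: the bound is
`2 (2 k + 1) (4 / ξ + 3) exp (-1 / (16 A ^ 2 * 336 ξ))`, which tends to `0` with `ξ`. -/
theorem slab_prob {A η Ck : ℝ} (hA : 0 < A) (hη : 0 < η) (hCk : 0 < Ck) :
    ∃ ξ0 : ℝ, 0 < ξ0 ∧ ∀ ξ : ℝ, 0 < ξ → ξ ≤ ξ0 → ∀ k : ℕ, (k : ℝ) ≤ Ck / ξ →
      ∀ (G : Measure ℝ) [IsProbabilityMeasure G] (M0 : ℝ) (N : ℕ), 1 ≤ N → 1 ≤ ξ * N →
      ∀ e : Sym2 V, (PP G).real {ω | ∃ (sw : Bool) (j i : ℤ), |j| ≤ k ∧ |(i : ℝ)| ≤ 2 / ξ + 1 ∧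
        hs G M0 (bef (edgesOf (slab N sw (j / k) ξ i)) e) ω ≤ -(N / (4 * A))} ≤ η := by
  obtain ⟨Y, hY⟩ := Filter.eventually_atTop.1
    ((fam_tend (14 * (2 * Ck + 1)) (c := 1 / (5376 * A ^ 2)) (by positivity) 2).eventually
      (ge_mem_nhds hη))
  have hm : 0 < max 1 Y := lt_max_of_lt_left one_pos
  refine ⟨(max 1 Y)⁻¹, inv_pos.2 hm, fun ξ hξ hξ0 k hk G _ M0 N hN hξN e => ?_⟩
  have hy : max 1 Y ≤ ξ⁻¹ := (le_inv_comm₀ hm hξ).2 hξ0
  have hy1 : 1 ≤ ξ⁻¹ := (le_max_left _ _).trans hy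
  have hN' : (0 : ℝ) < N := by exact_mod_cast hN
  have h1 := hs_family G M0 ((univ : Finset Bool) ×ˢ Icc (-(k : ℤ)) k ×ˢ
      Icc (-(⌊2 / ξ + 1⌋₊ : ℤ)) ⌊2 / ξ + 1⌋₊)
    (fun p => bef (edgesOf (slab N p.1 (p.2.1 / k) ξ p.2.2)) e) (n := 84 * ξ * N ^ 2)
    (x := N / (4 * A)) (σ := -1) (by positivity)
    (fun p _ => (Nat.cast_le.2 (card_filter_le _ _)).trans (card_slab hξN hN _ _ _))
    (by positivity) (Or.inr rfl)
  refine (measureReal_mono ?_ (measure_ne_top _ _)).trans (h1.trans (le_trans ?_ (hY _ ((le_max_right _ _).trans hy))))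
  · rintro ω ⟨sw, j, i, hj, hi, h⟩
    have h2 : |i| ≤ (⌊2 / ξ + 1⌋₊ : ℤ) := by
      rw [Int.natCast_floor_eq_floor (by positivity), Int.le_floor]
      exact_mod_cast hi
    exact ⟨(sw, j, i), mem_product.2 ⟨mem_univ _, mem_product.2
      ⟨mem_Icc.2 (abs_le.1 hj), mem_Icc.2 (abs_le.1 h2)⟩⟩, by linarith⟩
  · have e1 : -(N / (4 * A)) ^ 2 / (4 * (84 * ξ * N ^ 2)) = -(1 / (5376 * A ^ 2)) * ξ⁻¹ := by
      field_simp
      norm_num
    rw [e1, card_product, card_product, slab_card_Icc, slab_card_Icc, card_univ, Fintype.card_bool]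
    refine mul_le_mul_of_nonneg_right ?_ (Real.exp_pos _).le
    have h3 := Nat.floor_le (show 0 ≤ 2 / ξ + 1 by positivity)
    rw [div_eq_mul_inv] at hk
    have h4 : 2 / ξ = 2 * ξ⁻¹ := div_eq_mul_inv _ _
    push_cast
    calc (2 : ℝ) * ((2 * k + 1) * (2 * ⌊2 / ξ + 1⌋₊ + 1)) ≤
          2 * (((2 * Ck + 1) * ξ⁻¹) * (7 * ξ⁻¹)) := by gcongr <;> linarith
      _ = _ := by ring

end Vale.Agent.P158b
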