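import Vale.Agent.P158b.TubeD
import Vale.Agent.P158b.Slab

/-! Tubes around two straight walks: upper tail. -/

open MeasureTheory ProbabilityTheory Finset
open scoped Classical

namespace Vale.Agent.P158b

/-- the family of possible sets of cells -/
theorem tube_fam (N J : ℕ) : ∃ 𝓓 : Finset (Finset V),
    𝓓.card ≤ (4 * N + 1) ^ 4 * 2 ^ (176 * (J + 1)) ∧ (∀ D ∈ 𝓓, D.card ≤ 162 * (J + 1)) ∧
    ∀ (f g : ℕ → V) (J₁ J₂ : ℕ) (P : V → Prop), J₁ ≤ J → J₂ ≤ J → Near (2 * N) (f 0) 0 →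
      Near (2 * N) (g 0) 0 → (∀ i, i < J₁ → Near 4 (f i) (f (i + 1))) →
      (∀ i, i < J₂ → Near 4 (g i) (g (i + 1))) →
      (∀ κ, P κ → (∃ j, j ≤ J₁ ∧ Near 4 κ (f j)) ∨ ∃ j, j ≤ J₂ ∧ Near 4 κ (g j)) →
      ∃ D ∈ 𝓓, ∀ κ, κ ∈ D ↔ P κ := by
  obtain ⟨𝓕, h1, h2, h3⟩ := exists_fam (box 0 (2 * N)) 4 J
  have h4 : ∀ a ∈ 𝓕 ×ˢ 𝓕, (thick 4 a.1 ∪ thick 4 a.2).card ≤ 162 * (J + 1) := fun a ha => by
    have := card_union_le (thick 4 a.1) (thick 4 a.2)
    have := card_thick 4 a.1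
    have := card_thick 4 a.2
    have := h2 _ (mem_product.1 ha).1
    have := h2 _ (mem_product.1 ha).2
    omega
  refine ⟨(𝓕 ×ˢ 𝓕).biUnion fun a => (thick 4 a.1 ∪ thick 4 a.2).powerset, ?_, fun D hD => ?_,
    fun f g J₁ J₂ P e1 e2 e3 e4 e5 e6 e7 => ?_⟩
  · refine (card_biUnion_le_card_mul _ _ (2 ^ (162 * (J + 1))) fun a ha => ?_).trans ?_
    · rw [card_powerset]
      exact Nat.pow_le_pow_right two_pos (h4 a ha)
    · have h5 : 𝓕.card ≤ (4 * N + 1) ^ 2 * 2 ^ (7 * (J + 1)) := by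
        refine h1.trans (Nat.mul_le_mul (by rw [card_box, ← mul_assoc]; exact le_rfl) ?_)
        rw [pow_mul, pow_mul]
        exact (Nat.pow_le_pow_left (by norm_num) _).trans
          (Nat.pow_le_pow_right (by norm_num) J.le_succ)
      rw [card_product]
      refine (Nat.mul_le_mul_right _ (Nat.mul_le_mul h5 h5)).trans (le_of_eq ?_)
      rw [show 176 * (J + 1) = 7 * (J + 1) + 7 * (J + 1) + 162 * (J + 1) by omega, pow_add, pow_add]
      generalize 2 ^ (7 * (J + 1)) = a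
      generalize 2 ^ (162 * (J + 1)) = b
      ring
  · obtain ⟨a, ha, hD⟩ := mem_biUnion.1 hD
    exact (card_le_card (mem_powerset.1 hD)).trans (h4 a ha)
  · refine ⟨(thick 4 ((range (J₁ + 1)).image f) ∪ thick 4 ((range (J₂ + 1)).image g)).filter P,
      mem_biUnion.2 ⟨(_, _), mem_product.2 ⟨h3 f J₁ e1 (mem_box.2 e3) e5,
        h3 g J₂ e2 (mem_box.2 e4) e6⟩, mem_powerset.2 (filter_subset _ _)⟩,
      fun κ => ⟨fun h => (mem_filter.1 h).2, fun h => mem_filter.2 ⟨mem_union.2 ?_, h⟩⟩⟩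
    exact (e7 κ h).imp
      (fun ⟨j, hj, h⟩ => mem_thick.2 ⟨_, mem_image_of_mem f (mem_range.2 (by omega)), h⟩)
      fun ⟨j, hj, h⟩ => mem_thick.2 ⟨_, mem_image_of_mem g (mem_range.2 (by omega)), h⟩

theorem tube_card {l d : ℕ} (hl : 1 ≤ l) (hd : 1 ≤ d) (sw : Bool) (s : ℝ) (A D : Finset V) :
    (edgesOf (A.filter fun x => cell sw s l d x ∈ D)).card ≤ 4 * (D.card * (2 * l * d)) := by
  refine (card_edgesOf _).trans (Nat.mul_le_mul_left _ ?_)
  refine le_trans (card_le_card (t := D.biUnion fun κ => A.filter fun x => cell sw s l d x = κ)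
    fun x hx => ?_) (card_biUnion_le_card_mul _ _ _ fun κ _ => card_cell hl hd sw s A κ)
  exact mem_biUnion.2 ⟨_, (mem_filter.1 hx).2, mem_filter.2 ⟨(mem_filter.1 hx).1, rfl⟩⟩

/-- The set `tube` is `(box 0 N).filter (cell · ∈ D)` for a subset `D` of
`thick 4 A ∪ thick 4 A'`, `A, A' ∈ 𝓕` from `exists_fam (box 0 (2N)) 4 J`, `J = ⌊(C1 + 1) ξ N / d⌋₊`
(`tube_walk`, `1 / l ≤ ξ / d`). So `card D ≤ 162 (J + 1)`, the edge sets have at most
`n = 4 * 162 (J + 1) * 2 l d ≤ 5184 (C1 + 1) d N` elements for large `N`, and `hs_family` over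
`sw, j, i, e, A, A', D` gives `poly(N) * (81 ^ 2 * 2 ^ 162) ^ (J + 1) * exp (-N / (c A ^ 2 d))`;
`poly_geom_small`. -/
theorem tube_prob {A C1 : ℝ} (hA : 0 < A) (hC1 : 0 < C1) :
    ∃ ξ0 : ℝ, 0 < ξ0 ∧ ∀ ξ : ℝ, 0 < ξ → ξ ≤ ξ0 → ∀ (k l d : ℕ) (H : ℝ), 1 ≤ k → 1 ≤ l → 1 ≤ d →
      H ≤ d → (d : ℝ) ≤ ξ * l → ξ * l ≤ 2 * d →
      ∀ (G : Measure ℝ) [IsProbabilityMeasure G] (M0 η : ℝ), 0 < η → ∃ N0 : ℕ, ∀ N : ℕ, N0 ≤ N →
      (PP G).real {ω | ∃ (sw : Bool) (j i : ℤ) (p q : List V) (e : Sym2 V), |j| ≤ k ∧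
        |(i : ℝ)| ≤ 2 / ξ + 1 ∧ Short N C1 p ∧ Short N C1 q ∧
        Straight sw (j / k) (ξ * N) H p ∧ Straight sw (j / k) (ξ * N) H q ∧
        e ∈ edgesOf (box 0 N) ∧ N / (4 * A) ≤ hs G M0 (bef (edgesOf (slab N sw (j / k) ξ i) ∩
          edgesOf (tube N sw (j / k) l d p q)) e) ω} ≤ η := by
  obtain ⟨c, hc⟩ : ∃ c, c = C1 + 1 := ⟨_, rfl⟩
  have hc0 : 0 < c := by linarith
  refine ⟨1 / (704 * 331776 * A ^ 2 * c ^ 2), by positivity,
    fun ξ hξ hξ0 k l d H hk hl hd hH h1 h2 G _ M0 η hη => ?_⟩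
  have hd0 : (0 : ℝ) < d := by exact_mod_cast hd
  have hl0 : (0 : ℝ) < l := by exact_mod_cast hl
  have hk0 : (0 : ℝ) < k := by exact_mod_cast hk
  obtain ⟨m, hm⟩ := exists_nat_ge (2 / ξ + 1)
  obtain ⟨N1, hN1⟩ := poly_geom_small (2 * (2 * k + 1) * (2 * m + 1) * 16 * 256)
    (1 / (2 * 331776 * A ^ 2 * c * d)) (by positivity) 6 hη
  obtain ⟨N2, hN2⟩ := exists_nat_ge (d / (c * ξ))
  refine ⟨N1 + N2 + 1, fun N hN => le_trans ?_ (hN1 N (by omega))⟩
  have hN0 : (0 : ℝ) < N := by exact_mod_cast (by omega : 0 < N)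
  have hJ0 : 1 ≤ c * ξ * N / d := by
    have : (N2 : ℝ) ≤ N := by exact_mod_cast (by omega : N2 ≤ N)
    rw [one_le_div hd0, ← div_le_iff₀' (by positivity)]
    linarith
  have hJ : ((⌊c * ξ * N / d⌋₊ + 1 : ℕ) : ℝ) ≤ 2 * (c * ξ * N / d) := by
    have := Nat.floor_le (zero_le_one.trans hJ0)
    push_cast
    linarith
  have hJ' : ∀ J' : ℕ, (J' : ℝ) ≤ C1 * N / l + ξ * N / d → J' ≤ ⌊c * ξ * N / d⌋₊ := fun J' h => by
    refine Nat.le_floor (h.trans ?_)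
    have : C1 * N / l ≤ C1 * N * ξ / d := by
      rw [div_le_div_iff₀ hl0 hd0, mul_assoc _ ξ]
      gcongr
    rw [hc, add_mul, add_mul, add_div, one_mul, mul_right_comm C1 ξ]
    linarith
  generalize ⌊c * ξ * N / d⌋₊ = J at hJ hJ'
  have c2 : (((4 * N + 1) ^ 4 * 2 ^ (176 * (J + 1)) : ℕ) : ℝ) ≤
      256 * (N + 1) ^ 4 * Real.exp (176 * (2 * (c * ξ * N / d))) := by
    rw [Nat.cast_mul, Nat.cast_pow, Nat.cast_pow]
    refine mul_le_mul ?_ ?_ (by positivity) (by positivity)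
    · rw [show (256 : ℝ) * (N + 1) ^ 4 = (4 * (N + 1)) ^ 4 by ring]
      refine pow_le_pow_left₀ (by positivity) ?_ _
      push_cast
      linarith
    · refine (pow_le_pow_left₀ (by positivity) (b := Real.exp 1)
        (by have := Real.add_one_le_exp 1; push_cast; linarith) _).trans ?_
      rw [← Real.exp_nat_mul, mul_one, Nat.cast_mul]
      exact Real.exp_le_exp.2 (mul_le_mul_of_nonneg_left hJ (by positivity))
  obtain ⟨𝓓, d1, d2, d3⟩ := tube_fam N J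
  replace d1 := (Nat.cast_le.2 d1).trans c2
  have key := hs_family G M0
    ((univ : Finset Bool) ×ˢ Icc (-(k : ℤ)) k ×ˢ Icc (-(m : ℤ)) m ×ˢ edgesOf (box 0 N) ×ˢ 𝓓)
    (fun a => bef (edgesOf (slab N a.1 (a.2.1 / k) ξ a.2.2.1) ∩
      edgesOf ((box 0 N).filter fun x => cell a.1 (a.2.1 / k) l d x ∈ a.2.2.2.2)) a.2.2.2.1)
    (n := 5184 * c * d * N) (x := N / (4 * A)) (σ := 1) (by positivity) (fun a ha => by
      have e1 := d2 _ (mem_product.1 (mem_product.1 (mem_product.1 (mem_product.1 ha).2).2).2).2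
      have e2 := ((card_le_card ((filter_subset (fun f => rk f < rk a.2.2.2.1) _).trans
        (inter_subset_right (s₁ := edgesOf (slab N a.1 (a.2.1 / k) ξ a.2.2.1))))).trans
        (tube_card hl hd a.1 (a.2.1 / k) (box 0 N) a.2.2.2.2)).trans
        (Nat.mul_le_mul_left _ (Nat.mul_le_mul_right _ e1))
      refine (Nat.cast_le.2 e2).trans ?_
      rw [Nat.cast_mul, Nat.cast_mul, Nat.cast_mul]
      push_cast at hJ ⊢
      calc _ ≤ 4 * (162 * (2 * (c * ξ * N / d)) * (2 * l * d)) := by gcongr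
        _ = 2592 * c * N * (ξ * l) := by field_simp; ring
        _ ≤ 2592 * c * N * (2 * d) := by gcongr
        _ = _ := by ring) (by positivity) (Or.inl rfl)
  refine le_trans (measureReal_mono ?_) (key.trans ?_)
  · rintro ω ⟨sw, j, i, p, q, e, a1, a2, a3, a4, a5, a6, a7, a8⟩
    have hs1 : |(j : ℝ) / k| ≤ 1 := by
      rw [abs_div, abs_of_pos hk0, div_le_one hk0]
      exact_mod_cast a1
    obtain ⟨f, J₁, f1, f2, f3, f4⟩ := tube_walk hs1 hl hd hH a3 a5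
    obtain ⟨g, J₂, g1, g2, g3, g4⟩ := tube_walk hs1 hl hd hH a4 a6
    obtain ⟨D, hD, hD'⟩ := d3 f g J₁ J₂
      (fun κ => ∃ y, (On p y ∨ On q y) ∧ κ = cell sw (j / k) l d y) (hJ' _ f1) (hJ' _ g1) f2 g2 f3
      g3 (by
        rintro _ ⟨y, hy, rfl⟩
        exact hy.imp (f4 y) (g4 y))
    have hi : |i| ≤ m := by exact_mod_cast a2.trans hm
    refine ⟨(sw, j, i, e, D), mem_product.2 ⟨mem_univ _, mem_product.2 ⟨mem_Icc.2 (abs_le.1 a1),
      mem_product.2 ⟨mem_Icc.2 (abs_le.1 hi), mem_product.2 ⟨a7, hD⟩⟩⟩⟩, ?_⟩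
    rw [one_mul]
    simp only [hD']
    exact a8
  · have c1 : ((edgesOf (box 0 N)).card : ℝ) ≤ 16 * (N + 1) ^ 2 := by
      have := card_edgesOf (box 0 N)
      rw [card_box] at this
      refine (Nat.cast_le.2 this).trans ?_
      push_cast
      nlinarith
    have c3 : ∀ n : ℕ, ((Icc (-(n : ℤ)) n).card : ℝ) = 2 * n + 1 := fun n => by
      have : (Icc (-(n : ℤ)) n).card = 2 * n + 1 := by rw [Int.card_Icc]; omega
      rw [this]
      push_cast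
      rfl
    have c4 : Real.exp (176 * (2 * (c * ξ * N / d))) *
        Real.exp (-(N / (4 * A)) ^ 2 / (4 * (5184 * c * d * N))) ≤
        Real.exp (-(1 / (2 * 331776 * A ^ 2 * c * d)) * N) := by
      rw [← Real.exp_add]
      refine Real.exp_le_exp.2 ?_
      have : 176 * (2 * (c * ξ * N / d)) ≤
          176 * (2 * (c * (1 / (704 * 331776 * A ^ 2 * c ^ 2)) * N / d)) := by gcongr
      refine (add_le_add_left this _).trans (le_of_eq ?_)
      field_simp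
      ring
    simp only [card_product, card_univ, Fintype.card_bool, Nat.cast_mul, c3]
    refine le_trans ?_ (mul_le_mul_of_nonneg_left c4 (by positivity))
    rw [← mul_assoc _ (Real.exp _)]
    refine mul_le_mul_of_nonneg_right ?_ (Real.exp_pos _).le
    calc _ ≤ ((2 : ℕ) : ℝ) * ((2 * k + 1) * ((2 * m + 1) * (16 * (N + 1) ^ 2 *
          (256 * (N + 1) ^ 4 * Real.exp (176 * (2 * (c * ξ * N / d))))))) := by gcongr
      _ = _ := by
        push_cast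
        ring

end Vale.Agent.P158b
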