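import Vale.Agent.P158b.FlowC
import Vale.Agent.P158b.Near
import Vale.Agent.P158b.Tube
import Vale.Agent.P158b.TieP
import Vale.Agent.P158b.StraightP

/-! Auxiliary lemmas for the fine flow. -/

open MeasureTheory ProbabilityTheory Finset
open scoped Classical

namespace Vale.Agent.P158b

theorem norm_cv_le {N : ℕ} {x y : V} (hx : Near N x 0) (hy : Near N y 0) :
    ‖cv x - cv y‖ ≤ 2 * N := by
  have := near_iff_norm.mp (hx.trans hy.symm)
  push_cast at this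
  linarith

/-- the slab criterion in lattice form -/
theorem mem_slab_of_excess {μ : Seminorm ℝ (ℝ × ℝ)} {t : Env} {N : ℕ} (hN : 1 ≤ N) {sw : Bool}
    {s ξ δ0 : ℝ} (hξ : 0 < ξ) {a b x : V} (ha : Near N a 0) (hb : Near N b 0) (hx : Near N x 0)
    (ht : ∀ e, 0 ≤ t e) (hδ : 4 ≤ δ0 * N)
    (hcrit : ∀ y : ℝ × ℝ, ‖y‖ ≤ 2 → ‖nv N a b - y‖ ≤ 2 →
      μ y + μ (nv N a b - y) ≤ μ (nv N a b) + δ0 → |gQ sw s y| ≤ ξ)
    (h1 : |T (bx 0 N) t x a - μ (cv a - cv x)| ≤ δ0 / 4 * N)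
    (h2 : |T (bx 0 N) t x b - μ (cv b - cv x)| ≤ δ0 / 4 * N)
    (h3 : |T (bx 0 N) t a b - μ (cv b - cv a)| ≤ δ0 / 4 * N)
    (h4 : T (bx 0 N) t a x + T (bx 0 N) t x b ≤ T (bx 0 N) t a b + 1) :
    x ∈ slab N sw s ξ ⌊gQ sw s (cv a) / (ξ * N)⌋ := by
  have hNr : (0 : ℝ) < N := by exact_mod_cast hN
  have hn : ∀ u v : V, Near N u 0 → Near N v 0 → ‖(N : ℝ)⁻¹ • (cv u - cv v)‖ ≤ 2 := by
    intro u v hu hv
    rw [norm_smul, norm_inv, Real.norm_natCast, inv_mul_le_iff₀ hNr]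
    have := norm_cv_le hu hv
    linarith
  have hs : ∀ z : ℝ × ℝ, μ ((N : ℝ)⁻¹ • z) = (N : ℝ)⁻¹ * μ z := by
    intro z
    rw [map_smul_eq_mul, norm_inv, Real.norm_natCast]
  have e1 : nv N a b - (N : ℝ)⁻¹ • (cv x - cv a) = (N : ℝ)⁻¹ • (cv b - cv x) := by
    unfold nv
    rw [← smul_sub]
    exact congrArg _ (by abel)
  have key := hcrit ((N : ℝ)⁻¹ • (cv x - cv a)) (hn x a hx ha) (by rw [e1]; exact hn b x hb hx) (by
    rw [e1]
    unfold nv
    rw [hs, hs, hs]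
    have q1 : μ (cv x - cv a) = μ (cv a - cv x) := by
      rw [← map_neg_eq_map μ (cv a - cv x), neg_sub]
    rw [T_symm _ ht x a] at h1
    have b1 := (abs_le.mp h1).1
    have b2 := (abs_le.mp h2).1
    have b3 := (abs_le.mp h3).2
    have q2 : μ (cv x - cv a) + μ (cv b - cv x) ≤ μ (cv b - cv a) + δ0 * N := by
      rw [q1]; linarith
    have q3 : (N : ℝ)⁻¹ * (μ (cv x - cv a) + μ (cv b - cv x)) ≤
        (N : ℝ)⁻¹ * (μ (cv b - cv a) + δ0 * N) :=
      mul_le_mul_of_nonneg_left q2 (by positivity)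
    have q4 : (N : ℝ)⁻¹ * (δ0 * N) = δ0 := by field_simp
    rw [mul_add, mul_add, q4] at q3
    exact q3)
  rw [gQ_smul, gQ_sub, abs_mul, abs_inv, abs_of_pos hNr, inv_mul_le_iff₀ hNr] at key
  have hp : 0 < ξ * N := by positivity
  have f1 := Int.floor_le (gQ sw s (cv a) / (ξ * N))
  have f2 := Int.lt_floor_add_one (gQ sw s (cv a) / (ξ * N))
  rw [le_div_iff₀ hp] at f1
  rw [div_lt_iff₀ hp] at f2
  unfold slab
  rw [Finset.mem_filter]
  refine ⟨mem_box.mpr hx, ?_⟩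
  have k1 := abs_le.mp key
  rw [abs_le]
  constructor <;> nlinarith [k1.1, k1.2]

theorem nv_right {N : ℕ} (hN : 1 ≤ N) (a : V) {b b' : V} (h : Adj b b') :
    ‖nv N a b' - nv N a b‖ ≤ 1 / N := by
  have hNr : (0 : ℝ) < N := by exact_mod_cast hN
  have e1 : nv N a b' - nv N a b = (N : ℝ)⁻¹ • (cv b' - cv b) := by
    unfold nv
    rw [← smul_sub]
    exact congrArg _ (by abel)
  rw [e1, norm_smul, norm_inv, Real.norm_natCast, one_div]
  have := near_iff_norm.mp h.near.symm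
  push_cast at this
  nlinarith [inv_pos.mpr hNr]

theorem nv_left {N : ℕ} (hN : 1 ≤ N) (b : V) {a a' : V} (h : Adj a a') :
    ‖nv N a' b - nv N a b‖ ≤ 1 / N := by
  have hNr : (0 : ℝ) < N := by exact_mod_cast hN
  have e1 : nv N a' b - nv N a b = (N : ℝ)⁻¹ • (cv a - cv a') := by
    unfold nv
    rw [← smul_sub]
    exact congrArg _ (by abel)
  rw [e1, norm_smul, norm_inv, Real.norm_natCast, one_div]
  have := near_iff_norm.mp h.near
  push_cast at this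
  nlinarith [inv_pos.mpr hNr]

theorem hs_sdiff_bef (G : Measure ℝ) (M0 : ℝ) (A B : Finset (Sym2 V)) (e : Sym2 V) (ω : Env) :
    hs G M0 (bef (A \ B) e) ω = hs G M0 (bef A e) ω - hs G M0 (bef (A ∩ B) e) ω := by
  unfold hs bef
  have h1 : (A ∩ B).filter (fun f => rk f < rk e) ⊆ A.filter fun f => rk f < rk e :=
    Finset.filter_subset_filter _ Finset.inter_subset_left
  have h2 : (A \ B).filter (fun f => rk f < rk e) =
      A.filter (fun f => rk f < rk e) \ (A ∩ B).filter fun f => rk f < rk e := by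
    ext f
    simp only [Finset.mem_filter, Finset.mem_sdiff, Finset.mem_inter]
    tauto
  rw [h2, Finset.sum_sdiff_eq_sub h1]

theorem prob_ends (P : Measure Env) [IsProbabilityMeasure P] (E : V → Set Env) (x w : V) {p : ℝ}
    (hx : P.real (E x) ≤ p) (hw : P.real (E w) ≤ p) :
    P.real {ω | ∃ v ∈ s(x, w), ω ∈ E v} ≤ 2 * p := by
  have h : {ω | ∃ v ∈ s(x, w), ω ∈ E v} ⊆ E x ∪ E w := by
    rintro ω ⟨v, hv, hω⟩
    rcases Sym2.mem_iff.mp hv with rfl | rfl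
    · exact Or.inl hω
    · exact Or.inr hω
  have h1 := measureReal_mono (μ := P) h
  have h2 := measureReal_union_le (μ := P) (E x) (E w)
  linarith

theorem prob_fin {ι : Type} (P : Measure Env) [IsProbabilityMeasure P] (I : Finset ι)
    (E : ι → Set Env) {p : ℝ} (h : ∀ i ∈ I, P.real (E i) ≤ p) :
    P.real {ω | ∃ i ∈ I, ω ∈ E i} ≤ I.card * p := by
  have e1 : {ω | ∃ i ∈ I, ω ∈ E i} = ⋃ i ∈ I, E i := by
    ext ω
    simp only [Set.mem_setOf_eq, Set.mem_iUnion, exists_prop]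
  rw [e1]
  refine le_trans (measureReal_biUnion_finset_le I E) ?_
  rw [← nsmul_eq_mul]
  exact Finset.sum_le_card_nsmul _ _ _ h

theorem floor_idx {N : ℕ} (hN : 1 ≤ N) {ξ s : ℝ} (hξ : 0 < ξ) (hs : |s| ≤ 1) (sw : Bool) {a : V}
    (ha : Near N a 0) : |((⌊gQ sw s (cv a) / (ξ * N)⌋ : ℤ) : ℝ)| ≤ 2 / ξ + 1 := by
  have hNr : (0 : ℝ) < N := by exact_mod_cast hN
  have h0 : ‖cv a‖ ≤ N := by
    have := near_iff_norm.mp ha
    have e : cv (0 : V) = 0 := by simp [cv, Prod.ext_iff]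
    rwa [e, sub_zero] at this
  have h1 := abs_gQ_le sw hs (cv a)
  have hp : 0 < ξ * N := by positivity
  have h2 : |gQ sw s (cv a) / (ξ * N)| ≤ 2 / ξ := by
    rw [abs_div, abs_of_pos hp, div_le_div_iff₀ hp hξ]
    nlinarith
  have f1 := Int.floor_le (gQ sw s (cv a) / (ξ * N))
  have f2 := Int.lt_floor_add_one (gQ sw s (cv a) / (ξ * N))
  have k := abs_le.mp h2
  rw [abs_le]
  constructor <;> linarith [k.1, k.2]

theorem bulk_ends {N : ℕ} {e : Sym2 V} (he : e ∈ bulk N) :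
    ∃ x w, e = s(x, w) ∧ Adj x w ∧ Near (N / 8 + 1) x 0 ∧ Near (N / 8 + 1) w 0 := by
  obtain ⟨x, hx, w, hxw, rfl⟩ := mem_edgesOf.mp he
  have h1 := mem_box.mp hx
  refine ⟨x, w, rfl, hxw, h1.mono (Nat.le_succ _), ?_⟩
  have := hxw.near.symm.trans h1
  rwa [add_comm 1] at this

/-- splitting the load into the part seen by the flow and the influential rest -/
theorem sum_split (D D1 : Finset (Sym2 V)) (u : Finset (Sym2 V)) (f : Sym2 V → ℝ) {X : ℝ}
    (hf : ∀ e, 0 ≤ f e) (hX : ∀ e ∈ D, f e ≤ X) (h1 : ∀ e ∈ D, e ∈ u → e ∈ D1) :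
    ∑ e ∈ D, f e ≤ ∑ e ∈ D1, f e + (D.filter fun e => e ∉ u ∧ 0 < f e).card * X := by
  rw [← Finset.sum_filter_add_sum_filter_not D (fun e => e ∈ u)]
  refine add_le_add ?_ ?_
  · refine Finset.sum_le_sum_of_subset_of_nonneg ?_ fun e _ _ => hf e
    intro e he
    rw [Finset.mem_filter] at he
    exact h1 e he.1 he.2
  · have e1 : ∑ e ∈ D.filter (fun e => ¬ e ∈ u), f e =
        ∑ e ∈ D.filter (fun e => e ∉ u ∧ 0 < f e), f e := by
      symm
      refine Finset.sum_subset ?_ ?_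
      · intro e he
        rw [Finset.mem_filter] at he ⊢
        exact ⟨he.1, he.2.1⟩
      · intro e he hne
        rw [Finset.mem_filter] at he hne
        by_contra hc
        exact hne ⟨he.1, he.2, lt_of_le_of_ne (hf e) (Ne.symm hc)⟩
    rw [e1, ← nsmul_eq_mul]
    exact Finset.sum_le_card_nsmul _ _ _ fun e he => hX e (Finset.mem_filter.mp he).1

end Vale.Agent.P158b
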