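import Vale.Agent.P158b.PackA

/-! The deterministic part of the fine flow. -/

open MeasureTheory ProbabilityTheory Finset
open scoped Classical

namespace Vale.Agent.P158b

theorem fine_det (M : Model) {μ : Seminorm ℝ (ℝ × ℝ)} {N L l d : ℕ} {c2 κ ξ A δ0 M1 ε s : ℝ}
    {sw : Bool} {c : ℤ × ℤ} (hc : c ∈ cells N c2) (hN : 2 ≤ N) (hL : 1 ≤ L) (hl : 1 ≤ l)
    (hd : 1 ≤ d) (hn : N / 8 + 1 + (l + d + 1) + L < N) (hκ0 : 0 < κ) (hκ1 : κ ≤ 1) (hξ : 0 < ξ)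
    (hA : 0 < A) (hs1 : |s| ≤ 1) (hδ : 4 ≤ δ0 * N) (hM1 : 0 ≤ M1) (hε : 0 ≤ ε) {ω : Env}
    (hU : Uniq (bx 0 N) (M.Ψ ω)) {p q : List V}
    (gp : IsGeo (bx 0 N) (M.Ψ ω) (bv N c.1) (bv N (c.2 + 1)) p)
    (gq : IsGeo (bx 0 N) (M.Ψ ω) (bv N (c.1 + 1)) (bv N c.2) q)
    (hcrit : ∀ y : ℝ × ℝ, ‖y‖ ≤ 2 → ‖nv N (bv N c.1) (bv N c.2) - y‖ ≤ 2 →
      μ y + μ (nv N (bv N c.1) (bv N c.2) - y) ≤ μ (nv N (bv N c.1) (bv N c.2)) + δ0 →
        |gQ sw s y| ≤ ξ)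
    (h3 : |T (bx 0 N) (M.Ψ ω) (bv N c.1) (bv N c.2) - μ (cv (bv N c.2) - cv (bv N c.1))| ≤
      δ0 / 4 * N)
    (SL : Finset (Sym2 V))
    (hSL : SL = edgesOf (slab N sw s ξ ⌊gQ sw s (cv (bv N c.1)) / (ξ * N)⌋))
    (htube : ∀ e ∈ edgesOf (box 0 N),
      hs M.G M.M0 (bef (SL ∩ edgesOf (tube N sw s l d p q)) e) ω < N / (4 * A))
    (Rare : Sym2 V → Set Env)
    (hR : ∀ e ∈ bulk N, ω ∉ Rare e → -(N / (4 * A)) < hs M.G M.M0 (bef SL e) ω ∧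
      (∀ v ∈ e, ∀ y, Bd 0 N y → |T (bx 0 N) (M.Ψ ω) v y - μ (cv y - cv v)| ≤ δ0 / 4 * N) ∧
      ∀ v ∈ e, (∀ e' ∈ edgesOf (box v (l + d + 1)), M.Ψ ω e' ≤ M1) ∧
        ∀ z, Near (l + d + 1) z v →
          ¬ Tie (M.Ψ ω) N L (1 + 4 * ((l + d + 1 : ℕ) : ℝ) * M1) ε z) :
    load M κ N Rare c ω ≤
      ∑ e ∈ (bulk N).filter (fun e => e ∈ SL \ edgesOf (tube N sw s l d p q) ∧
        M.t0 + 2 * κ ≤ ω e ∧ ω e ≤ M.M0 ∧ -(1 / 2) ≤ A / N *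
          hs M.G M.M0 (bef (SL \ edgesOf (tube N sw s l d p q)) e) ω), dl (M.Ψ ω) N κ c e +
      4 * (2 * ((l + d + 1 : ℕ) : ℝ) + 1) ^ 2 * (ε * (len p + len q + 2 * L)) *
        Dm (M.Ψ ω) N c.1 c.2 := by
  have hN1 : 1 ≤ N := by omega
  have hNr : (0 : ℝ) < N := by exact_mod_cast hN1
  have ht := M.nonneg ω
  obtain ⟨_, c1, c2', _⟩ := Finset.mem_filter.mp hc
  have hDm : 0 ≤ Dm (M.Ψ ω) N c.1 c.2 := Dm_nonneg ht hN1 c1.le c2'.le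
  have h8 : N / 8 + 1 ≤ N := by omega
  have hκe : ∀ e, M.t0 + 2 * κ ≤ ω e → ω e ≤ M.M0 → κ ≤ M.Ψ ω e := by
    intro e a1 a2
    rw [M.light ω _ a2]
    have := M.t0_nonneg
    exact le_trans (by linarith) (le_max_left _ _)
  unfold load
  set D := (bulk N).filter (fun e => ω ∉ Rare e ∧ M.t0 + 2 * κ ≤ ω e ∧ ω e ≤ M.M0) with hD
  set TB := edgesOf (tube N sw s l d p q) with hTB
  refine le_trans (sum_split D _ (SL \ TB) (fun e => dl (M.Ψ ω) N κ c e)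
    (X := Dm (M.Ψ ω) N c.1 c.2) (fun e => dl_nonneg _ _ _ _ _) ?_ ?_) (add_le_add le_rfl ?_)
  · intro e he
    obtain ⟨hb, _, a1, a2⟩ := Finset.mem_filter.mp he
    have := hκe e a1 a2
    obtain ⟨x, w, rfl, hxw, hx, hw⟩ := bulk_ends hb
    exact dl_le_Dm ht hN1 c1.le c2'.le (hx.mono h8) (hw.mono h8) hxw hκ0.le this
  · intro e he hu
    obtain ⟨hb, a0, a1, a2⟩ := Finset.mem_filter.mp he
    refine Finset.mem_filter.mpr ⟨hb, hu, a1, a2, ?_⟩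
    have b1 := (hR e hb a0).1
    have hbox : e ∈ edgesOf (box 0 N) := by
      obtain ⟨x, w, rfl, hxw, hx, hw⟩ := bulk_ends hb
      exact mem_edgesOf.mpr ⟨x, mem_box.mpr (hx.mono h8), w, hxw, rfl⟩
    have b2 := htube e hbox
    rw [hs_sdiff_bef]
    have b3 : -(N / (2 * A)) ≤ hs M.G M.M0 (bef SL e) ω - hs M.G M.M0 (bef (SL ∩ TB) e) ω := by
      have : (N : ℝ) / (2 * A) = N / (4 * A) + N / (4 * A) := by field_simp; ring
      linarith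
    have b4 := mul_le_mul_of_nonneg_left b3 (show 0 ≤ A / N by positivity)
    have b5 : A / N * -(N / (2 * A)) = -(1 / 2) := by field_simp
    rwa [b5] at b4
  · refine mul_le_mul_of_nonneg_right ?_ hDm
    refine card_near ht hL hn hU gp gq hM1 hε hκ1 _ ?_
    intro e he
    obtain ⟨he1, hnu, hpos⟩ := Finset.mem_filter.mp he
    obtain ⟨hb, a0, a1, a2⟩ := Finset.mem_filter.mp he1
    have hk := hκe e a1 a2
    obtain ⟨-, r2, r3⟩ := hR e hb a0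
    refine ⟨hb, hk, hpos, ?_, r3⟩
    have hsl : e ∈ SL := by
      obtain ⟨x, w, rfl, hxw, hx, hw⟩ := bulk_ends hb
      obtain ⟨x', w', ho, o1, -, -⟩ := dl_pos ht hN1 (hx.mono h8) (hw.mono h8) hxw hk hpos
      have hx' : Near N x' 0 ∧ Near N w' 0 ∧ Adj x' w' ∧ s(x, w) = s(x', w') := by
        rcases ho with ⟨rfl, rfl⟩ | ⟨rfl, rfl⟩
        · exact ⟨hx.mono h8, hw.mono h8, hxw, rfl⟩
        · exact ⟨hw.mono h8, hx.mono h8, hxw.symm, Sym2.eq_swap⟩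
      obtain ⟨n1, n2, n3, n4⟩ := hx'
      have hmem : x' ∈ s(x, w) := by rw [n4]; exact Sym2.mem_mk_left _ _
      have ba := bv_bd hN1 c.1
      have bb := bv_bd hN1 c.2
      have tri := T_triangle (S := bx 0 N) ht (reach_bx n1 n2) (reach_bx n2 bb.1)
      have adj := T_adj_le (S := bx 0 N) ht n1 n2 n3
      have h4 : T (bx 0 N) (M.Ψ ω) (bv N c.1) x' + T (bx 0 N) (M.Ψ ω) x' (bv N c.2) ≤
          T (bx 0 N) (M.Ψ ω) (bv N c.1) (bv N c.2) + 1 := by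
        unfold xo at o1
        linarith
      have := mem_slab_of_excess hN1 hξ ba.1 bb.1 n1 ht hδ hcrit (r2 x' hmem _ ba)
        (r2 x' hmem _ bb) h3 h4
      rw [hSL, n4]
      exact mem_edgesOf.mpr ⟨x', this, w', n3, rfl⟩
    have htb : e ∈ TB := by
      by_contra hh
      exact hnu (Finset.mem_sdiff.mpr ⟨hsl, hh⟩)
    obtain ⟨x, hx, w, hxw, rfl⟩ := mem_edgesOf.mp htb
    obtain ⟨-, y, hy, hcell⟩ := Finset.mem_filter.mp hx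
    have hnear := near_of_cell hl hd hs1 hcell
    refine ⟨y, hy, fun v hv => ?_⟩
    rcases Sym2.mem_iff.mp hv with rfl | rfl
    · exact hnear.mono (Nat.le_succ _)
    · have := hxw.near.symm.trans hnear
      rwa [add_comm 1] at this

end Vale.Agent.P158b
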