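import Vale.Agent.P158b.FlowC

/-! The coarse flow, valid for every cell. -/

open MeasureTheory ProbabilityTheory Finset
open scoped Classical

namespace Vale.Agent.P158b

theorem dl_eq_zero {t : Env} (ht : ∀ e, 0 ≤ t e) {N : ℕ} (hN : 1 ≤ N) {c : ℤ × ℤ} {x w : V}
    (hx : Near N x 0) (hw : Near N w 0) (hxw : Adj x w) (κ : ℝ)
    (h : xs t N (bv N c.1) (bv N (c.2 + 1)) s(x, w) ≤ 0 ∨
      xs t N (bv N (c.1 + 1)) (bv N c.2) s(x, w) ≤ 0) : dl t N κ c s(x, w) = 0 := by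
  have ha := (bv_bd hN c.1).1
  have hb := (bv_bd hN c.2).1
  have h0 : 0 ≤ xs t N (bv N c.1) (bv N c.2) s(x, w) := by
    rw [xs_eq ht ha hb hx hw hxw]
    exact le_min (ht _) (le_min (xo_nonneg ht ha hb hx hw hxw) (xo_nonneg ht ha hb hw hx hxw.symm))
  refine max_eq_right (sub_nonpos.2 ((min_le_right _ _).trans (le_trans ?_ h0)))
  exact h.elim (min_le_left _ _).trans (min_le_right _ _).trans

theorem hs_sdiff (G : Measure ℝ) [IsProbabilityMeasure G] (M0 : ℝ) (E R : Finset (Sym2 V))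
    (e : Sym2 V) (ω : Env) : hs G M0 (bef E e) ω ≤ hs G M0 (bef (E \ R) e) ω + R.card := by
  have h1 : bef (E \ R) e = bef E e \ R := by
    ext f
    simp only [bef, mem_filter, mem_sdiff]
    tauto
  have h2 : ∑ f ∈ bef E e ∩ R, hh G M0 (ω f) ≤ R.card := by
    refine (sum_le_card_nsmul _ _ 1 fun f _ => (abs_le.1 (abs_hh_le G M0 _)).2).trans ?_
    rw [nsmul_eq_mul, mul_one]
    exact Nat.cast_le.2 (card_le_card inter_subset_right)
  rw [h1, hs, hs, ← sum_inter_add_sum_sdiff (bef E e) R]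
  linarith

/-- Take `λ ≥ 12` with `exp (-λ ^ 2 / 2304) ≤ η` and `λ ≥ 8 C1`, `S = 1 / (λ N)`,
`u p q = edgesOf (box 0 N) \ (pedges p ∪ pedges q)`, `Rare e = {λ N / 4 ≤ -hs (bef (edgesOf box) e)}`
(`hs_tail` with `n = 36 N ^ 2`). Since `|hh| ≤ 1`, removing at most `2 C1 N` edges changes `hs` by
at most `λ N / 4`. An edge with `dl > 0` is not on the references (`xs_le_of_mem`, `xs_eq`,
`xo_nonneg`). `C0 = 3 λ / g0`. -/
theorem pack_triv (M : Model) {C1 c2 κ η : ℝ} (hC1 : 0 < C1) (hκ : 0 < κ) (hη : 0 < η) :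
    ∃ C0 : ℝ, 0 < C0 ∧ ∀ N : ℕ, 2 ≤ N → ∃ Rare : Sym2 V → Set Env,
      (∀ e, (PP M.G).real (Rare e) ≤ η) ∧ ∀ c ∈ cells N c2,
        Dom M κ N {ω | Base (M.Ψ ω) C1 c2 N} Rare c (C0 * N) := by
  have hg : 0 < M.G.real (Set.Iio (M.t0 + κ)) :=
    ENNReal.toReal_pos (M.acc0 κ hκ).ne' (measure_ne_top _ _)
  obtain ⟨l, l1, l2, l3⟩ : ∃ l : ℝ, 12 ≤ l ∧ 8 * C1 ≤ l ∧ 2304 / η ≤ l := by
    have : 0 < 2304 / η := by positivity
    exact ⟨12 + 8 * C1 + 2304 / η, by linarith, by linarith, by linarith⟩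
  have l0 : 0 < l := by linarith
  refine ⟨3 * l / M.G.real (Set.Iio (M.t0 + κ)), by positivity, fun N hN => ?_⟩
  have hN1 : 1 ≤ N := by omega
  have hN2 : (2 : ℝ) ≤ N := by exact_mod_cast hN
  have hN0 : (0 : ℝ) < N := by linarith
  have hE : ((edgesOf (box 0 N)).card : ℝ) ≤ 36 * N ^ 2 := by
    have h := card_edgesOf (box 0 N)
    rw [card_box] at h
    have h' : ((edgesOf (box 0 N)).card : ℝ) ≤ 4 * (2 * N + 1) ^ 2 := by exact_mod_cast h
    nlinarith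
  refine ⟨fun e => {ω | l * N / 4 ≤ -1 * hs M.G M.M0 (bef (edgesOf (box 0 N)) e) ω},
    fun e => ?_, fun c hc => ?_⟩
  · refine (hs_tail M.G M.M0 _ (by positivity)
      (le_trans (Nat.cast_le.2 (card_filter_le _ _)) hE) (by positivity) (Or.inr rfl)).trans ?_
    have e1 : -(l * N / 4) ^ 2 / (4 * (36 * (N : ℝ) ^ 2)) = -(l ^ 2 / 2304) := by
      field_simp
      norm_num
    have e2 : η⁻¹ ≤ l ^ 2 / 2304 := by
      rw [div_eq_mul_inv] at l3
      nlinarith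
    rw [e1, Real.exp_neg]
    exact inv_le_of_inv_le₀ hη (by linarith [Real.add_one_le_exp (l ^ 2 / 2304)])
  obtain ⟨-, c1, c2', -⟩ := mem_filter.1 hc
  have hl : 2 ≤ l * N := by nlinarith
  obtain ⟨F, F1, F2, F3, F4⟩ := flow_cell M hN c1.le c2'.le hκ (S := 1 / (l * N)) (by positivity)
    (one_div_le_one_div_of_le two_pos hl) (fun p q => edgesOf (box 0 N) \ (pedges p ∪ pedges q))
    fun p q _ _ => ⟨fun e he => not_or.1 (mt mem_union.2 (mem_sdiff.1 he).2), by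
      have a1 : ((edgesOf (box 0 N) \ (pedges p ∪ pedges q)).card : ℝ) ≤ 36 * N ^ 2 :=
        le_trans (Nat.cast_le.2 (card_le_card sdiff_subset)) hE
      refine (mul_le_mul_of_nonneg_left a1 (sq_nonneg _)).trans ?_
      have a2 : (1 / (l * N)) ^ 2 * (36 * (N : ℝ) ^ 2) = 36 / l ^ 2 := by field_simp
      rw [a2, div_le_iff₀ (by positivity)]
      nlinarith⟩
  refine ⟨F, F1, F2, F3.trans (le_of_eq ?_), fun ω hω => ?_⟩
  · field_simp
  obtain ⟨hU, hL, -⟩ := hω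
  have ht := M.nonneg ω
  obtain ⟨p, gp⟩ := exists_geo (bx_finite 0 N) ht hU
    (reach_bx (bv_bd hN1 c.1).1 (bv_bd hN1 (c.2 + 1)).1)
  obtain ⟨q, gq⟩ := exists_geo (bx_finite 0 N) ht hU
    (reach_bx (bv_bd hN1 (c.1 + 1)).1 (bv_bd hN1 c.2).1)
  refine le_trans ?_ (F4 ω p q gp gq)
  rw [load, ← sum_filter_ne_zero]
  refine sum_le_sum_of_subset_of_nonneg (fun e he => ?_) fun e _ _ => dl_nonneg _ _ _ _ _
  obtain ⟨he, h0⟩ := mem_filter.1 he
  obtain ⟨he, b1, b2, b3⟩ := mem_filter.1 he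
  refine mem_filter.2 ⟨he, ?_, b2, b3, ?_⟩
  · obtain ⟨x, w, hx, hw, hxw, rfl⟩ := bulk_edge hN he
    refine mem_sdiff.2 ⟨mem_edgesOf.2 ⟨x, mem_box.2 hx, w, hxw, rfl⟩, fun h => h0 ?_⟩
    exact dl_eq_zero ht hN1 hx hw hxw κ ((mem_union.1 h).imp
      (xs_le_of_mem ht gp.1 (gp.wt_eq ht)) (xs_le_of_mem ht gq.1 (gq.wt_eq ht)))
  · have d1 := hs_sdiff M.G M.M0 (edgesOf (box 0 N)) (pedges p ∪ pedges q) e ω
    have d2 : ((pedges p ∪ pedges q).card : ℝ) ≤ len p + len q := by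
      exact_mod_cast (card_union_le _ _).trans (add_le_add (card_pedges p) (card_pedges q))
    have d3 := hL _ _ _ (bv_bd hN1 _) (bv_bd hN1 _) gp
    have d4 := hL _ _ _ (bv_bd hN1 _) (bv_bd hN1 _) gq
    have d5 : -1 * hs M.G M.M0 (bef (edgesOf (box 0 N)) e) ω < l * N / 4 := lt_of_not_ge b1
    have d6 := mul_le_mul_of_nonneg_right l2 hN0.le
    rw [one_div_mul_eq_div, le_div_iff₀ (by positivity)]
    linarith

end Vale.Agent.P158b
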