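import Vale.Agent.P158b.Defs

/-! Lattice basics, walks, loop erasure, elementary properties of the passage time. -/

open MeasureTheory ProbabilityTheory Finset
open scoped Classical

namespace Vale.Agent.P158b

theorem Adj.symm {x y : V} (h : Adj x y) : Adj y x := by
  unfold Adj at *
  omega

theorem Adj.ne {x y : V} (h : Adj x y) : x ≠ y := by
  rintro rfl
  unfold Adj at h
  omega

theorem Adj.near {x y : V} (h : Adj x y) : Near 1 x y := by
  unfold Adj at h
  unfold Near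
  omega

theorem Near.refl (r : ℕ) (x : V) : Near r x x := by
  unfold Near
  omega

theorem Near.symm {r : ℕ} {x y : V} (h : Near r x y) : Near r y x := by
  unfold Near at *
  omega

theorem Near.trans {r s : ℕ} {x y z : V} (h : Near r x y) (h' : Near s y z) :
    Near (r + s) x z := by
  unfold Near at *
  omega

theorem Near.mono {r s : ℕ} {x y : V} (h : Near r x y) (hrs : r ≤ s) : Near s x y := by
  unfold Near at *
  omega

theorem near_iff_norm {r : ℕ} {x y : V} : Near r x y ↔ ‖cv x - cv y‖ ≤ r := by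
  have e : ∀ a b : ℤ, ‖(a : ℝ) - b‖ ≤ r ↔ a - b ≤ r ∧ b - a ≤ r := fun a b => by
    rw [Real.norm_eq_abs, abs_sub_le_iff]
    norm_cast
  rw [Prod.norm_def, max_le_iff]
  exact (and_assoc.symm.trans (and_congr (e _ _) (e _ _)).symm)

theorem mem_box {c x : V} {n : ℕ} : x ∈ box c n ↔ Near n x c := by
  simp only [box, Near, Finset.mem_product, Finset.mem_Icc]
  omega

theorem card_box (c : V) (n : ℕ) : (box c n).card = (2 * n + 1) ^ 2 := by
  have e : ∀ a : ℤ, (a + n + 1 - (a - n)).toNat = 2 * n + 1 := fun a => by omega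
  rw [box, card_product, Int.card_Icc, Int.card_Icc, e, e, sq]

theorem bx_finite (c : V) (n : ℕ) : (bx c n).Finite :=
  (box c n).finite_toSet.subset fun _ hx => mem_coe.2 (mem_box.2 hx)

theorem mem_edgesOf {A : Finset V} {e : Sym2 V} :
    e ∈ edgesOf A ↔ ∃ x ∈ A, ∃ y, Adj x y ∧ e = s(x, y) := by
  simp only [edgesOf, mem_biUnion, mem_insert, mem_singleton]
  refine exists_congr fun x => and_congr_right fun _ => ⟨?_, ?_⟩
  · rintro (h | h | h | h) <;> exact ⟨_, by simp [Adj], h⟩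
  · rintro ⟨⟨y1, y2⟩, h | h | h | h, rfl⟩ <;> obtain ⟨h1, h2⟩ := h <;>
      simp only at h1 h2 <;> simp [h1, h2]

theorem card_edgesOf (A : Finset V) : (edgesOf A).card ≤ 4 * A.card := by
  rw [mul_comm]
  exact card_biUnion_le_card_mul _ _ _ fun _ _ => card_le_four

theorem mem_thick {r : ℕ} {A : Finset V} {x : V} : x ∈ thick r A ↔ ∃ y ∈ A, Near r x y := by
  simp only [thick, mem_biUnion, mem_box]

theorem card_thick (r : ℕ) (A : Finset V) : (thick r A).card ≤ (2 * r + 1) ^ 2 * A.card := by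
  rw [mul_comm]
  exact card_biUnion_le_card_mul _ _ _ fun _ _ => (card_box _ _).le

/-- a walk moves at most one step per unit of time -/
theorem Chain.near {S : Set V} {f : ℕ → V} {i j k k' : ℕ} (h : Chain S f i j) (hk : i ≤ k)
    (hkk : k ≤ k') (hk' : k' ≤ j) : Near (k' - k) (f k) (f k') := by
  induction k', hkk using Nat.le_induction with
  | base => exact Near.refl _ _
  | succ n hn ih =>
    exact ((ih (by omega)).trans (h.1 n (by omega) (by omega)).near).mono (by omega)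

theorem Chain.mono {S S' : Set V} {f : ℕ → V} {i j i' j' : ℕ} (h : Chain S f i j) (hS : S ⊆ S')
    (hi : i ≤ i') (hj : j' ≤ j) : Chain S' f i' j' :=
  ⟨fun k h1 h2 => h.1 k (hi.trans h1) (h2.trans_le hj),
    fun k h1 h2 => hS (h.2 k (hi.trans h1) (h2.trans hj))⟩

theorem vx_ofF (f : ℕ → V) {n k : ℕ} (hk : k ≤ n) : vx (ofF f n) k = f k := by
  simp [vx, ofF, List.getD_eq_getElem?_getD, Nat.lt_succ_of_le hk]

theorem len_ofF (f : ℕ → V) (n : ℕ) : len (ofF f n) = n := by
  simp [len, ofF]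

theorem wt_ofF (t : Env) (f : ℕ → V) (n : ℕ) : wt t (ofF f n) = W t f 0 n := by
  rw [wt, len_ofF]
  refine sum_congr rfl fun k hk => ?_
  have := (Finset.mem_Ico.1 hk).2
  rw [vx_ofF f this.le, vx_ofF f this]

theorem isPth_ofF {S : Set V} {f : ℕ → V} {n : ℕ} (h : Chain S f 0 n)
    (hinj : ∀ i j, i ≤ n → j ≤ n → f i = f j → i = j) : IsPth S (f 0) (f n) (ofF f n) := by
  refine ⟨by simp [ofF], vx_ofF f (Nat.zero_le _), ?_, ?_, ?_⟩ <;> rw [len_ofF]
  · exact vx_ofF f le_rfl
  · refine ⟨fun k h1 h2 => ?_, fun k h1 h2 => ?_⟩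
    · rw [vx_ofF f h2.le, vx_ofF f h2]
      exact h.1 k h1 h2
    · rw [vx_ofF f h2]
      exact h.2 k h1 h2
  · intro i j hi hj
    rw [vx_ofF f hi, vx_ofF f hj]
    exact hinj i j hi hj

/-- two nonempty lists with the same length and vertices are equal -/
theorem list_ext {p q : List V} (hp : p ≠ []) (hq : q ≠ []) (hl : len p = len q)
    (h : ∀ i, i ≤ len p → vx p i = vx q i) : p = q := by
  have h1 := List.length_pos_iff.2 hp
  have h2 := List.length_pos_iff.2 hq
  unfold len at hl h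
  refine List.ext_getElem (by omega) fun i h3 h4 => ?_
  simpa only [vx, List.getD_eq_getElem _ _ h3, List.getD_eq_getElem _ _ h4] using h i (by omega)

theorem W_add (t : Env) (f : ℕ → V) {i j k : ℕ} (hij : i ≤ j) (hjk : j ≤ k) :
    W t f i j + W t f j k = W t f i k := sum_Ico_consecutive _ hij hjk

theorem W_nonneg {t : Env} (ht : ∀ e, 0 ≤ t e) (f : ℕ → V) (i j : ℕ) : 0 ≤ W t f i j :=
  sum_nonneg fun _ _ => ht _

theorem W_shift (t : Env) (f : ℕ → V) (i j : ℕ) :
    W t (fun k => f (i + k)) 0 (j - i) = W t f i j := by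
  rw [W, W, sum_Ico_eq_sum_range _ i, Nat.Ico_zero_eq_range]
  rfl

private theorem chain_rev {S : Set V} {f : ℕ → V} {n : ℕ} (hf : Chain S f 0 n) :
    Chain S (fun k => f (n - k)) 0 n := by
  refine ⟨fun k _ h => ?_, fun k _ _ => hf.2 _ (Nat.zero_le _) (Nat.sub_le _ _)⟩
  have := (hf.1 (n - (k + 1)) (Nat.zero_le _) (by omega)).symm
  rwa [show n - (k + 1) + 1 = n - k by omega] at this

private theorem w_rev (t : Env) (f : ℕ → V) (n : ℕ) :
    W t (fun k => f (n - k)) 0 n = W t f 0 n := by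
  rw [W, W, Nat.Ico_zero_eq_range, ← sum_range_reflect]
  refine sum_congr rfl fun k hk => ?_
  have := mem_range.1 hk
  rw [show n - (n - 1 - k) = k + 1 by omega, show n - (n - 1 - k + 1) = k by omega, Sym2.eq_swap]

private theorem chain_shift {S : Set V} {f : ℕ → V} {i j : ℕ} (hf : Chain S f i j) (hij : i ≤ j) :
    Chain S (fun k => f (i + k)) 0 (j - i) :=
  ⟨fun k _ _ => hf.1 (i + k) (by omega) (by omega), fun k _ _ => hf.2 (i + k) (by omega) (by omega)⟩

theorem IsPth.mono {S S' : Set V} {a b : V} {l : List V} (h : IsPth S a b l) (hS : S ⊆ S') :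
    IsPth S' a b l := ⟨h.ne, h.start, h.stop, h.chain.mono hS le_rfl le_rfl, h.inj⟩

theorem IsPth.seg {S : Set V} {a b : V} {l : List V} (h : IsPth S a b l) {i j : ℕ} (hij : i ≤ j)
    (hj : j ≤ len l) : IsPth S (vx l i) (vx l j) (seg l i j) := by
  have := isPth_ofF (S := S) (f := fun k => vx l (i + k)) (n := j - i)
    ⟨fun k _ _ => h.chain.1 (i + k) (Nat.zero_le _) (by omega),
      fun k _ _ => h.chain.2 (i + k) (Nat.zero_le _) (by omega)⟩
    fun k k' _ _ e => Nat.add_left_cancel (h.inj _ _ (by omega) (by omega) e)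
  rwa [Nat.add_sub_cancel' hij] at this

theorem wt_seg (t : Env) (l : List V) (i j : ℕ) : wt t (seg l i j) = W t (vx l) i j :=
  (wt_ofF _ _ _).trans (W_shift _ _ _ _)

theorem IsPth.rev {S : Set V} {a b : V} {l : List V} (h : IsPth S a b l) :
    IsPth S b a (rev l) := by
  have := isPth_ofF (f := fun k => vx l (len l - k)) (chain_rev h.chain)
    fun k k' _ _ e => by have := h.inj _ _ (by omega) (by omega) e; omega
  rwa [Nat.sub_zero, Nat.sub_self, h.start, h.stop] at this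

theorem wt_rev (t : Env) (l : List V) : wt t (rev l) = wt t l := (wt_ofF _ _ _).trans (w_rev _ _ _)

/-- the edges of a path are pairwise distinct -/
theorem IsPth.ed_inj {S : Set V} {a b : V} {l : List V} (h : IsPth S a b l) {i j : ℕ}
    (hi : i < len l) (hj : j < len l) (hij : ed l i = ed l j) : i = j := by
  rcases Sym2.eq_iff.1 hij with ⟨e, -⟩ | ⟨e, e'⟩
  · exact h.inj _ _ hi.le hj.le e
  · have h1 := h.inj _ _ hi.le hj e
    have h2 := h.inj _ _ hi hj.le e'
    omega

theorem mem_pedges {l : List V} {e : Sym2 V} : e ∈ pedges l ↔ ∃ i, i < len l ∧ ed l i = e := by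
  simp only [pedges, mem_image, mem_range]

/-- an edge of `l` has both endpoints on `l` -/
theorem on_of_mem_pedges {l : List V} {x y : V} (h : s(x, y) ∈ pedges l) : On l x ∧ On l y := by
  obtain ⟨i, hi, e⟩ := mem_pedges.1 h
  rcases Sym2.eq_iff.1 e with ⟨e, e'⟩ | ⟨e, e'⟩
  exacts [⟨⟨_, hi.le, e⟩, _, hi, e'⟩, ⟨⟨_, hi, e'⟩, _, hi.le, e⟩]

theorem IsPth.wt_eq_sum {S : Set V} {a b : V} {l : List V} (h : IsPth S a b l) (t : Env) :
    wt t l = ∑ e ∈ pedges l, t e := by
  rw [pedges, sum_image fun i hi j hj e => h.ed_inj (mem_range.1 hi) (mem_range.1 hj) e, wt, W,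
    Nat.Ico_zero_eq_range]
  rfl

private theorem concat {S : Set V} {f g : ℕ → V} {n m : ℕ} (hf : Chain S f 0 n)
    (hg : Chain S g 0 m) (h : f n = g 0) : ∃ F : ℕ → V, Chain S F 0 (n + m) ∧
      (∀ k, k ≤ n → F k = f k) ∧ (∀ k, k ≤ m → F (n + k) = g k) ∧
      ∀ t : Env, W t F 0 (n + m) = W t f 0 n + W t g 0 m := by
  obtain ⟨F, h1, h2⟩ : ∃ F : ℕ → V, (∀ k, k ≤ n → F k = f k) ∧ ∀ k, F (n + k) = g k := by
    refine ⟨fun k => if k ≤ n then f k else g (k - n), fun k hk => if_pos hk, fun k => ?_⟩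
    beta_reduce
    split_ifs with hk
    · obtain rfl : k = 0 := by omega
      exact h
    · rw [Nat.add_sub_cancel_left]
  refine ⟨F, ⟨fun k _ hk => ?_, fun k _ hk => ?_⟩, h1, fun k _ => h2 k, fun t => ?_⟩
  · rcases lt_or_ge k n with h3 | h3
    · rw [h1 k h3.le, h1 _ h3]
      exact hf.1 k (Nat.zero_le _) h3
    · obtain ⟨d, rfl⟩ := Nat.exists_eq_add_of_le h3
      rw [add_assoc, h2, h2]
      exact hg.1 d (Nat.zero_le _) (by omega)
  · rcases le_total k n with h3 | h3
    · rw [h1 k h3]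
      exact hf.2 k (Nat.zero_le _) h3
    · obtain ⟨d, rfl⟩ := Nat.exists_eq_add_of_le h3
      rw [h2]
      exact hg.2 d (Nat.zero_le _) (by omega)
  · rw [← W_add t F (Nat.zero_le n) (Nat.le_add_right n m), ← W_shift t F n,
      Nat.add_sub_cancel_left, funext h2]
    refine congrArg (· + _) (sum_congr rfl fun k hk => ?_)
    have := (Finset.mem_Ico.1 hk).2
    rw [h1 k this.le, h1 _ this]

private theorem erase {S : Set V} {t : Env} (ht : ∀ e, 0 ≤ t e) (n : ℕ) :
    ∀ f : ℕ → V, Chain S f 0 n → ∃ l, IsPth S (f 0) (f n) l ∧ wt t l ≤ W t f 0 n := by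
  induction n using Nat.strong_induction_on with
  | _ n ih =>
  intro f hf
  by_cases h : ∃ k k', k < k' ∧ k' ≤ n ∧ f k = f k'
  · obtain ⟨k, k', h1, h2, h3⟩ := h
    obtain ⟨F, hF, h4, h5, h6⟩ := concat (hf.mono subset_rfl le_rfl (h1.le.trans h2))
      (chain_shift (hf.mono subset_rfl (Nat.zero_le k') le_rfl) h2) h3
    obtain ⟨l, hl, h7⟩ := ih _ (by omega) F hF
    rw [h4 0 (Nat.zero_le _), h5 _ le_rfl, Nat.add_sub_cancel' h2] at hl
    refine ⟨l, hl, h7.trans ?_⟩
    rw [h6, W_shift, ← W_add t f (Nat.zero_le k') h2, ← W_add t f (Nat.zero_le k) h1.le]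
    linarith [W_nonneg ht f k k']
  · refine ⟨_, isPth_ofF hf fun i j hi hj e => ?_, (wt_ofF _ _ _).le⟩
    by_contra hij
    rcases lt_or_gt_of_ne hij with h1 | h1
    exacts [h ⟨i, j, h1, hj, e⟩, h ⟨j, i, h1, hi, e.symm⟩]

/-- Loop erasure. Strong induction on `j - i`: if `f` is injective on `[i,j]` take `ofF` of the
shifted walk; otherwise `f k = f k'` with `k < k'`, cut out `(k,k']` (new walk
`fun n => if n ≤ k then f n else f (n + (k' - k))`). -/
theorem exists_pth_of_chain {S : Set V} {t : Env} (ht : ∀ e, 0 ≤ t e) {f : ℕ → V} {i j : ℕ}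
    (hij : i ≤ j) (h : Chain S f i j) :
    ∃ l, IsPth S (f i) (f j) l ∧ wt t l ≤ W t f i j := by
  have := erase ht (j - i) _ (chain_shift h hij)
  rwa [W_shift, Nat.add_zero, Nat.add_sub_cancel' hij] at this

/-- concatenation of walks: `fun k => if k ≤ n then f k else g (k - n)` -/
theorem exists_concat {S : Set V} {f g : ℕ → V} {n m : ℕ} (hf : Chain S f 0 n) (hg : Chain S g 0 m)
    (h : f n = g 0) : ∃ F : ℕ → V, Chain S F 0 (n + m) ∧ (∀ k, k ≤ n → F k = f k) ∧
      (∀ k, k ≤ m → F (n + k) = g k) ∧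
      ∀ t : Env, W t F 0 (n + m) = W t f 0 n + W t g 0 m := concat hf hg h

/-- reversal of a walk -/
theorem Chain.rev {S : Set V} {f : ℕ → V} {n : ℕ} (hf : Chain S f 0 n) :
    Chain S (fun k => f (n - k)) 0 n := chain_rev hf

theorem W_rev (t : Env) (f : ℕ → V) (n : ℕ) : W t (fun k => f (n - k)) 0 n = W t f 0 n :=
  w_rev t f n

theorem Chain.shift {S : Set V} {f : ℕ → V} {i j : ℕ} (hf : Chain S f i j) (hij : i ≤ j) :
    Chain S (fun k => f (i + k)) 0 (j - i) := chain_shift hf hij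

theorem len_seg (l : List V) (i j : ℕ) : len (seg l i j) = j - i := len_ofF _ _

theorem vx_seg (l : List V) {i j k : ℕ} (hk : k ≤ j - i) : vx (seg l i j) k = vx l (i + k) :=
  vx_ofF _ hk

theorem len_rev (l : List V) : len (rev l) = len l := len_ofF _ _

theorem on_rev {l : List V} {z : V} : On (rev l) z ↔ On l z := by
  rw [On, len_rev]
  refine ⟨fun ⟨i, hi, e⟩ => ⟨len l - i, Nat.sub_le _ _, (vx_ofF _ hi).symm.trans e⟩,
    fun ⟨i, hi, e⟩ => ⟨len l - i, Nat.sub_le _ _, (vx_ofF _ (Nat.sub_le _ _)).trans ?_⟩⟩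
  rwa [Nat.sub_sub_self hi]

theorem card_pedges (l : List V) : (pedges l).card ≤ len l := card_image_le.trans_eq (card_range _)

theorem T_nonneg (S : Set V) {t : Env} (ht : ∀ e, 0 ≤ t e) (a b : V) : 0 ≤ T S t a b :=
  Real.iInf_nonneg fun _ => W_nonneg ht _ _ _

theorem T_le_wt {S : Set V} {t : Env} (ht : ∀ e, 0 ≤ t e) {a b : V} {l : List V}
    (h : IsPth S a b l) : T S t a b ≤ wt t l :=
  ciInf_le (f := fun l : {l : List V // IsPth S a b l} => wt t l.1)
    ⟨0, by rintro _ ⟨_, rfl⟩; exact W_nonneg ht _ _ _⟩ ⟨l, h⟩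

theorem T_le_W {S : Set V} {t : Env} (ht : ∀ e, 0 ≤ t e) {f : ℕ → V} {i j : ℕ} (hij : i ≤ j)
    (h : Chain S f i j) : T S t (f i) (f j) ≤ W t f i j := by
  obtain ⟨l, hl, h1⟩ := exists_pth_of_chain ht hij h
  exact (T_le_wt ht hl).trans h1

theorem reach_of_chain {S : Set V} {f : ℕ → V} {i j : ℕ} (hij : i ≤ j) (h : Chain S f i j) :
    Reach S (f i) (f j) :=
  (exists_pth_of_chain (t := fun _ => 0) (fun _ => le_rfl) hij h).imp fun _ h => h.1

theorem le_T {S : Set V} {t : Env} {a b : V} (hr : Reach S a b) {x : ℝ}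
    (h : ∀ l, IsPth S a b l → x ≤ wt t l) : x ≤ T S t a b := by
  have : Nonempty {l : List V // IsPth S a b l} := ⟨⟨_, hr.choose_spec⟩⟩
  exact le_ciInf fun l => h _ l.2

theorem Reach.symm {S : Set V} {a b : V} (h : Reach S a b) : Reach S b a := ⟨_, h.choose_spec.rev⟩

theorem Reach.trans {S : Set V} {a b c : V} (h : Reach S a b) (h' : Reach S b c) :
    Reach S a c := by
  obtain ⟨p, hp⟩ := h
  obtain ⟨q, hq⟩ := h'
  obtain ⟨F, hF, h1, h2, -⟩ := exists_concat hp.chain hq.chain (hp.stop.trans hq.start.symm)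
  have := reach_of_chain (Nat.zero_le _) hF
  rwa [h1 0 (Nat.zero_le _), h2 _ le_rfl, hp.start, hq.stop] at this

theorem T_self {S : Set V} {t : Env} (ht : ∀ e, 0 ≤ t e) {a : V} (ha : a ∈ S) :
    T S t a a = 0 :=
  le_antisymm (by
    simpa [W] using T_le_W ht (f := fun _ => a) (le_refl 0)
      ⟨fun _ _ h => absurd h (Nat.not_lt_zero _), fun _ _ _ => ha⟩) (T_nonneg S ht a a)

private theorem T_zero {S : Set V} {t : Env} {a b : V} (h : ¬ Reach S a b) : T S t a b = 0 := by
  have : IsEmpty {l : List V // IsPth S a b l} := ⟨fun l => h ⟨_, l.2⟩⟩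
  exact Real.iInf_of_isEmpty _

theorem T_symm (S : Set V) {t : Env} (ht : ∀ e, 0 ≤ t e) (a b : V) : T S t a b = T S t b a := by
  have key : ∀ a b, Reach S a b → T S t b a ≤ T S t a b := fun a b h =>
    le_T h fun l hl => (T_le_wt ht hl.rev).trans_eq (wt_rev t l)
  by_cases h : Reach S a b
  · exact le_antisymm (key _ _ h.symm) (key _ _ h)
  · rw [T_zero h, T_zero fun h' => h h'.symm]

/-- concatenate two paths into a walk and use `T_le_W` -/
theorem T_triangle {S : Set V} {t : Env} (ht : ∀ e, 0 ≤ t e) {a b c : V} (h : Reach S a b)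
    (h' : Reach S b c) : T S t a c ≤ T S t a b + T S t b c := by
  rw [← sub_le_iff_le_add]
  refine le_T h fun p hp => ?_
  rw [sub_le_comm]
  refine le_T h' fun q hq => ?_
  obtain ⟨F, hF, h1, h2, h3⟩ := exists_concat hp.chain hq.chain (hp.stop.trans hq.start.symm)
  have := T_le_W ht (Nat.zero_le _) hF
  rw [h1 0 (Nat.zero_le _), h2 _ le_rfl, hp.start, hq.stop, h3] at this
  exact sub_le_iff_le_add'.2 this

theorem T_mono_set {S S' : Set V} {t : Env} (ht : ∀ e, 0 ≤ t e) (hS : S ⊆ S') {a b : V}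
    (h : Reach S a b) : T S' t a b ≤ T S t a b := le_T h fun _ hl => T_le_wt ht (hl.mono hS)

theorem T_mono_wt (S : Set V) {t t' : Env} (ht : ∀ e, 0 ≤ t e) (h : ∀ e, t e ≤ t' e) (a b : V) :
    T S t a b ≤ T S t' a b := by
  by_cases hr : Reach S a b
  · refine le_T hr fun _ hl => (T_le_wt ht hl).trans ?_
    unfold wt W
    exact sum_le_sum fun _ _ => h _
  · rw [T_zero hr, T_zero hr]

end Vale.Agent.P158b
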