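import Vale.Agent.P158b.PathA

/-! Geodesics. -/

open MeasureTheory ProbabilityTheory Finset
open scoped Classical

namespace Vale.Agent.P158b

/-- there are finitely many paths in a finite set (lists of length at most `card S` over `S`) -/
theorem pth_finite {S : Set V} (hS : S.Finite) (a b : V) : {l | IsPth S a b l}.Finite := by
  have := hS.to_subtype
  refine ((List.finite_length_le S hS.toFinset.card).image (List.map Subtype.val)).subset
    fun l hl => ?_
  have h0 : l.length = len l + 1 := (Nat.sub_add_cancel (List.length_pos_iff.2 hl.ne)).symm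
  have hm : ∀ x ∈ l, x ∈ S := fun x hx => by
    obtain ⟨i, hi, rfl⟩ := List.getElem_of_mem hx
    have := hl.chain.2 i (Nat.zero_le _) (by omega)
    rwa [vx, List.getD_eq_getElem _ _ hi] at this
  refine ⟨l.attachWith _ hm, ?_, List.attachWith_map_subtype_val hm⟩
  rw [Set.mem_ofPred_eq, List.length_attachWith, h0, ← card_range (len l + 1)]
  refine card_le_card_of_injOn (vx l) (fun i hi => ?_) fun i hi j hj => ?_
  · exact hS.mem_toFinset.2 (hl.chain.2 i (Nat.zero_le _) (Nat.lt_succ_iff.1 (mem_range.1 hi)))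
  · exact hl.inj i j (Nat.lt_succ_iff.1 (mem_range.1 hi)) (Nat.lt_succ_iff.1 (mem_range.1 hj))

theorem exists_min {S : Set V} (hS : S.Finite) (t : Env) {a b : V} (h : Reach S a b) :
    ∃ l, IsPth S a b l ∧ wt t l = T S t a b := by
  have : Finite {l : List V // IsPth S a b l} := (pth_finite hS a b).to_subtype
  have : Nonempty {l : List V // IsPth S a b l} := ⟨⟨_, h.choose_spec⟩⟩
  obtain ⟨l, hl⟩ := exists_eq_ciInf_of_finite (f := fun l : {l // IsPth S a b l} => wt t l.1)
  exact ⟨l.1, l.2, hl⟩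

theorem Uniq.mono {S S' : Set V} {t : Env} (h : Uniq S' t) (hS : S ⊆ S') : Uniq S t :=
  fun a b p q hp hq => h a b p q (hp.mono hS) (hq.mono hS)

theorem IsGeo.wt_eq {S : Set V} {t : Env} (ht : ∀ e, 0 ≤ t e) {a b : V} {l : List V}
    (h : IsGeo S t a b l) : wt t l = T S t a b := by
  refine le_antisymm (le_T ⟨l, h.1⟩ fun q hq => ?_) (T_le_wt ht h.1)
  rcases eq_or_ne q l with rfl | e
  · exact le_rfl
  · exact (h.2 q hq e).le

theorem IsGeo.unique {S : Set V} {t : Env} {a b : V} {p q : List V} (hp : IsGeo S t a b p)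
    (hq : IsGeo S t a b q) : p = q := by
  by_contra e
  exact lt_asymm (hp.2 q hq.1 (Ne.symm e)) (hq.2 p hp.1 e)

theorem isGeo_of_min {S : Set V} {t : Env} (ht : ∀ e, 0 ≤ t e) (hU : Uniq S t) {a b : V}
    {l : List V} (h : IsPth S a b l) (hw : wt t l ≤ T S t a b) : IsGeo S t a b l :=
  ⟨h, fun q hq e => lt_of_le_of_ne (hw.trans (T_le_wt ht hq)) fun e' => e (hU a b l q h hq e').symm⟩

theorem exists_geo {S : Set V} (hS : S.Finite) {t : Env} (ht : ∀ e, 0 ≤ t e) (hU : Uniq S t)
    {a b : V} (h : Reach S a b) : ∃ l, IsGeo S t a b l :=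
  (exists_min hS t h).imp fun _ hl => isGeo_of_min ht hU hl.1 hl.2.le

/-- a minimal path is minimal between any two of its points -/
theorem W_eq_T {S : Set V} {t : Env} (ht : ∀ e, 0 ≤ t e) {a b : V} {l : List V}
    (h : IsPth S a b l) (hw : wt t l = T S t a b) {i j : ℕ} (hij : i ≤ j) (hj : j ≤ len l) :
    W t (vx l) i j = T S t (vx l i) (vx l j) := by
  have hi := hij.trans hj
  have c1 := h.chain.mono subset_rfl le_rfl hi
  have c2 := h.chain.mono subset_rfl (Nat.zero_le i) hj
  have c3 := h.chain.mono subset_rfl (Nat.zero_le j) le_rfl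
  refine le_antisymm ?_ (T_le_W ht hij c2)
  have r1 := reach_of_chain (Nat.zero_le i) c1
  have r2 := reach_of_chain hij c2
  have a1 := T_triangle ht r1 r2
  have a2 := T_triangle ht (r1.trans r2) (reach_of_chain hj c3)
  have a3 := T_le_W ht (Nat.zero_le i) c1
  have a4 := T_le_W ht hj c3
  have a5 := W_add t (vx l) (Nat.zero_le i) hij
  have a6 := W_add t (vx l) (Nat.zero_le j) hj
  rw [wt, ← h.start, ← h.stop] at hw
  linarith

/-- splitting the passage time at a point of a minimal path -/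
theorem T_split {S : Set V} {t : Env} (ht : ∀ e, 0 ≤ t e) {a b : V} {l : List V}
    (h : IsPth S a b l) (hw : wt t l = T S t a b) {z : V} (hz : On l z) :
    T S t a b = T S t a z + T S t z b := by
  obtain ⟨i, hi, rfl⟩ := hz
  have a1 := W_eq_T ht h hw (Nat.zero_le i) hi
  have a2 := W_eq_T ht h hw hi le_rfl
  rw [h.start] at a1
  rw [h.stop] at a2
  rw [← a1, ← a2, W_add t (vx l) (Nat.zero_le i) hi, ← hw, wt]

theorem IsGeo.seg {S : Set V} {t : Env} (ht : ∀ e, 0 ≤ t e) (hU : Uniq S t) {a b : V}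
    {l : List V} (h : IsGeo S t a b l) {i j : ℕ} (hij : i ≤ j) (hj : j ≤ len l) :
    IsGeo S t (vx l i) (vx l j) (seg l i j) :=
  isGeo_of_min ht hU (h.1.seg hij hj) (by rw [wt_seg, W_eq_T ht h.1 (h.wt_eq ht) hij hj])

theorem IsGeo.rev {S : Set V} {t : Env} (ht : ∀ e, 0 ≤ t e) (hU : Uniq S t) {a b : V}
    {l : List V} (h : IsGeo S t a b l) : IsGeo S t b a (rev l) :=
  isGeo_of_min ht hU h.1.rev (by rw [wt_rev, h.wt_eq ht, T_symm S ht])

/-- raising weights off `l` -/
theorem IsGeo.raise {S : Set V} {t t' : Env} {a b : V} {l : List V} (h : IsGeo S t a b l)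
    (hle : ∀ e, t e ≤ t' e) (heq : ∀ e ∈ pedges l, t' e = t e) : IsGeo S t' a b l := by
  refine ⟨h.1, fun q hq e => ?_⟩
  have := h.2 q hq e
  rw [h.1.wt_eq_sum, hq.wt_eq_sum] at this ⊢
  rw [sum_congr rfl heq]
  exact this.trans_le (sum_le_sum fun e _ => hle e)

/-- lowering weights on `l` (use `IsPth.wt_eq_sum`) -/
theorem IsGeo.lower {S : Set V} {t t' : Env} {a b : V} {l : List V} (h : IsGeo S t a b l)
    (hle : ∀ e, t' e ≤ t e) (heq : ∀ e, e ∉ pedges l → t' e = t e) : IsGeo S t' a b l := by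
  refine ⟨h.1, fun q hq e => ?_⟩
  have a1 := h.2 q hq e
  have a2 : ∑ e ∈ pedges q ∩ pedges l, (t e - t' e) = ∑ e ∈ pedges q, (t e - t' e) :=
    sum_subset inter_subset_left fun e h1 h2 => by
      rw [heq e fun h3 => h2 (mem_inter.2 ⟨h1, h3⟩), sub_self]
  have a3 : ∑ e ∈ pedges q ∩ pedges l, (t e - t' e) ≤ ∑ e ∈ pedges l, (t e - t' e) :=
    sum_le_sum_of_subset_of_nonneg inter_subset_right fun e _ _ => sub_nonneg.2 (hle e)
  rw [a2, sum_sub_distrib, sum_sub_distrib] at a3
  rw [h.1.wt_eq_sum, hq.wt_eq_sum] at a1 ⊢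
  linarith

/-- only the weights of adjacent pairs inside `S` matter -/
theorem IsPth.wt_congr {S : Set V} {t t' : Env} {a b : V} {l : List V} (h : IsPth S a b l)
    (he : ∀ x y, x ∈ S → y ∈ S → Adj x y → t s(x, y) = t' s(x, y)) : wt t l = wt t' l :=
  sum_congr rfl fun k hk => he _ _ (h.chain.2 k (Nat.zero_le _) (mem_Ico.1 hk).2.le)
    (h.chain.2 _ (Nat.zero_le _) (mem_Ico.1 hk).2) (h.chain.1 k (Nat.zero_le _) (mem_Ico.1 hk).2)

theorem T_congr {S : Set V} {t t' : Env}
    (he : ∀ x y, x ∈ S → y ∈ S → Adj x y → t s(x, y) = t' s(x, y)) (a b : V) :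
    T S t a b = T S t' a b :=
  iInf_congr fun l => l.2.wt_congr he

theorem isGeo_congr {S : Set V} {t t' : Env}
    (he : ∀ x y, x ∈ S → y ∈ S → Adj x y → t s(x, y) = t' s(x, y)) (a b : V) (l : List V) :
    IsGeo S t a b l ↔ IsGeo S t' a b l :=
  and_congr_right fun h => forall₃_congr fun q hq _ => by rw [h.wt_congr he, hq.wt_congr he]

/-- A path is determined by its edge set. Induction on the position: if `p` and `q` agree up to
`k` and `k < len p`, the edge `ed p k` is some `ed q j`; injectivity forces `j = k`. -/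
theorem IsPth.eq_of_pedges {S : Set V} {a b : V} {p q : List V} (hp : IsPth S a b p)
    (hq : IsPth S a b q) (h : pedges p = pedges q) : p = q := by
  have hc : ∀ {l}, IsPth S a b l → (pedges l).card = len l := fun hl => by
    rw [pedges, card_image_of_injOn fun i hi j hj =>
      hl.ed_inj (mem_range.1 hi) (mem_range.1 hj), card_range]
  have hl : len p = len q := by rw [← hc hp, h, hc hq]
  refine list_ext hp.ne hq.ne hl fun i => ?_
  induction i using Nat.strong_induction_on with
  | _ i ih =>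
    intro hi
    rcases i with _ | k
    · rw [hp.start, hq.start]
    obtain ⟨j, hj, e⟩ := mem_pedges.1 (h ▸ mem_pedges.2 ⟨k, hi, rfl⟩)
    have hk := ih k (Nat.lt_succ_self k) (by omega)
    rcases Sym2.eq_iff.1 e with ⟨e1, e2⟩ | ⟨e1, e2⟩
    · obtain rfl := hq.inj j k hj.le (by omega) (e1.trans hk)
      exact e2.symm
    · obtain rfl := hq.inj (j + 1) k hj (by omega) (e2.trans hk)
      have := hp.inj j (j + 1 + 1) (by omega) hi ((ih j (by omega) (by omega)).trans e1)
      omega

end Vale.Agent.P158b
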