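import Vale.Agent.P158b.PathA

/-! Cutting a walk into pieces along blocks. -/

open MeasureTheory ProbabilityTheory Finset
open scoped Classical

namespace Vale.Agent.P158b

namespace PiecesAux

/-- on a grid line -/
def Grid (h : ℕ) (x : V) : Prop := ∃ n : ℤ, x.1 = 2 * h * n + h ∨ x.2 = 2 * h * n + h

lemma tile1 {h : ℕ} (hh : 1 ≤ h) (a : ℤ) :
    ∃ n : ℤ, 2 * h * n - h ≤ a ∧ a + 1 ≤ 2 * h * n + h := by
  have h0 : (0 : ℤ) < 2 * h := by omega
  have h1 := Int.mul_ediv_add_emod (a + h) (2 * h)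
  have h2 := Int.emod_nonneg (a + h) h0.ne'
  have h3 := Int.emod_lt_of_pos (a + h) h0
  exact ⟨(a + h) / (2 * h), by omega, by omega⟩

lemma tile {h : ℕ} (hh : 1 ≤ h) {x y : V} (hxy : Adj x y) :
    ∃ q, Near h x (ctr h q) ∧ Near h y (ctr h q) := by
  obtain ⟨n, h1, h2⟩ := tile1 hh (min x.1 y.1)
  obtain ⟨n', h3, h4⟩ := tile1 hh (min x.2 y.2)
  refine ⟨(n, n'), ?_⟩
  simp only [Near, ctr]
  unfold Adj at hxy
  omega

lemma close1 {h : ℕ} (hh : 1 ≤ h) {a b r : ℤ} (hab : 2 * h * a - 2 * h * b ≤ 2 * h * r + h) :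
    a - b ≤ r := by
  by_contra hc
  have h1 : r + 1 ≤ a - b := by omega
  have h0 : (0 : ℤ) < h := by omega
  nlinarith

lemma near_two {h : ℕ} (hh : 1 ≤ h) {x q q' : V} (h1 : Near (3 * h) x (ctr h q))
    (h2 : Near h x (ctr h q')) : Near 2 q q' := by
  simp only [Near, ctr] at h1 h2 ⊢
  refine ⟨close1 hh ?_, close1 hh ?_, close1 hh ?_, close1 hh ?_⟩ <;> omega

lemma near_zero {h N : ℕ} (hh : 1 ≤ h) {x q : V} (h1 : Near N x 0) (h2 : Near h x (ctr h q)) :
    Near N q 0 := by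
  have h3 : (N : ℤ) ≤ 2 * h * N := by
    have : (1 : ℤ) ≤ h := by omega
    nlinarith
  simp only [Near, ctr, Prod.fst_zero, Prod.snd_zero] at h1 h2 ⊢
  refine ⟨close1 hh ?_, close1 hh ?_, close1 hh ?_, close1 hh ?_⟩ <;> omega

lemma grid1 {h : ℕ} (hh : 1 ≤ h) {a n b : ℤ} (ha : a = 2 * h * n + h) (h1 : a - 2 * h * b ≤ h)
    (h2 : 2 * h * b - a ≤ h) : 2 * h * b + h ≤ a ∨ a ≤ 2 * h * b - h := by
  have e1 : n - b ≤ 0 := close1 hh (by omega)
  have e2 : b - n ≤ 1 := close1 hh (by omega)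
  have e3 : b = n ∨ b = n + 1 := by omega
  rcases e3 with rfl | rfl
  · omega
  · right
    rw [ha]
    exact le_of_eq (by ring)

lemma bd_of_grid {h : ℕ} (hh : 1 ≤ h) {x q : V} (hg : Grid h x) (hx : Near h x (ctr h q)) :
    Bd (ctr h q) h x := by
  refine ⟨hx, ?_⟩
  obtain ⟨n, hn | hn⟩ := hg
  · rcases grid1 hh hn hx.1 hx.2.1 with e | e
    · exact Or.inl e
    · exact Or.inr (Or.inl e)
  · rcases grid1 hh hn hx.2.2.1 hx.2.2.2 with e | e
    · exact Or.inr (Or.inr (Or.inl e))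
    · exact Or.inr (Or.inr (Or.inr e))

lemma grid_of_bd {h : ℕ} (r : ℕ) {x q : V} (hx : Bd (ctr h q) ((2 * r + 1) * h) x) : Grid h x := by
  obtain ⟨⟨h1, h2, h3, h4⟩, h5⟩ := hx
  simp only [Out, ctr] at h1 h2 h3 h4 h5
  push_cast at h1 h2 h3 h4 h5
  rcases h5 with e | e | e | e
  · exact ⟨q.1 + r, Or.inl (by linarith)⟩
  · exact ⟨q.1 - r - 1, Or.inl (by linarith)⟩
  · exact ⟨q.2 + r, Or.inr (by linarith)⟩
  · exact ⟨q.2 - r - 1, Or.inr (by linarith)⟩

lemma step_in {r : ℕ} {c x y : V} (_hx : Near r x c) (ho : ¬ Out c r x) (hxy : Adj x y) :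
    Near r y c := by
  unfold Near Out Adj at *
  omega

lemma jump {r L i : ℕ} {f : ℕ → V} {c : V} (hf : ∀ k, k < L → Adj (f k) (f (k + 1))) (hi : i < L)
    (h1 : Near r (f (i + 1)) c) : ∃ j, i < j ∧ j ≤ L ∧ Near r (f j) c ∧
      (∀ k, j < k → k ≤ L → ¬ Near r (f k) c) ∧ (j < L → Bd c r (f j)) := by
  have e1 : i + 1 ≤ Nat.findGreatest (fun k => Near r (f k) c) L := Nat.le_findGreatest hi h1
  have e2 : Near r (f (Nat.findGreatest (fun k => Near r (f k) c) L)) c :=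
    Nat.findGreatest_spec (P := fun k => Near r (f k) c) hi h1
  have e3 : ∀ k, Nat.findGreatest (fun k => Near r (f k) c) L < k → k ≤ L → ¬ Near r (f k) c :=
    fun k hk hkL => Nat.findGreatest_is_greatest hk hkL
  refine ⟨_, e1, Nat.findGreatest_le L, e2, e3, fun hj => ⟨e2, ?_⟩⟩
  by_contra ho
  exact e3 _ (Nat.lt_succ_self _) hj (step_in e2 ho (hf _ hj))

lemma cross {r L i : ℕ} {f : ℕ → V} {c : V} (hf : ∀ k, k < L → Adj (f k) (f (k + 1))) (hi : i < L)
    (h1 : Near r (f i) c) (h2 : ¬ Out c r (f i)) : ∃ j, i < j ∧ j ≤ L ∧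
      (∀ k, i ≤ k → k ≤ j → Near r (f k) c) ∧ (j < L → Bd c r (f j)) := by
  have hex : ∃ j, i ≤ j ∧ (j = L ∨ Out c r (f j)) := ⟨L, hi.le, Or.inl rfl⟩
  obtain ⟨e1, e2⟩ := Nat.find_spec hex
  have e3 : Nat.find hex ≤ L := Nat.find_min' hex ⟨hi.le, Or.inl rfl⟩
  have e4 : ∀ k, i ≤ k → k < Nat.find hex → ¬ Out c r (f k) := fun k hk hk' ho =>
    Nat.find_min hex hk' ⟨hk, Or.inr ho⟩
  have e5 : ∀ k, i ≤ k → k ≤ Nat.find hex → Near r (f k) c := by
    intro k hk
    induction k, hk using Nat.le_induction with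
    | base => exact fun _ => h1
    | succ k hk ih =>
      exact fun hk' => step_in (ih (by omega)) (e4 k hk (by omega)) (hf k (by omega))
  refine ⟨_, lt_of_le_of_ne e1 fun e => ?_, e3, e5, fun hj => ⟨e5 _ e1 le_rfl, ?_⟩⟩
  · rw [← e] at e2
    rcases e2 with e2 | e2
    · omega
    · exact h2 e2
  · exact e2.resolve_left hj.ne

lemma step {h L : ℕ} (hh : 1 ≤ h) {f : ℕ → V} (hf : ∀ k, k < L → Adj (f k) (f (k + 1))) {i : ℕ}
    (hi : i < L) {q : V} (h0 : Near h (f i) (ctr h q)) (h1 : Near h (f (i + 1)) (ctr h q))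
    (b : Prop) : ∃ j, i < j ∧ j ≤ L ∧ Near (3 * h) (f j) (ctr h q) ∧ (j < L → Grid h (f j)) ∧
      (b → ∀ k, j < k → k ≤ L → ¬ Near h (f k) (ctr h q)) ∧
      (¬ b → (∀ k, i ≤ k → k ≤ j → Near (3 * h) (f k) (ctr h q)) ∧
        (j < L → Bd (ctr h q) (3 * h) (f j))) := by
  by_cases hb : b
  · obtain ⟨j, e1, e2, e3, e4, e5⟩ := jump hf hi h1
    refine ⟨j, e1, e2, ?_, fun hj => grid_of_bd 0 (q := q) (by simpa using e5 hj), fun _ => e4,
      fun h' => absurd hb h'⟩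
    unfold Near at *
    omega
  · obtain ⟨j, e1, e2, e3, e4⟩ := cross (r := 3 * h) (c := ctr h q) hf hi
      (by unfold Near at *; omega) (by unfold Near Out at *; omega)
    exact ⟨j, e1, e2, e3 j e1.le le_rfl, fun hj => grid_of_bd 1 (e4 hj), fun h' => absurd h' hb,
      fun _ => ⟨e3, e4⟩⟩

end PiecesAux

open PiecesAux in
/-- Greedy construction. At a cut `m k < L` choose `q k` with `f (m k)` and `f (m k + 1)` in the
closed box `bx (ctr h (q k)) h` (every edge lies in a closed tile; for `k ≥ 1` the point `f (m k)`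
is on a grid line, coordinate `≡ h mod 2h`, hence `Bd (ctr h (q k)) h`). If `k = 0` or `Bad (q k)`,
let `m (k+1)` be the last visit to that closed box (a jump piece; the last visit is on a grid line
unless it is `L`). Otherwise let `m (k+1)` be the first visit to `Bd (ctr h (q k)) (3h)` (a good
piece), or `L` if there is none. It is convenient to prove the statement by strong induction on
`L - m` for the walk restricted to `[m, L]`, keeping the invariant that all blocks `q k` used from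
`m` on contain a point `f i` with `m < i`, or an equivalent recursion. -/
theorem pieces (Bad : V → Prop) {h N L : ℕ} (hh : 1 ≤ h) (hL : 1 ≤ L) {f : ℕ → V}
    (hf : Chain (bx 0 N) f 0 L) :
    ∃ (J : ℕ) (m : ℕ → ℕ) (q : ℕ → V) (good : ℕ → Prop), 1 ≤ J ∧ m 0 = 0 ∧ m J = L ∧
      (∀ k, k < J → m k < m (k + 1)) ∧ Near N (q 0) 0 ∧
      (∀ k, k + 1 < J → Near 2 (q k) (q (k + 1))) ∧
      (∀ k, k < J → good k → ¬ Bad (q k) ∧ Bd (ctr h (q k)) h (f (m k)) ∧
        Bd (ctr h (q k)) (3 * h) (f (m (k + 1))) ∧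
        ∀ i, m k ≤ i → i ≤ m (k + 1) → Near (3 * h) (f i) (ctr h (q k))) ∧
      (∀ k, k < J → ¬ good k → (k = 0 ∨ k + 1 = J ∨ Bad (q k)) ∧
        Near (4 * h) (f (m k)) (f (m (k + 1)))) ∧
      ∀ k k', k < k' → k' < J → Bad (q k) → q k ≠ q k' := by
  have hA : ∀ k, k < L → Adj (f k) (f (k + 1)) := fun k hk => hf.1 k (Nat.zero_le k) hk
  have hQ : ∀ i, ∃ q, i < L → Near h (f i) (ctr h q) ∧ Near h (f (i + 1)) (ctr h q) := fun i => by
    by_cases hi : i < L
    · obtain ⟨q, hq⟩ := tile hh (hA i hi)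
      exact ⟨q, fun _ => hq⟩
    · exact ⟨0, fun h' => absurd h' hi⟩
  choose Q hQ using hQ
  choose! nx n1 n2 n3 n4 n5 n6 using fun (b : Prop) (i : ℕ) (hi : i < L) =>
    step hh hA hi (hQ i hi).1 (hQ i hi).2 b
  obtain ⟨m, m0, ms⟩ : ∃ m : ℕ → ℕ, m 0 = 0 ∧ ∀ k, m (k + 1) = nx (k = 0 ∨ Bad (Q (m k))) (m k) :=
    ⟨fun k => Nat.rec 0 (fun k i => nx (k = 0 ∨ Bad (Q i)) i) k, rfl, fun _ => rfl⟩
  have hex : ∃ k, m k = L := by
    have : ∀ k, (∃ k', m k' = L) ∨ (k ≤ m k ∧ m k < L) := fun k => by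
      induction k with
      | zero => exact Or.inr ⟨Nat.zero_le _, by omega⟩
      | succ k ih =>
        refine ih.elim Or.inl fun ⟨e1, e2⟩ => ?_
        have e3 := n1 (k = 0 ∨ Bad (Q (m k))) _ e2
        have e4 := n2 (k = 0 ∨ Bad (Q (m k))) _ e2
        rw [← ms] at e3 e4
        by_cases e5 : m (k + 1) = L
        · exact Or.inl ⟨_, e5⟩
        · exact Or.inr ⟨by omega, by omega⟩
    exact (this L).elim id fun e => by omega
  obtain ⟨J, hJ, hJ'⟩ : ∃ J, m J = L ∧ ∀ k, k < J → m k ≠ L :=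
    ⟨Nat.find hex, Nat.find_spec hex, fun k hk => Nat.find_min hex hk⟩
  have lt : ∀ k, k < J → m k < L := fun k => by
    induction k with
    | zero => exact fun _ => by omega
    | succ k ih =>
      intro hk
      have e := n2 (k = 0 ∨ Bad (Q (m k))) _ (ih (by omega))
      rw [← ms] at e
      exact lt_of_le_of_ne e (hJ' _ hk)
  have inc : ∀ k, k < J → m k < m (k + 1) := fun k hk => ms k ▸ n1 _ _ (lt k hk)
  have mono : ∀ k k', k ≤ k' → k' < J → m k ≤ m k' := fun k k' hk => by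
    induction k', hk using Nat.le_induction with
    | base => exact fun _ => le_rfl
    | succ k' hk ih => exact fun h' => (ih (by omega)).trans (inc k' (by omega)).le
  have J1 : 1 ≤ J := by
    rcases Nat.eq_zero_or_pos J with rfl | e
    · omega
    · exact e
  have near3 : ∀ k, k < J → Near (3 * h) (f (m (k + 1))) (ctr h (Q (m k))) := fun k hk =>
    ms k ▸ n3 _ _ (lt k hk)
  refine ⟨J, m, fun k => Q (m k), fun k => ¬ (k = 0 ∨ Bad (Q (m k))) ∧
    Bd (ctr h (Q (m k))) (3 * h) (f (m (k + 1))), J1, m0, hJ, inc, ?_, ?_, ?_, ?_, ?_⟩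
  · exact near_zero hh (hf.2 _ (Nat.zero_le _) (lt 0 J1).le) (hQ _ (lt 0 J1)).1
  · exact fun k hk => near_two hh (near3 k (by omega)) (hQ _ (lt _ hk)).1
  · rintro k hk ⟨g1, g2⟩
    refine ⟨fun hb => g1 (Or.inr hb), bd_of_grid hh ?_ (hQ _ (lt k hk)).1, g2, ?_⟩
    · obtain ⟨k, rfl⟩ := Nat.exists_eq_succ_of_ne_zero fun e => g1 (Or.inl e)
      have e := n4 (k = 0 ∨ Bad (Q (m k))) _ (lt k (by omega))
      rw [← ms] at e
      exact e (lt _ hk)
    · have e := (n6 _ _ (lt k hk) g1).1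
      rwa [← ms] at e
  · intro k hk hg
    constructor
    · by_cases g1 : k = 0 ∨ Bad (Q (m k))
      · exact g1.imp_right Or.inr
      · have e := (n6 _ _ (lt k hk) g1).2
        rw [← ms] at e
        refine Or.inr (Or.inl ?_)
        by_contra hc
        exact hg ⟨g1, e (lt _ (by omega))⟩
    · have e1 := near3 k hk
      have e2 := (hQ _ (lt k hk)).1
      unfold Near at *
      omega
  · intro k k' hk hk' hb he
    have e := n5 _ _ (lt k (by omega)) (Or.inr hb : k = 0 ∨ Bad (Q (m k)))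
    rw [← ms] at e
    have e2 := mono (k + 1) k' hk hk'
    refine e (m k' + 1) (by omega) (lt k' hk') ?_
    have he' : Q (m k) = Q (m k') := he
    rw [he']
    exact (hQ _ (lt k' hk')).2

end Vale.Agent.P158b
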