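import Vale.Agent.P158b.PathA

/-! Resampling one coordinate, the lowering kernel, sub-Gaussian tails. -/

open MeasureTheory ProbabilityTheory Finset
open scoped Classical

namespace Vale.Agent.P158b

variable {G : Measure ℝ} [IsProbabilityMeasure G]

/-- use `Measure.eq_infinitePi` -/
theorem update_mp (G : Measure ℝ) [IsProbabilityMeasure G] (e : Sym2 V) :
    MeasurePreserving (fun p : Env × ℝ => Function.update p.1 e p.2) ((PP G).prod G) (PP G) := by
  have hm : Measurable fun p : Env × ℝ => Function.update p.1 e p.2 := measurable_update'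
  refine ⟨hm, Measure.eq_infinitePi _ fun s t ht => ?_⟩
  rw [Measure.map_apply hm (MeasurableSet.pi s.countable_toSet fun i _ => ht i)]
  by_cases he : e ∈ s
  · have h1 : (fun p : Env × ℝ => Function.update p.1 e p.2) ⁻¹' Set.pi s t =
        Set.pi (s.erase e : Finset (Sym2 V)) t ×ˢ t e := by
      ext ⟨ω, z⟩
      simp only [Set.mem_preimage, Set.mem_pi, Finset.mem_coe, Set.mem_prod, Finset.mem_erase]
      constructor
      · intro h
        refine ⟨fun i hi => ?_, ?_⟩
        · simpa only [Function.update_of_ne hi.1] using h i hi.2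
        · simpa only [Function.update_self] using h e he
      · rintro ⟨h1, h2⟩ i hi
        by_cases hie : i = e
        · subst hie
          simpa only [Function.update_self] using h2
        · simpa only [Function.update_of_ne hie] using h1 i ⟨hie, hi⟩
    rw [h1, Measure.prod_prod, PP, Measure.infinitePi_pi _ fun i _ => ht i,
      Finset.prod_erase_mul _ _ he]
  · have h1 : (fun p : Env × ℝ => Function.update p.1 e p.2) ⁻¹' Set.pi s t =
        Set.pi s t ×ˢ Set.univ := by
      ext ⟨ω, z⟩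
      simp only [Set.mem_preimage, Set.mem_pi, Finset.mem_coe, Set.mem_prod, Set.mem_univ,
        and_true]
      refine forall₂_congr fun i hi => ?_
      rw [Function.update_of_ne (ne_of_mem_of_not_mem hi he)]
    rw [h1, Measure.prod_prod, PP, Measure.infinitePi_pi _ fun i _ => ht i, measure_univ, mul_one]

theorem PP_eval (e : Sym2 V) {B : Set ℝ} (hB : MeasurableSet B) :
    (PP G).real {ω | ω e ∈ B} = G.real B :=
  (measurePreserving_eval_infinitePi (fun _ : Sym2 V => G) e).measureReal_preimage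
    hB.nullMeasurableSet

theorem trans_mp (G : Measure ℝ) [IsProbabilityMeasure G] (v : V) :
    MeasurePreserving (trans v) (PP G) (PP G) := by
  have hm : Measurable (trans v) := measurable_pi_lambda _ fun e => measurable_pi_apply _
  have hi : iIndepFun (fun (e : Sym2 V) (ω : Env) => ω e) (PP G) :=
    iIndepFun_infinitePi (X := fun _ => id) fun _ => measurable_id
  have hj := hi.precomp (g := fun e : Sym2 V => e.map fun x => x + v)
    (Sym2.map.injective (add_left_injective v))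
  rw [iIndepFun_iff_map_fun_eq_infinitePi_map fun e => measurable_pi_apply _] at hj
  refine ⟨hm, hj.trans ?_⟩
  unfold PP
  simp only [Measure.infinitePi_map_eval]

theorem rk_inj : Function.Injective rk := (exists_injective_nat (Sym2 V)).choose_spec

theorem measurable_hh (G : Measure ℝ) [IsProbabilityMeasure G] (M0 : ℝ) :
    Measurable (hh G M0) := by
  have h1 : Antitone fun z : ℝ => G.real (Set.Ici z) := fun a b hab =>
    measureReal_mono (Set.Ici_subset_Ici.2 hab)
  have h2 : Antitone fun z : ℝ => G.real (Set.Ioc z M0) := fun a b hab =>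
    measureReal_mono (Set.Ioc_subset_Ioc_left hab)
  exact Measurable.ite measurableSet_Iic ((h1.measurable.add h2.measurable).sub_const 1)
    measurable_const

theorem abs_hh_le (G : Measure ℝ) [IsProbabilityMeasure G] (M0 z : ℝ) : |hh G M0 z| ≤ 1 := by
  unfold hh
  split_ifs
  · have h1 : G.real (Set.Ici z) ≤ 1 := measureReal_le_one
    have h2 : G.real (Set.Ioc z M0) ≤ 1 := measureReal_le_one
    have h3 : 0 ≤ G.real (Set.Ici z) := measureReal_nonneg
    have h4 : 0 ≤ G.real (Set.Ioc z M0) := measureReal_nonneg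
    rw [abs_le]
    constructor <;> linarith
  · simp

/-- The law of the lowered coordinate. Split according to `y ≤ M0`, `y ≤ z`; Tonelli. -/
theorem lower_law (M0 : ℝ) {F : ℝ → ENNReal} (hF : Measurable F) :
    ∫⁻ y, ∫⁻ z, F (if y ≤ M0 then min y z else y) ∂G ∂G =
      ∫⁻ y, F y * ENNReal.ofReal (1 + hh G M0 y) ∂G := by
  have h1 : ∀ y z : ℝ, F (if y ≤ M0 then min y z else y) =
      F y * (if y ≤ M0 then Set.Ici y else Set.univ).indicator 1 z +
        F z * (Set.Ioc z M0).indicator 1 y := fun y z => by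
    by_cases hy : y ≤ M0
    · by_cases hz : y ≤ z
      · simp [hy, hz]
      · simp [hy, hz, not_le.1 hz, (not_le.1 hz).le]
    · simp [hy]
  have hA : ∀ y : ℝ, MeasurableSet (if y ≤ M0 then Set.Ici y else Set.univ) := fun y => by
    split_ifs
    · exact measurableSet_Ici
    · exact MeasurableSet.univ
  have hB : Measurable fun p : ℝ × ℝ => F p.2 * (Set.Ioc p.2 M0).indicator 1 p.1 := by
    refine (hF.comp measurable_snd).mul ?_
    simp only [Set.indicator_apply, Set.mem_Ioc, Pi.one_apply]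
    exact Measurable.ite ((measurableSet_lt measurable_snd measurable_fst).inter
      (measurableSet_le measurable_fst measurable_const)) measurable_const measurable_const
  have h2 : ∀ y : ℝ, ∫⁻ z, F (if y ≤ M0 then min y z else y) ∂G =
      F y * G (if y ≤ M0 then Set.Ici y else Set.univ) +
        ∫⁻ z, F z * (Set.Ioc z M0).indicator 1 y ∂G := fun y => by
    simp only [h1]
    rw [lintegral_add_left ((measurable_one.indicator (hA y)).const_mul _),
      lintegral_const_mul _ (measurable_one.indicator (hA y)), lintegral_indicator_one (hA y)]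
  simp only [h2]
  rw [lintegral_add_right _ hB.lintegral_prod_right', lintegral_lintegral_swap hB.aemeasurable,
    ← lintegral_add_right _ (hB.lintegral_prod_left')]
  refine lintegral_congr fun y => ?_
  dsimp only
  rw [lintegral_const_mul _ (measurable_one.indicator measurableSet_Ioc),
    lintegral_indicator_one measurableSet_Ioc, ← mul_add]
  congr 1
  unfold hh
  split_ifs with hy
  · rw [add_sub_cancel, ENNReal.ofReal_add measureReal_nonneg measureReal_nonneg,
      ofReal_measureReal, ofReal_measureReal]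
  · rw [Set.Ioc_eq_empty (not_lt.2 (not_le.1 hy).le)]
    simp

/-- `lower_law` with `F = 1` -/
theorem integral_hh (G : Measure ℝ) [IsProbabilityMeasure G] (M0 : ℝ) :
    ∫ z, hh G M0 z ∂G = 0 := by
  have hi : Integrable (hh G M0) G :=
    Integrable.of_bound (measurable_hh G M0).aestronglyMeasurable 1
      (Filter.Eventually.of_forall (abs_hh_le G M0))
  have h1 := lower_law (G := G) M0 (F := fun _ => 1) measurable_const
  simp only [lintegral_const, measure_univ, mul_one, one_mul] at h1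
  have hi' : Integrable (fun z => 1 + hh G M0 z) G := (integrable_const 1).add hi
  have hp : ∀ z, 0 ≤ 1 + hh G M0 z := fun z => by linarith [(abs_le.1 (abs_hh_le G M0 z)).1]
  rw [← ofReal_integral_eq_lintegral_ofReal hi' (Filter.Eventually.of_forall hp),
    integral_add (integrable_const 1) hi, eq_comm, ENNReal.ofReal_eq_one] at h1
  simpa using h1

/-- For `0 ≤ λ ≤ 1`, `exp (λ σ h) ≤ 1 + λ σ h + λ ^ 2`, so each factor has mean `≤ exp (λ ^ 2)`;
independence (or `HasSubgaussianMGF`), Markov with `λ = x / (2 n)`; if `x > 2 n` the set is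
empty. -/
theorem hs_tail (G : Measure ℝ) [IsProbabilityMeasure G] (M0 : ℝ) (u : Finset (Sym2 V))
    {n x σ : ℝ} (hn : 0 < n) (hu : (u.card : ℝ) ≤ n) (hx : 0 ≤ x) (hσ : σ = 1 ∨ σ = -1) :
    (PP G).real {ω | x ≤ σ * hs G M0 u ω} ≤ Real.exp (-x ^ 2 / (4 * n)) := by
  rcases u.eq_empty_or_nonempty with rfl | hne
  · rcases hx.eq_or_lt with rfl | hx'
    · simp
    · simp [hs, not_le.2 hx', Real.exp_nonneg]
  have hm : Measurable fun z => σ * hh G M0 z := (measurable_hh G M0).const_mul σ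
  have hi : iIndepFun (fun (e : Sym2 V) (ω : Env) => σ * hh G M0 (ω e)) (PP G) :=
    iIndepFun_infinitePi (X := fun _ z => σ * hh G M0 z) fun _ => hm
  have hsub : ∀ e ∈ u, HasSubgaussianMGF (fun ω : Env => σ * hh G M0 (ω e))
      ((‖(1 : ℝ) - -1‖₊ / 2) ^ 2) (PP G) := fun e _ => by
    refine hasSubgaussianMGF_of_mem_Icc_of_integral_eq_zero
      (hm.comp (measurable_pi_apply e)).aemeasurable (Filter.Eventually.of_forall fun ω => ?_) ?_
    · have := abs_le.1 (abs_hh_le G M0 (ω e))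
      rcases hσ with rfl | rfl <;> constructor <;> linarith [this.1, this.2]
    · have h1 := integral_map (μ := PP G) (measurable_pi_apply e).aemeasurable
        (f := fun z => σ * hh G M0 z) hm.aestronglyMeasurable
      rw [← h1, PP, Measure.infinitePi_map_eval, integral_const_mul, integral_hh, mul_zero]
  have h2 := HasSubgaussianMGF.measure_sum_ge_le_of_iIndepFun hi hsub hx
  have h3 : (‖(1 : ℝ) - -1‖₊ / 2) ^ 2 = 1 := by
    have : (1 : ℝ) - -1 = 2 := by norm_num
    rw [this]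
    simp
  simp only [h3, Finset.sum_const, nsmul_eq_mul, mul_one, NNReal.coe_natCast] at h2
  simp only [hs, Finset.mul_sum]
  refine h2.trans (Real.exp_le_exp.2 ?_)
  have h4 : (0 : ℝ) < u.card := by exact_mod_cast hne.card_pos
  rw [neg_div, neg_div, neg_le_neg_iff]
  exact div_le_div_of_nonneg_left (sq_nonneg x) (by positivity) (by linarith)

theorem hs_family (G : Measure ℝ) [IsProbabilityMeasure G] (M0 : ℝ) {ι : Type} (I : Finset ι)
    (u : ι → Finset (Sym2 V)) {n x σ : ℝ} (hn : 0 < n) (hu : ∀ i ∈ I, ((u i).card : ℝ) ≤ n)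
    (hx : 0 ≤ x) (hσ : σ = 1 ∨ σ = -1) :
    (PP G).real {ω | ∃ i ∈ I, x ≤ σ * hs G M0 (u i) ω} ≤
      I.card * Real.exp (-x ^ 2 / (4 * n)) := by
  have h1 : {ω | ∃ i ∈ I, x ≤ σ * hs G M0 (u i) ω} = ⋃ i ∈ I, {ω | x ≤ σ * hs G M0 (u i) ω} := by
    ext ω
    simp
  rw [h1]
  refine (measureReal_biUnion_finset_le _ _).trans ?_
  rw [← nsmul_eq_mul]
  exact Finset.sum_le_card_nsmul _ _ _ fun i hi => hs_tail G M0 (u i) hn (hu i hi) hx hσ

private theorem exp_le_one_add {x : ℝ} (hx : -(1 / 2) ≤ x) : Real.exp (x - x ^ 2) ≤ 1 + x := by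
  have h1 : 1 ≤ (1 + x) * Real.exp (x ^ 2 - x) := by
    rcases le_total 0 x with h | h
    · have h2 := Real.add_one_le_exp (x ^ 2 - x)
      calc (1 : ℝ) ≤ (1 + x) * (x ^ 2 - x + 1) := by nlinarith [pow_nonneg h 3]
        _ ≤ _ := mul_le_mul_of_nonneg_left h2 (by linarith)
    · have h2 := Real.quadratic_le_exp_of_nonneg (x := x ^ 2 - x) (by nlinarith)
      have h3 : 0 ≤ x + (1 + x) * (1 - x) ^ 2 / 2 := by nlinarith [mul_nonneg (neg_nonneg.2 h) (sq_nonneg x)]
      calc (1 : ℝ) ≤ (1 + x) * (1 + (x ^ 2 - x) + (x ^ 2 - x) ^ 2 / 2) := by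
            nlinarith [mul_nonneg (sq_nonneg x) h3]
        _ ≤ _ := mul_le_mul_of_nonneg_left h2 (by linarith)
  calc Real.exp (x - x ^ 2) = 1 * Real.exp (x - x ^ 2) := (one_mul _).symm
    _ ≤ (1 + x) * Real.exp (x ^ 2 - x) * Real.exp (x - x ^ 2) :=
        mul_le_mul_of_nonneg_right h1 (Real.exp_pos _).le
    _ = 1 + x := by rw [mul_assoc, ← Real.exp_add]; simp

/-- `1 + x ≥ exp (x - x ^ 2)` for `|x| ≤ 1/2`, and `exp (-1) ≥ 1/3` -/
theorem dens_ge (G : Measure ℝ) [IsProbabilityMeasure G] (M0 : ℝ) {S : ℝ} (hS0 : 0 ≤ S)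
    (hS : S ≤ 1 / 2) {u : Finset (Sym2 V)} {ω : Env} (h1 : -(1 / 2) ≤ S * hs G M0 u ω)
    (h2 : S ^ 2 * u.card ≤ 1 / 2) : 1 / 3 ≤ dens G M0 S u ω := by
  have h3 : ∀ f ∈ u, Real.exp (S * hh G M0 (ω f) - S ^ 2) ≤ 1 + S * hh G M0 (ω f) := fun f _ => by
    have h4 := abs_le.1 (abs_hh_le G M0 (ω f))
    refine le_trans (Real.exp_le_exp.2 ?_) (exp_le_one_add (by nlinarith [h4.1]))
    have h5 : hh G M0 (ω f) ^ 2 ≤ 1 := by nlinarith [h4.1, h4.2]
    nlinarith [sq_nonneg S]
  refine le_trans ?_ (Finset.prod_le_prod (fun f _ => (Real.exp_pos _).le) h3)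
  rw [← Real.exp_sum, Finset.sum_sub_distrib, ← Finset.mul_sum, Finset.sum_const, nsmul_eq_mul]
  have h6 : Real.exp (-1) ≤ Real.exp (S * ∑ f ∈ u, hh G M0 (ω f) - u.card * S ^ 2) :=
    Real.exp_le_exp.2 (by unfold hs at h1; linarith)
  refine le_trans ?_ h6
  rw [Real.exp_neg, one_div]
  exact inv_anti₀ (Real.exp_pos 1) Real.exp_one_lt_three.le

theorem heavy_small (G : Measure ℝ) [IsProbabilityMeasure G] {η : ℝ} (hη : 0 < η) :
    ∃ M : ℝ, 0 < M ∧ G.real (Set.Ioi M) ≤ η := by
  have h1 := tendsto_measure_iInter_atTop (μ := G) (s := fun n : ℕ => Set.Ioi (n : ℝ))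
    (fun n => measurableSet_Ioi.nullMeasurableSet)
    (fun a b hab => Set.Ioi_subset_Ioi (Nat.cast_le.2 hab)) ⟨0, measure_ne_top _ _⟩
  have h2 : ⋂ n : ℕ, Set.Ioi (n : ℝ) = ∅ := by
    refine Set.eq_empty_of_forall_notMem fun x hx => ?_
    obtain ⟨n, hn⟩ := exists_nat_ge x
    exact absurd (Set.mem_iInter.1 hx n) (not_lt.2 hn)
  rw [h2, measure_empty] at h1
  obtain ⟨n, hn, hn'⟩ := ((h1.eventually (ge_mem_nhds (ENNReal.ofReal_pos.2 hη))).and
    (Filter.eventually_gt_atTop 0)).exists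
  exact ⟨n, by exact_mod_cast hn', ENNReal.toReal_le_of_le_ofReal hη.le hn⟩

theorem measurableSet_Lo (t0 M0 κ : ℝ) : MeasurableSet (Lo t0 M0 κ) :=
  measurableSet_lt measurable_id
    ((Measurable.ite measurableSet_Iic measurable_const measurable_const).add_const κ)

/-- continuity from above: the sets decrease to `Iio t0 ∪ {t0}` (as a subset), which is null -/
theorem Model.lo_small (M : Model) {η : ℝ} (hη : 0 < η) :
    ∃ κ : ℝ, 0 < κ ∧ κ ≤ 1 / 2 ∧ M.G.real (Lo M.t0 M.M0 (2 * κ)) ≤ η ∧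
      M.G.real (Set.Iio (M.t0 + 2 * κ)) ≤ η := by
  have hc : ∀ a b : ℕ, a ≤ b → 2 * (1 / ((b : ℝ) + 2)) ≤ 2 * (1 / ((a : ℝ) + 2)) := fun a b h => by
    have : (a : ℝ) ≤ b := Nat.cast_le.2 h
    gcongr
  have h1 := tendsto_measure_iInter_atTop (μ := M.G) (s := fun n : ℕ =>
      Lo M.t0 M.M0 (2 * (1 / ((n : ℝ) + 2))) ∪ Set.Iio (M.t0 + 2 * (1 / ((n : ℝ) + 2))))
    (fun n => ((measurableSet_Lo _ _ _).union measurableSet_Iio).nullMeasurableSet)
    (fun a b hab => Set.union_subset_union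
      (fun z hz => lt_of_lt_of_le hz (add_le_add_right (hc a b hab) _))
      (Set.Iio_subset_Iio (add_le_add_right (hc a b hab) _))) ⟨0, measure_ne_top _ _⟩
  have h2 : M.G (⋂ n : ℕ, Lo M.t0 M.M0 (2 * (1 / ((n : ℝ) + 2))) ∪
      Set.Iio (M.t0 + 2 * (1 / ((n : ℝ) + 2)))) = 0 := by
    refine measure_mono_null (t := Set.Iio M.t0 ∪ {M.t0}) (fun z hz => ?_)
      (measure_union_null M.below (measure_singleton _))
    rw [Set.Iio_union_right]
    by_contra hlt
    have h3 : M.t0 < z := not_le.1 hlt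
    have h4 : fl M.t0 M.M0 z < z := by
      unfold fl
      split_ifs with h
      · exact h3
      · exact not_le.1 h
    have h5 : 0 < min (z - M.t0) (z - fl M.t0 M.M0 z) / 2 :=
      half_pos (lt_min (by linarith) (by linarith))
    obtain ⟨n, hn⟩ := exists_nat_one_div_lt h5
    have h6 : 1 / ((n : ℝ) + 2) ≤ 1 / ((n : ℝ) + 1) := by gcongr; norm_num
    have h7 := min_le_left (z - M.t0) (z - fl M.t0 M.M0 z)
    have h8 := min_le_right (z - M.t0) (z - fl M.t0 M.M0 z)
    rcases Set.mem_iInter.1 hz n with h | h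
    · have h9 : z < fl M.t0 M.M0 z + 2 * (1 / ((n : ℝ) + 2)) := h
      linarith
    · have h9 : z < M.t0 + 2 * (1 / ((n : ℝ) + 2)) := h
      linarith
  rw [h2] at h1
  obtain ⟨n, hn⟩ := (h1.eventually (ge_mem_nhds (ENNReal.ofReal_pos.2 hη))).exists
  have h3 := ENNReal.toReal_le_of_le_ofReal hη.le hn
  refine ⟨1 / ((n : ℝ) + 2), by positivity, ?_,
    (measureReal_mono Set.subset_union_left).trans h3,
    (measureReal_mono Set.subset_union_right).trans h3⟩
  have : (0 : ℝ) ≤ n := Nat.cast_nonneg n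
  gcongr
  linarith

theorem Model.lo_pos (M : Model) {κ : ℝ} (hκ : 0 < κ) :
    ∃ c : ℝ, 0 < c ∧ c ≤ 1 ∧ c ≤ M.G.real (Lo M.t0 M.M0 κ ∩ Set.Iic M.M0) ∧
      c ≤ M.G.real (Lo M.t0 M.M0 κ ∩ Set.Ioi M.M0) := by
  have h1 : 0 < M.G.real (Lo M.t0 M.M0 κ ∩ Set.Iic M.M0) := by
    refine ENNReal.toReal_pos (ne_of_gt (lt_of_lt_of_le
      (M.acc0 (min κ (M.M0 - M.t0)) (lt_min hκ (sub_pos.2 M.t0_lt))) (measure_mono fun z hz => ?_)))
      (measure_ne_top _ _)
    have h2 : z < M.t0 + min κ (M.M0 - M.t0) := hz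
    have h3 : z ≤ M.M0 := by linarith [min_le_right κ (M.M0 - M.t0)]
    refine ⟨?_, h3⟩
    show z < fl M.t0 M.M0 z + κ
    rw [fl, if_pos h3]
    linarith [min_le_left κ (M.M0 - M.t0)]
  have h2 : 0 < M.G.real (Lo M.t0 M.M0 κ ∩ Set.Ioi M.M0) := by
    refine ENNReal.toReal_pos (ne_of_gt (lt_of_lt_of_le (M.acc1 κ hκ)
      (measure_mono fun z hz => ⟨?_, hz.1⟩))) (measure_ne_top _ _)
    show z < fl M.t0 M.M0 z + κ
    rw [fl, if_neg (not_le.2 hz.1)]
    exact hz.2
  exact ⟨min (M.G.real (Lo M.t0 M.M0 κ ∩ Set.Iic M.M0)) (M.G.real (Lo M.t0 M.M0 κ ∩ Set.Ioi M.M0)),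
    lt_min h1 h2, (min_le_left _ _).trans measureReal_le_one, min_le_left _ _, min_le_right _ _⟩

end Vale.Agent.P158b
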