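import Vale.Agent.P158b.Main

/-! No light edge is covered at all scales. -/

open MeasureTheory ProbabilityTheory Finset
open scoped Classical

namespace Vale.Agent.P158b

theorem trans_edge (ω : Env) (x d : V) : trans x ω s(0, d) = ω s(x, x + d) := by
  unfold trans
  rw [Sym2.map_mk, zero_add, add_comm d x]

theorem ca_prob_eq (M : Model) (x d : V) :
    (PP M.G).real {ω | ω s(x, x + d) ≤ M.M0 ∧ CA x (x + d) (M.Ψ ω)} =
      (PP M.G).real {ω | ω s(0, d) ≤ M.M0 ∧ CA 0 d (M.Ψ ω)} := by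
  have hm : MeasurableSet {ω : Env | ω s(0, d) ≤ M.M0 ∧ CA 0 d (M.Ψ ω)} :=
    (measurableSet_le (measurable_pi_apply _) measurable_const).inter
      (M.meas (measurableSet_ca 0 d))
  rw [← (trans_mp M.G x).measureReal_preimage hm.nullMeasurableSet]
  refine congrArg _ (Set.ext fun ω => ?_)
  simp only [Set.mem_preimage, Set.mem_ofPred_eq]
  rw [trans_edge, M.cov, ← ca_trans, zero_add, add_comm d x]

/-- By `trans_mp`, `M.cov`, `ca_trans` the probability `p` is the same for all edges `(x, x + d)`;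
`CA.covE` and `main_bound` give `p * (2 (N/8) + 1) ^ 2 ≤ η N ^ 2`, so `p ≤ 64 η` . -/
theorem ca_null (M : Model) {x w : V} (hxw : Adj x w) :
    (PP M.G).real {ω | ω s(x, w) ≤ M.M0 ∧ CA x w (M.Ψ ω)} = 0 := by
  obtain ⟨d, rfl⟩ : ∃ d, w = x + d := ⟨w - x, by abel⟩
  have hd : Adj 0 d := by
    unfold Adj at *
    simp only [Prod.fst_add, Prod.snd_add, Prod.fst_zero, Prod.snd_zero] at *
    omega
  rw [ca_prob_eq]
  set p := (PP M.G).real {ω | ω s(0, d) ≤ M.M0 ∧ CA 0 d (M.Ψ ω)} with hp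
  have hp0 : 0 ≤ p := measureReal_nonneg
  refine le_antisymm (le_of_forall_pos_le_add fun η hη => ?_) hp0
  obtain ⟨N0, hN0⟩ := main_bound M hd (η := η / 16) (by positivity)
  have h1 := hN0 (8 * (N0 + 1)) (by omega)
  have e8 : 8 * (N0 + 1) / 8 = N0 + 1 := by omega
  rw [e8] at h1
  have h2 : ∀ y ∈ box (0 : V) (N0 + 1), p ≤ (PP M.G).real {ω | ω s(y, y + d) ≤ M.M0 ∧
      CovE 0 (8 * (N0 + 1)) y (y + d) (M.Ψ ω)} := by
    intro y hy
    rw [hp, ← ca_prob_eq M y d]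
    refine measureReal_mono fun ω hω => ⟨hω.1, ?_⟩
    have n1 : Near (N0 + 1) y 0 := mem_box.mp hy
    have n2 := (adj_add hd y).near.symm.trans n1
    exact CA.covE (M.nonneg ω) (adj_add hd y) hω.2 (by omega) (n1.mono (by omega))
      (n2.mono (by omega))
  have h3 := le_trans (Finset.card_nsmul_le_sum _ _ _ h2) h1
  rw [card_box, nsmul_eq_mul] at h3
  push_cast at h3
  have hn : (0 : ℝ) < (N0 : ℝ) + 1 := by positivity
  have h4 : (2 * ((N0 : ℝ) + 1)) ^ 2 * p ≤ (2 * ((N0 : ℝ) + 1) + 1) ^ 2 * p :=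
    mul_le_mul_of_nonneg_right (by nlinarith) hp0
  have h5 : (2 * ((N0 : ℝ) + 1)) ^ 2 * p ≤ (2 * ((N0 : ℝ) + 1)) ^ 2 * η := by
    refine le_trans h4 (le_trans h3 (le_of_eq (by ring)))
  have h6 := le_of_mul_le_mul_left h5 (by positivity)
  linarith

end Vale.Agent.P158b
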