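import Vale.Agent.P158b.Pieces
import Vale.Agent.P158b.GeoB
import Vale.Agent.P158b.PathB

/-! Almost optimal walks in a strict direction are straight. -/

open MeasureTheory ProbabilityTheory Finset
open scoped Classical

namespace Vale.Agent.P158b

/-- the number of pieces that are not good: a good piece has length `≥ 2h`, so there are at most
`C1 N / (2h)` of them; if there were `≥ ζ N / h` bad blocks, cut the sequence at the first time this
happens and contradict `NoBadSeq` -/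
theorem few_bad {Bad : V → Prop} {h N J : ℕ} {C1 ζ : ℝ} (hh : 1 ≤ h) (hhN : h ≤ N) (hζ : 0 < ζ)
    (hC1 : 0 ≤ C1) {q : ℕ → V} {good : ℕ → Prop} (hq0 : Near N (q 0) 0)
    (hq : ∀ k, k + 1 < J → Near 2 (q k) (q (k + 1)))
    (hg : (((range J).filter good).card : ℝ) ≤ C1 * N / h)
    (hng : ∀ k, k < J → ¬ good k → k = 0 ∨ k + 1 = J ∨ Bad (q k))
    (hinj : ∀ k k', k < k' → k' < J → Bad (q k) → q k ≠ q k')
    (hB : NoBadSeq Bad N ((C1 + ζ + 3) * N / h) (ζ * N / h)) :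
    (((range J).filter fun k => ¬ good k).card : ℝ) ≤ ζ * N / h + 2 := by
  have hh0 : (0 : ℝ) < h := by exact_mod_cast hh
  have hn : (1 : ℝ) ≤ N / h := by
    rw [le_div_iff₀ hh0, one_mul]; exact_mod_cast hhN
  simp only [mul_div_assoc] at hg hB ⊢
  generalize (N : ℝ) / h = n at hn hg hB ⊢
  have hζn : 0 < ζ * n := by positivity
  have key : (((range J).filter fun k => Bad (q k)).card : ℝ) < ζ * n := by
    by_contra hc
    have hex : ∃ j, ζ * n ≤ (((range j).filter fun k => Bad (q k)).card : ℝ) := ⟨J, not_lt.1 hc⟩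
    have h1 := Nat.find_spec hex
    have h2 : Nat.find hex ≤ J := Nat.find_min' hex (not_lt.1 hc)
    obtain ⟨j, hj⟩ : ∃ j, Nat.find hex = j + 1 := by
      refine Nat.exists_eq_succ_of_ne_zero fun h0 => ?_
      rw [h0] at h1
      simp only [range_zero, filter_empty, card_empty, Nat.cast_zero] at h1
      linarith
    have h3 := not_le.1 (Nat.find_min hex (m := j) (by omega))
    rw [hj] at h1 h2
    have h4 : range j ⊆ (range J).filter good ∪ (((range j).filter fun k => Bad (q k)) ∪ {0}) := by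
      intro k hk
      have hk' := mem_range.1 hk
      by_cases hgk : good k
      · exact mem_union_left _ (mem_filter.2 ⟨mem_range.2 (by omega), hgk⟩)
      · rcases hng k (by omega) hgk with h | h | h
        · exact mem_union_right _ (mem_union_right _ (mem_singleton.2 h))
        · omega
        · exact mem_union_right _ (mem_union_left _ (mem_filter.2 ⟨hk, h⟩))
    have h5 := (card_le_card h4).trans ((card_union_le _ _).trans
      (Nat.add_le_add_left (card_union_le _ _) _))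
    rw [card_range, card_singleton] at h5
    have h6 : (j : ℝ) ≤ ((range J).filter good).card +
        ((((range j).filter fun k => Bad (q k)).card : ℝ) + 1) := by exact_mod_cast h5
    have h7 := hB j q (by nlinarith) hq0 fun k hk => hq k (by omega)
    rw [filter_image, card_image_of_injOn] at h7
    · linarith
    · intro k hk k' hk' he
      obtain ⟨a1, a2⟩ := mem_filter.1 (mem_coe.1 hk)
      obtain ⟨b1, b2⟩ := mem_filter.1 (mem_coe.1 hk')
      have a3 := mem_range.1 a1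
      have b3 := mem_range.1 b1
      rcases lt_trichotomy k k' with h | h | h
      · exact absurd he (hinj k k' h (by omega) a2)
      · exact h
      · exact absurd he.symm (hinj k' k h (by omega) b2)
  have h4 : (range J).filter (fun k => ¬ good k) ⊆
      ((range J).filter fun k => Bad (q k)) ∪ {0, J - 1} := by
    intro k hk
    obtain ⟨h1, h2⟩ := mem_filter.1 hk
    rcases hng k (mem_range.1 h1) h2 with h | h | h
    · exact mem_union_right _ (by simp [h])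
    · exact mem_union_right _ (by simp [← h])
    · exact mem_union_left _ (mem_filter.2 ⟨h1, h⟩)
  have h5 := (card_le_card h4).trans ((card_union_le _ _).trans
    (Nat.add_le_add_left card_le_two _))
  have h6 : (((range J).filter fun k => ¬ good k).card : ℝ) ≤
      ((range J).filter fun k => Bad (q k)).card + 2 := by exact_mod_cast h5
  linarith

theorem str_mono {m : ℕ → ℕ} {J : ℕ} (hm : ∀ k, k < J → m k < m (k + 1)) {k k' : ℕ} (hk : k ≤ k')
    (hk' : k' ≤ J) : m k ≤ m k' := by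
  induction k', hk using Nat.le_induction with
  | base => exact le_rfl
  | succ j _ ih => exact (ih (by omega)).trans (hm j (by omega)).le

theorem str_sum {m : ℕ → ℕ} (h0 : m 0 = 0) (F : ℕ → ℝ) (J : ℕ)
    (hm : ∀ k, k < J → m k < m (k + 1)) :
    ∑ k ∈ range J, ∑ i ∈ Ico (m k) (m (k + 1)), F i = ∑ i ∈ range (m J), F i := by
  induction J with
  | zero => simp [h0]
  | succ j ih =>
    rw [sum_range_succ, ih fun k hk => hm k (by omega),
      sum_range_add_sum_Ico _ (hm j (by omega)).le]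

theorem str_piece (y : ℕ → ℝ) {H : ℝ} (hH : 0 ≤ H) {a b : ℕ} (hab : a < b) (p : Prop)
    (hy : ∀ i, i < b → |y (i + 1) - y i| ≤ 1) (hg : p → ∀ i, a ≤ i → i ≤ b → |y a - y i| ≤ H) :
    ∃ g : ℕ → ℝ, (∀ i, a ≤ i → i ≤ b → |g i - y i| ≤ H) ∧ g a = y a ∧ g b = y b ∧
      ∑ i ∈ Ico a b, |g (i + 1) - g i| ≤ if p then |y b - y a| else (b : ℝ) - a := by
  by_cases hp : p
  · refine ⟨fun i => if i < b then y a else y b, fun i h1 h2 => ?_, if_pos hab,
      if_neg (lt_irrefl b), ?_⟩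
    · by_cases h : i < b
      · simp only [if_pos h]; exact hg hp i h1 h2
      · obtain rfl : i = b := by omega
        simp only [if_neg h, sub_self, abs_zero]; exact hH
    · obtain ⟨c, rfl⟩ : ∃ c, b = c + 1 := ⟨b - 1, by omega⟩
      beta_reduce
      rw [if_pos hp, sum_Ico_succ_top (by omega), sum_eq_zero, zero_add, if_neg (lt_irrefl _),
        if_pos (Nat.lt_succ_self c)]
      intro i hi
      have := (mem_Ico.1 hi).2
      rw [if_pos (by omega), if_pos (by omega), sub_self, abs_zero]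
  · refine ⟨y, fun i _ _ => by rw [sub_self, abs_zero]; exact hH, rfl, rfl, ?_⟩
    rw [if_neg hp]
    refine (sum_le_sum fun i hi => hy i (mem_Ico.1 hi).2).trans ?_
    rw [sum_const, Nat.card_Ico, nsmul_eq_mul, mul_one, Nat.cast_sub hab.le]

theorem str_g (y : ℕ → ℝ) {m : ℕ → ℕ} (good : ℕ → Prop) {H : ℝ} (hH : 0 ≤ H) (h0 : m 0 = 0)
    (J : ℕ) (hm : ∀ k, k < J → m k < m (k + 1)) (hy : ∀ i, i < m J → |y (i + 1) - y i| ≤ 1)
    (hg : ∀ k, k < J → good k → ∀ i, m k ≤ i → i ≤ m (k + 1) → |y (m k) - y i| ≤ H) :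
    ∃ g : ℕ → ℝ, (∀ i, i ≤ m J → |g i - y i| ≤ H) ∧ g (m J) = y (m J) ∧
      ∑ i ∈ range (m J), |g (i + 1) - g i| ≤ ∑ k ∈ range J,
        if good k then |y (m (k + 1)) - y (m k)| else (m (k + 1) : ℝ) - m k := by
  induction J with
  | zero =>
    refine ⟨y, fun i _ => by rw [sub_self, abs_zero]; exact hH, rfl, ?_⟩
    simp [h0]
  | succ j ih =>
    have hj := hm j (by omega)
    obtain ⟨g, g1, g2, g3⟩ := ih (fun k hk => hm k (by omega)) (fun i hi => hy i (by omega))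
      fun k hk => hg k (by omega)
    obtain ⟨g', e1, e2, e3, e4⟩ := str_piece y hH hj (good j) hy (hg j (by omega))
    have e5 : ∀ i, m j ≤ i → (if i ≤ m j then g i else g' i) = g' i := by
      intro i hi
      by_cases h : i ≤ m j
      · obtain rfl : i = m j := by omega
        rw [if_pos le_rfl, g2, e2]
      · rw [if_neg h]
    refine ⟨fun i => if i ≤ m j then g i else g' i, fun i hi => ?_, ?_, ?_⟩
    · by_cases h : i ≤ m j
      · simp only [if_pos h]; exact g1 i h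
      · simp only [if_neg h]; exact e1 i (by omega) hi
    · simp only [e5 _ hj.le]; exact e3
    · rw [sum_range_succ, ← sum_range_add_sum_Ico _ hj.le]
      refine add_le_add (le_trans (le_of_eq (sum_congr rfl fun i hi => ?_)) g3)
        (le_trans (le_of_eq (sum_congr rfl fun i hi => ?_)) e4)
      · have := mem_range.1 hi
        simp only [if_pos (show i + 1 ≤ m j by omega), if_pos this.le]
      · have := (mem_Ico.1 hi).1
        simp only [e5 i this, e5 (i + 1) (by omega)]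

theorem str_far {c x y : V} {h r : ℕ} (hx : Near h x c) (hy : Out c (3 * h) y) (hr : Near r x y) :
    2 * h ≤ r := by
  unfold Near at hx hr
  unfold Out at hy
  omega

/-- the arithmetic of the straightness estimate -/
theorem str_arith {G NG : Finset ℕ} {Wk d ρk Q nx ℓ u v : ℕ → ℝ}
    {m κ B σ ξ0 δ ζ C1 h N μw ρw Qw : ℝ} (hm0 : 0 ≤ m) (hσ : σ = 1 ∨ σ = -1) (hκ : 0 < κ)
    (hBκ : 1 ≤ B * κ) (hξ : 0 ≤ ξ0) (hδ : 0 ≤ δ) (hC1 : 0 ≤ C1) (hh : 0 < h) (hN : 0 ≤ N)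
    (eW : ∑ k ∈ G, Wk k + ∑ k ∈ NG, Wk k ≤ μw + δ * N)
    (eρ : ∑ k ∈ G, ρk k + ∑ k ∈ NG, ρk k = ρw) (eQ : ∑ k ∈ G, Q k + ∑ k ∈ NG, Q k = Qw)
    (eℓ : ∑ k ∈ G, ℓ k ≤ C1 * N) (ev : ∑ k ∈ NG, v k ≤ ξ0 * N)
    (cN : (NG.card : ℝ) ≤ ζ * N / h + 2)
    (hG : ∀ k ∈ G, 2 * h ≤ ℓ k ∧ 0 ≤ d k ∧ d k + ρk k - δ * (3 * h) ≤ Wk k ∧ nx k ≤ ℓ k ∧
      σ * Q k ≤ B * d k + ξ0 * nx k)
    (hNG : ∀ k ∈ NG, ρk k ≤ m * (4 * h) ∧ 0 ≤ u k ∧ κ * u k ≤ Wk k ∧ u k + v k = ℓ k ∧
      |Q k| ≤ 2 * ℓ k)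
    (h1 : B * (μw - ρw) ≤ ξ0 * N) (h2 : |Qw| ≤ ξ0 * N)
    (h4 : B * ((δ + 2 * δ * C1 + 4 * m * ζ) * N + 8 * m * h) ≤ ξ0 * N) :
    ∑ k ∈ G, |Q k| + ∑ k ∈ NG, ℓ k ≤ 20 * (C1 + 1) * ξ0 * N := by
  have hB : 0 < B := (mul_pos_iff_of_pos_right hκ).1 (by linarith)
  have a1 : (G.card : ℝ) * (2 * h) ≤ C1 * N := by
    refine le_trans ?_ eℓ
    rw [← nsmul_eq_mul, ← sum_const]
    exact sum_le_sum fun k hk => (hG k hk).1
  have a2 : ∑ k ∈ G, d k + ∑ k ∈ G, ρk k - G.card * (δ * (3 * h)) ≤ ∑ k ∈ G, Wk k := by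
    rw [← nsmul_eq_mul, ← sum_const, ← sum_add_distrib, ← sum_sub_distrib]
    exact sum_le_sum fun k hk => (hG k hk).2.2.1
  have a3 : ∑ k ∈ NG, ρk k ≤ NG.card * (m * (4 * h)) := by
    rw [← nsmul_eq_mul, ← sum_const]
    exact sum_le_sum fun k hk => (hNG k hk).1
  have a4 : κ * ∑ k ∈ NG, u k ≤ ∑ k ∈ NG, Wk k := by
    rw [mul_sum]
    exact sum_le_sum fun k hk => (hNG k hk).2.2.1
  have a5 : 0 ≤ ∑ k ∈ G, d k := sum_nonneg fun k hk => (hG k hk).2.1
  have a6 : 0 ≤ ∑ k ∈ NG, u k := sum_nonneg fun k hk => (hNG k hk).2.1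
  have a7 : ∑ k ∈ NG, u k + ∑ k ∈ NG, v k = ∑ k ∈ NG, ℓ k := by
    rw [← sum_add_distrib]
    exact sum_congr rfl fun k hk => (hNG k hk).2.2.2.1
  have a8 : |∑ k ∈ NG, Q k| ≤ 2 * ∑ k ∈ NG, ℓ k := by
    rw [mul_sum]
    exact (abs_sum_le_sum_abs _ _).trans (sum_le_sum fun k hk => (hNG k hk).2.2.2.2)
  have a9 : ∑ k ∈ G, |Q k| ≤ 2 * B * ∑ k ∈ G, d k + 2 * ξ0 * ∑ k ∈ G, ℓ k - σ * ∑ k ∈ G, Q k := by
    rw [mul_sum, mul_sum, mul_sum, ← sum_add_distrib, ← sum_sub_distrib]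
    refine sum_le_sum fun k hk => ?_
    obtain ⟨b1, b2, -, b4, b5⟩ := hG k hk
    have b6 := mul_le_mul_of_nonneg_left b4 hξ
    have b7 := mul_nonneg hB.le b2
    have b8 : 0 ≤ ξ0 * ℓ k := mul_nonneg hξ (by linarith)
    rcases hσ with rfl | rfl <;> rw [abs_le] <;> constructor <;> linarith
  have b1 : (NG.card : ℝ) * (m * (4 * h)) ≤ 4 * m * ζ * N + 8 * m * h := by
    refine (mul_le_mul_of_nonneg_right cN (by positivity)).trans (le_of_eq ?_)
    field_simp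
    ring
  have b2 : (G.card : ℝ) * (δ * (3 * h)) ≤ 2 * δ * C1 * N := by
    have := mul_le_mul_of_nonneg_left a1 hδ
    have h0 : 0 ≤ δ * (C1 * N) := by positivity
    linarith
  have b3 : ∑ k ∈ G, d k + κ * ∑ k ∈ NG, u k ≤
      (μw - ρw) + ((δ + 2 * δ * C1 + 4 * m * ζ) * N + 8 * m * h) := by linarith
  have b4 := mul_le_mul_of_nonneg_left b3 hB.le
  have b5 := mul_le_mul_of_nonneg_right hBκ a6
  have b6 := mul_nonneg hB.le a5
  have b7 : B * ∑ k ∈ G, d k ≤ 2 * (ξ0 * N) := by linarith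
  have b8 : ∑ k ∈ NG, ℓ k ≤ 3 * (ξ0 * N) := by linarith
  have b9 := mul_le_mul_of_nonneg_left eℓ hξ
  have c1 : -(σ * ∑ k ∈ G, Q k) ≤ 7 * (ξ0 * N) := by
    have c2 := abs_le.1 a8
    have c3 := abs_le.1 h2
    rcases hσ with rfl | rfl <;> linarith [c2.1, c2.2, c3.1, c3.2]
  have c2 : 0 ≤ ξ0 * N := by positivity
  have c3 : 0 ≤ ξ0 * (C1 * N) := by positivity
  linarith

/-- With `x k = cv (f (m (k+1))) - cv (f (m k))`: a good piece has weight `≥ μ (x k) - 3 δ h`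
(`T_le_W`), any piece has weight `≥ κ (length - low)`, and `∑ ρ (x k) = ρ w`. Hence
`∑ good (μ - ρ) (x k) + κ ∑ notgood (length - low) ≤ E0 := (μ - ρ) w + (δ + 2 δ C1 + 4 m ζ) N + 8 m h`,
`B E0 ≤ 2 ξ0 N`. Take `g i = gQ (f (m k))` on a good piece `m k ≤ i < m (k+1)` and `g i = gQ (f i)`
otherwise. The not good pieces have total length `≤ 3 ξ0 N` and `abs_gQ_adj`;
`∑ good |gQ (x k)| = 2 ∑ (σ gQ)⁺ - ∑ σ gQ ≤ (8 + 2 C1) ξ0 N`. -/
theorem straight_core {t : Env} (ht : ∀ e, 0 ≤ t e) (μ : Seminorm ℝ (ℝ × ℝ))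
    (ρ : (ℝ × ℝ) →ₗ[ℝ] ℝ) {m κ B σ s ξ0 δ ζ C1 : ℝ} {sw : Bool} {h N : ℕ} {a b : V} {l : List V}
    (hm0 : 0 ≤ m) (hm : ∀ x, μ x ≤ m * ‖x‖) (hρ : ∀ x, ρ x ≤ μ x) (hσ : σ = 1 ∨ σ = -1)
    (hs : |s| ≤ 1) (hκ : 0 < κ) (hBκ : 1 ≤ B * κ) (hξ : 0 ≤ ξ0) (hδ : 0 ≤ δ) (hζ : 0 < ζ)
    (hC1 : 0 ≤ C1) (hh : 1 ≤ h) (hhN : h ≤ N) (hl : IsPth (bx 0 N) a b l)
    (hlen : (len l : ℝ) ≤ C1 * N) (hwt : wt t l ≤ μ (cv b - cv a) + δ * N)
    (hB : NoBadSeq (BadBlk t μ δ h) N ((C1 + ζ + 3) * N / h) (ζ * N / h))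
    (hlow : (((range (len l)).filter fun i => t (ed l i) < κ).card : ℝ) ≤ ξ0 * N)
    (h1 : B * (μ (cv b - cv a) - ρ (cv b - cv a)) ≤ ξ0 * N)
    (h2 : |gQ sw s (cv b - cv a)| ≤ ξ0 * N)
    (h3 : ∀ x, σ * gQ sw s x ≤ B * (μ x - ρ x) + ξ0 * ‖x‖)
    (h4 : B * ((δ + 2 * δ * C1 + 4 * m * ζ) * N + 8 * m * h) ≤ ξ0 * N) :
    Straight sw s (20 * (C1 + 1) * ξ0 * N) (8 * h) l := by
  have hh0 : (0 : ℝ) < h := by exact_mod_cast hh
  rcases Nat.eq_zero_or_pos (len l) with hL | hL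
  · refine ⟨fun i => gQ sw s (cv (vx l i)), fun i _ => ?_, ?_⟩
    · rw [sub_self, abs_zero]; positivity
    · rw [hL, sum_range_zero]; positivity
  obtain ⟨J, mm, q, good, -, m0, mJ, hmm, hq0, hq, hgd, hng, hinj⟩ :=
    pieces (BadBlk t μ δ h) hh hL hl.chain
  have mle : ∀ k, k < J → mm (k + 1) ≤ len l := fun k hk => mJ ▸ str_mono hmm hk le_rfl
  have hnear : ∀ k, k < J → Near (mm (k + 1) - mm k) (vx l (mm k)) (vx l (mm (k + 1))) :=
    fun k hk => hl.chain.near (Nat.zero_le _) (hmm k hk).le (mle k hk)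
  have hnx : ∀ k, k < J →
      ‖cv (vx l (mm (k + 1))) - cv (vx l (mm k))‖ ≤ (mm (k + 1) : ℝ) - mm k := fun k hk => by
    have := near_iff_norm.1 (hnear k hk).symm
    rwa [Nat.cast_sub (hmm k hk).le] at this
  have h2h : ∀ k, k < J → good k → 2 * (h : ℝ) ≤ (mm (k + 1) : ℝ) - mm k := fun k hk hg => by
    have := str_far (hgd k hk hg).2.1.1 (hgd k hk hg).2.2.1.2 (hnear k hk)
    rw [← Nat.cast_sub (hmm k hk).le]
    exact_mod_cast this
  have eℓ : ∑ k ∈ (range J).filter good, ((mm (k + 1) : ℝ) - mm k) ≤ C1 * N := by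
    refine le_trans (sum_le_sum_of_subset_of_nonneg (filter_subset _ _) fun k hk _ => ?_) ?_
    · exact sub_nonneg.2 (by exact_mod_cast (hmm k (mem_range.1 hk)).le)
    · rw [sum_range_sub fun k => (mm k : ℝ), mJ, m0, Nat.cast_zero, sub_zero]; exact hlen
  have cG : (((range J).filter good).card : ℝ) ≤ C1 * N / h := by
    rw [le_div_iff₀ hh0]
    refine le_trans ?_ eℓ
    rw [← nsmul_eq_mul, ← sum_const]
    refine sum_le_sum fun k hk => ?_
    linarith [h2h k (mem_range.1 (mem_filter.1 hk).1) (mem_filter.1 hk).2]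
  have cN := few_bad hh hhN hζ hC1 hq0 hq cG (fun k hk hg => (hng k hk hg).1) hinj hB
  obtain ⟨g, g1, -, g3⟩ := str_g (fun i => gQ sw s (cv (vx l i))) good (H := 8 * h)
    (by positivity) m0 J hmm
    (fun i hi => abs_gQ_adj sw hs (hl.chain.1 i (Nat.zero_le _) (mJ ▸ hi)))
    (fun k hk hg i h1 h2 => by
      have a1 := near_iff_norm.1 ((hgd k hk hg).2.1.1.trans ((hgd k hk hg).2.2.2 i h1 h2).symm)
      have a2 := abs_gQ_le sw hs (cv (vx l (mm k)) - cv (vx l i))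
      rw [gQ_sub] at a2
      push_cast at a1
      linarith)
  rw [mJ] at g1 g3
  refine ⟨g, g1, g3.trans ?_⟩
  rw [sum_ite]
  simp only [← gQ_sub]
  refine str_arith (Wk := fun k => W t (vx l) (mm k) (mm (k + 1)))
    (d := fun k => μ (cv (vx l (mm (k + 1))) - cv (vx l (mm k))) -
      ρ (cv (vx l (mm (k + 1))) - cv (vx l (mm k))))
    (ρk := fun k => ρ (cv (vx l (mm (k + 1))) - cv (vx l (mm k))))
    (nx := fun k => ‖cv (vx l (mm (k + 1))) - cv (vx l (mm k))‖)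
    (u := fun k => ∑ i ∈ Ico (mm k) (mm (k + 1)), (1 - if t (ed l i) < κ then (1 : ℝ) else 0))
    (v := fun k => ∑ i ∈ Ico (mm k) (mm (k + 1)), if t (ed l i) < κ then (1 : ℝ) else 0)
    hm0 hσ hκ hBκ hξ hδ hC1 hh0 (Nat.cast_nonneg N) ?_ ?_ ?_ eℓ ?_ cN ?_ ?_ h1 h2 h4
  · rw [sum_filter_add_sum_filter_not]
    refine le_trans (le_of_eq ?_) hwt
    unfold wt W
    rw [str_sum m0 _ J hmm, mJ, range_eq_Ico]
  · rw [sum_filter_add_sum_filter_not]
    simp only [map_sub]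
    rw [sum_range_sub fun k => ρ (cv (vx l (mm k))), mJ, m0, hl.start, hl.stop]
  · rw [sum_filter_add_sum_filter_not]
    simp only [gQ_sub]
    rw [sum_range_sub fun k => gQ sw s (cv (vx l (mm k))), mJ, m0, hl.start, hl.stop]
  · refine le_trans (sum_le_sum_of_subset_of_nonneg (filter_subset _ _) fun k _ _ =>
      sum_nonneg fun i _ => by split_ifs <;> norm_num) ?_
    rw [str_sum m0 _ J hmm, mJ, sum_boole]
    exact hlow
  · intro k hk
    have hk1 := mem_range.1 (mem_filter.1 hk).1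
    have hg := (mem_filter.1 hk).2
    obtain ⟨b1, b2, b3, b4⟩ := hgd k hk1 hg
    refine ⟨h2h k hk1 hg, sub_nonneg.2 (hρ _), ?_, hnx k hk1, h3 _⟩
    have c1 : Chain (bx (ctr h (q k)) (3 * h)) (vx l) (mm k) (mm (k + 1)) :=
      ⟨fun i _ h2 => hl.chain.1 i (Nat.zero_le _) (h2.trans_le (mle k hk1)), b4⟩
    have c2 := T_le_W ht (hmm k hk1).le c1
    have c3 := not_lt.1 fun hc => b1 ⟨_, _, b2, b3, hc⟩
    linarith
  · intro k hk
    have hk1 := mem_range.1 (mem_filter.1 hk).1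
    have b1 := near_iff_norm.1 (hng k hk1 (mem_filter.1 hk).2).2.symm
    push_cast at b1
    refine ⟨((hρ _).trans (hm _)).trans (mul_le_mul_of_nonneg_left b1 hm0),
      sum_nonneg fun i _ => by split_ifs <;> norm_num, ?_, ?_, ?_⟩
    · rw [mul_sum]
      refine sum_le_sum fun i _ => ?_
      change _ ≤ t (ed l i)
      split_ifs with hi
      · rw [sub_self, mul_zero]; exact ht _
      · rw [sub_zero, mul_one]; exact not_lt.1 hi
    · rw [← sum_add_distrib]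
      simp only [sub_add_cancel]
      rw [sum_const, Nat.card_Ico, nsmul_eq_mul, mul_one, Nat.cast_sub (hmm k hk1).le]
    · exact (abs_gQ_le sw hs _).trans (mul_le_mul_of_nonneg_left (hnx k hk1) (by norm_num))

end Vale.Agent.P158b
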