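import Vale.Agent.P158b.Defs

/-! Many ties give many eligible positions. -/

open MeasureTheory ProbabilityTheory Finset
open scoped Classical

namespace Vale.Agent.P158b

/-- an increasing enumeration of the elements of a subset of `range (L + 1)` -/
theorem tieDet_enum (p : ℕ → Prop) (L : ℕ) : ∃ g : ℕ → ℕ, StrictMono g ∧
    ∀ r, r < ((range (L + 1)).filter p).card → g r ≤ L ∧ p (g r) := by
  have h : {i | p i ∨ L < i}.Infinite :=
    (Set.Ioi_infinite L).mono fun i hi => Or.inr hi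
  refine ⟨_, Nat.nth_strictMono h, fun r hr => ?_⟩
  have h1 : Nat.nth (fun i => p i ∨ L < i) r < L + 1 := by
    refine Nat.nth_lt_of_lt_count (hr.trans_le ?_)
    rw [Nat.count_eq_card_filter_range]
    exact card_le_card fun i hi => mem_filter.2 ⟨(mem_filter.1 hi).1, Or.inl (mem_filter.1 hi).2⟩
  exact ⟨by omega, (Nat.nth_mem_of_infinite h r).resolve_right (by omega)⟩

/-- two ties at a suitable distance with few low positions in between -/
theorem tieDet_elig {P : Finset (ℕ × ℤ)} {w f : ℕ → ℝ} {K κ : ℝ} {L0 L1 i j : ℕ} (hκ : 0 < κ)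
    (hL0 : 4 * K < κ * L0) (hf : ∀ k, f k ≤ w k)
    (hbar : ∀ c ∈ P, -K ≤ ∑ k ∈ range c.1, w k + c.2)
    (hi : ∃ n : ℤ, (i, n) ∈ P ∧ ∑ k ∈ range i, w k + n ≤ K)
    (hj : ∃ n : ℤ, (j, n) ∈ P ∧ ∑ k ∈ range j, w k + n ≤ K) (h0 : 0 < L0) (h1 : L0 + i ≤ j)
    (h2 : j ≤ i + L1)
    (h3 : 2 * (∑ k ∈ range j, (if w k < f k + 4 * κ then (1 : ℝ) else 0) -
      ∑ k ∈ range i, (if w k < f k + 4 * κ then (1 : ℝ) else 0)) ≤ L0) :
    Elig P w f K κ L1 i := by
  obtain ⟨n, hn, hn'⟩ := hi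
  obtain ⟨m, hm, hm'⟩ := hj
  have hij : i ≤ j := by omega
  refine ⟨n, hn, hn', j, m, hm, by omega, h2, ?_⟩
  have a1 := hbar _ hn
  have a2 := sum_Ico_eq_sub w hij
  rw [← sum_Ico_eq_sub _ hij] at h3
  have a3 : ∑ k ∈ Ico i j, ((f k + κ) + (3 * κ -
      4 * κ * if w k < f k + 4 * κ then (1 : ℝ) else 0)) ≤ ∑ k ∈ Ico i j, w k :=
    sum_le_sum fun k _ => by
      have := hf k
      split_ifs with h <;> linarith
  rw [sum_add_distrib, sum_sub_distrib, ← mul_sum _ _ (4 * κ), sum_const, Nat.card_Ico,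
    nsmul_eq_mul] at a3
  have a4 : (L0 : ℝ) ≤ (j - i : ℕ) := by exact_mod_cast (by omega : L0 ≤ j - i)
  have a5 := mul_le_mul_of_nonneg_left a4 hκ.le
  have a6 := mul_le_mul_of_nonneg_left h3 hκ.le
  linarith

/-- Enumerate the ties increasingly (`Finset.orderEmbOfFin`) and take every `L0`-th one: at least
`ε L / L0 - 2` consecutive stretches `[i, j)`, disjoint, of length `≥ L0`. At most `ε L / (4 L0)` are
longer than `L1`, at most `ε L / (4 L0)` have more than half of low positions. For the others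
`∑ w ≥ ∑ f + 2 κ (j - i)`, so `n - n' ≥ ∑ w - 2 K > ∑ (f + κ) + 2 K`. -/
theorem elig_many (P : Finset (ℕ × ℤ)) (w f : ℕ → ℝ) {K κ ε : ℝ} {L L0 L1 : ℕ} (hκ : 0 < κ)
    (hε : 0 < ε) (hK : 0 ≤ K) (hL0 : 4 * K < κ * L0) (hL1 : 4 * L0 ≤ ε * L1)
    (hf : ∀ k, f k ≤ w k) (hP : ∀ c ∈ P, c.1 ≤ L)
    (hbar : ∀ c ∈ P, -K ≤ ∑ k ∈ range c.1, w k + c.2)
    (htie : ε * L ≤ (((range (L + 1)).filter fun i =>
      ∃ n : ℤ, (i, n) ∈ P ∧ ∑ k ∈ range i, w k + n ≤ K).card : ℝ))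
    (hlow : (((range L).filter fun k => w k < f k + 4 * κ).card : ℝ) ≤ ε / 8 * L) :
    ε * L / (2 * L0) - 2 ≤ (((range L).filter fun i => Elig P w f K κ L1 i).card : ℝ) := by
  have _ := hP
  have h0 : (0 : ℝ) < L0 := (mul_pos_iff_of_pos_left hκ).1 (by linarith)
  have h1 : (0 : ℝ) < L1 := (mul_pos_iff_of_pos_left hε).1 (by linarith)
  have h0' : 0 < L0 := by exact_mod_cast h0
  obtain ⟨g, hg, hg'⟩ :=
    tieDet_enum (fun i => ∃ n : ℤ, (i, n) ∈ P ∧ ∑ k ∈ range i, w k + n ≤ K) L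
  generalize ((range (L + 1)).filter fun i =>
    ∃ n : ℤ, (i, n) ∈ P ∧ ∑ k ∈ range i, w k + n ≤ K).card = m at htie hg'
  rcases m with _ | m
  · have h2 : ε * L / (2 * L0) ≤ 0 :=
      div_nonpos_of_nonpos_of_nonneg (by simpa using htie) (by positivity)
    linarith [Nat.cast_nonneg (α := ℝ) ((range L).filter fun i => Elig P w f K κ L1 i).card]
  have hQ : ∀ r, r ≤ m / L0 → r * L0 < m + 1 := fun r hr =>
    Nat.lt_succ_of_le ((Nat.le_div_iff_mul_le h0').1 hr)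
  have hQ' : (m + 1 : ℕ) ≤ (L0 : ℝ) * ((m / L0 : ℕ) + 1) := by
    exact_mod_cast Nat.succ_le_of_lt (Nat.lt_mul_div_succ m h0')
  generalize m / L0 = Q at hQ hQ'
  obtain ⟨u, hu⟩ : ∃ u : ℕ → ℝ, ∀ n, u n =
      ∑ k ∈ range n, (if w k < f k + 4 * κ then (1 : ℝ) else 0) := ⟨_, fun _ => rfl⟩
  have hu0 : Monotone u := monotone_nat_of_le_succ fun n => by
    rw [hu, hu, sum_range_succ]
    split_ifs <;> norm_num
  have hgap : ∀ r, L0 + g (r * L0) ≤ g ((r + 1) * L0) := fun r => by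
    rw [add_mul, one_mul, add_comm (r * L0)]
    exact hg.add_le_nat _ _
  have key : ∀ r ∈ range Q, (1 : ℝ) ≤ (if Elig P w f K κ L1 (g (r * L0)) then 1 else 0) +
      ((g ((r + 1) * L0) : ℝ) - g (r * L0)) / L1 +
      2 * (u (g ((r + 1) * L0)) - u (g (r * L0))) / L0 := fun r hr => by
    have c0 := mem_range.1 hr
    have c1 := hgap r
    have c2 : 0 ≤ ((g ((r + 1) * L0) : ℝ) - g (r * L0)) / L1 :=
      div_nonneg (sub_nonneg.2 (by exact_mod_cast (by omega))) h1.le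
    have c3 : 0 ≤ 2 * (u (g ((r + 1) * L0)) - u (g (r * L0))) / L0 :=
      div_nonneg (mul_nonneg two_pos.le (sub_nonneg.2 (hu0 (by omega)))) h0.le
    split_ifs with h
    · linarith
    by_cases c4 : g ((r + 1) * L0) ≤ g (r * L0) + L1
    · have c5 : ¬ 2 * (u (g ((r + 1) * L0)) - u (g (r * L0))) ≤ L0 := fun c5 =>
        h (tieDet_elig hκ hL0 hf hbar (hg' _ (hQ r (by omega))).2 (hg' _ (hQ (r + 1) c0)).2 h0' c1
          c4 (by rwa [hu, hu] at c5))
      have c6 := (one_le_div h0).2 (not_le.1 c5).le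
      linarith
    · have c5 : (g (r * L0) : ℝ) + L1 ≤ g ((r + 1) * L0) := by exact_mod_cast (not_le.1 c4).le
      have c6 : 1 ≤ ((g ((r + 1) * L0) : ℝ) - g (r * L0)) / L1 := (one_le_div h1).2 (by linarith)
      linarith
  have s1 := sum_le_sum key
  rw [sum_add_distrib, sum_add_distrib, ← sum_div, ← sum_div, ← mul_sum,
    sum_range_sub fun r => (g (r * L0) : ℝ), sum_range_sub fun r => u (g (r * L0)), sum_const,
    card_range, nsmul_eq_mul, mul_one, sum_boole] at s1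
  have s2 : (((range Q).filter fun r => Elig P w f K κ L1 (g (r * L0))).card : ℝ) ≤
      ((range L).filter fun i => Elig P w f K κ L1 i).card := by
    refine Nat.cast_le.2 (card_le_card_of_injOn (fun r => g (r * L0)) (fun r hr => ?_)
      fun r _ r' _ e => Nat.eq_of_mul_eq_mul_right h0' (hg.injective e))
    obtain ⟨c0, c1⟩ := mem_filter.1 (mem_coe.1 hr)
    have c2 := hgap r
    have c3 := (hg' _ (hQ (r + 1) (mem_range.1 c0))).1
    exact mem_coe.2 (mem_filter.2 ⟨mem_range.2 (by beta_reduce; omega), c1⟩)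
  have s3 := (hg' _ (hQ Q le_rfl)).1
  have s4 : ((g (Q * L0) : ℝ) - g (0 * L0)) / L1 ≤ ε * L / (2 * L0) / 2 := by
    have c1 : (g (Q * L0) : ℝ) ≤ L := by exact_mod_cast s3
    have c2 : (0 : ℝ) ≤ g (0 * L0) := Nat.cast_nonneg _
    have c3 := mul_le_mul_of_nonneg_left hL1 (Nat.cast_nonneg (α := ℝ) L)
    rw [div_div, div_le_div_iff₀ h1 (by positivity)]
    nlinarith
  have s5 : 2 * (u (g (Q * L0)) - u (g (0 * L0))) / L0 ≤ ε * L / (2 * L0) / 2 := by
    have c1 : u (g (Q * L0)) ≤ ε / 8 * L := (hu0 s3).trans (by rwa [hu, sum_boole])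
    have c2 : 0 ≤ u (g (0 * L0)) := by rw [hu]; positivity
    rw [div_div, div_le_div_iff₀ h0 (by positivity)]
    nlinarith
  have s6 : ε * L / (2 * L0) ≤ (Q + 1) / 2 := by
    rw [div_le_div_iff₀ (by positivity) two_pos]
    linarith
  linarith

/-- at an eligible position some later weight is not close to its floor -/
theorem elig_kill {P : Finset (ℕ × ℤ)} {w f : ℕ → ℝ} {K κ : ℝ} {L L1 i : ℕ}
    (hP : ∀ c ∈ P, c.1 ≤ L) (hbar : ∀ c ∈ P, -K ≤ ∑ k ∈ range c.1, w k + c.2)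
    (h : Elig P w f K κ L1 i) : ∃ k, i ≤ k ∧ k < i + L1 ∧ k < L ∧ f k + κ < w k := by
  obtain ⟨n, -, h1, j, m, hm, hij, hj, h2⟩ := h
  by_contra h3
  have a1 := hbar _ hm
  have a2 := sum_Ico_eq_sub w hij.le
  have a3 : j ≤ L := hP _ hm
  have a4 : ∑ k ∈ Ico i j, w k ≤ ∑ k ∈ Ico i j, (f k + κ) := sum_le_sum fun k hk => by
    obtain ⟨c1, c2⟩ := mem_Ico.1 hk
    exact not_lt.1 fun c3 => h3 ⟨k, c1, by omega, by omega, c3⟩
  linarith

end Vale.Agent.P158b
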