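import Vale.Agent.P158b.TiePat
import Vale.Agent.P158b.TieDet
import Vale.Agent.P158b.Harris
import Vale.Agent.P158b.ProbC

/-! The probability of many eligible positions along a geodesic. -/

open MeasureTheory ProbabilityTheory Finset
open scoped Classical

namespace Vale.Agent.P158b

private theorem tieA_sum_le {ι : Type} (μ : Measure Env) [IsProbabilityMeasure μ] (s : Finset ι)
    (A : ι → Set Env) (hA : ∀ i ∈ s, MeasurableSet (A i)) {C : ℝ}
    (h : ∀ ω, ((s.filter fun i => ω ∈ A i).card : ℝ) ≤ C) : ∑ i ∈ s, μ.real (A i) ≤ C := by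
  have h1 : ∀ i ∈ s, μ.real (A i) = ∫ ω, (A i).indicator (fun _ => (1 : ℝ)) ω ∂μ := fun i hi => by
    rw [integral_indicator (hA i hi)]; simp
  rw [sum_congr rfl h1, ← integral_finsetSum _ fun i hi =>
    (integrable_const (1 : ℝ)).indicator (hA i hi)]
  calc ∫ ω, ∑ i ∈ s, (A i).indicator (fun _ => (1 : ℝ)) ω ∂μ ≤ ∫ _ω, C ∂μ := by
        refine integral_mono (integrable_finsetSum _ fun i hi =>
          (integrable_const (1 : ℝ)).indicator (hA i hi)) (integrable_const C) fun ω => ?_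
        refine le_trans (le_of_eq ?_) (h ω)
        rw [card_filter]
        push_cast
        refine sum_congr rfl fun i _ => ?_
        by_cases hi : ω ∈ A i <;> simp [hi]
    _ = C := by simp

private theorem tieA_meas_pat (M : Model) (N : ℕ) (π : List V) (Km : ℕ) (b : V)
    (P : Finset (ℕ × ℤ)) : Measurable fun ω : Env => pat (M.Ψ ω) N π Km b = P := by
  have hex : ∀ i, Measurable fun ω : Env => ex (M.Ψ ω) N π b i := fun i =>
    (measurable_T _ _ _).comp M.meas
  have h : (fun ω : Env => pat (M.Ψ ω) N π Km b = P) = fun ω : Env => ∀ c : ℕ × ℤ,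
      ((c ∈ range (len π + 1) ×ˢ Icc (-(Km : ℤ)) Km ∧ Reach (exD N π 0) (vx π 0) b ∧
        Reach (exD N π c.1) (vx π c.1) b ∧
        ⌊ex (M.Ψ ω) N π b c.1 - ex (M.Ψ ω) N π b 0⌋ = c.2) ↔ c ∈ P) := by
    funext ω
    simp only [pat, Finset.ext_iff, mem_filter]
  rw [h]
  refine Measurable.forall fun c => Measurable.iff ?_ measurable_const
  refine measurable_const.and (measurable_const.and (measurable_const.and ?_))
  exact measurableSet_setOfPred.1 (measurableSet_eq_fun ((hex c.1).sub (hex 0)).floor measurable_const)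

private theorem tieA_pat_congr {t t' : Env} (N : ℕ) (π : List V) (Km : ℕ) (b : V)
    (h : ∀ e, e ∉ pedges π → t' e = t e) : pat t' N π Km b = pat t N π Km b := by
  have hex : ∀ i, ex t' N π b i = ex t N π b i := fun i => by
    refine T_congr (fun x y hx hy hxy => h _ fun he => ?_) _ _
    obtain ⟨ox, oy⟩ := on_of_mem_pedges he
    have e1 := hx.2.resolve_left fun hn => hn ox
    have e2 := hy.2.resolve_left fun hn => hn oy
    exact hxy.ne (e1.trans e2.symm)
  simp only [pat, hex]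

private theorem tieA_meas_elig (M : Model) (π : List V) (P : Finset (ℕ × ℤ)) (K κ : ℝ)
    (L1 i : ℕ) : MeasurableSet {ω : Env | Elig P (fun k => M.Ψ ω (ed π k))
      (fun k => fl M.t0 M.M0 (ω (ed π k))) K κ L1 i} := by
  have hw : ∀ k, Measurable fun ω : Env => M.Ψ ω (ed π k) := fun k =>
    (measurable_pi_apply _).comp M.meas
  have hf : ∀ k, Measurable fun ω : Env => fl M.t0 M.M0 (ω (ed π k)) := fun k =>
    Measurable.ite (measurableSet_le (measurable_pi_apply _) measurable_const) measurable_const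
      measurable_const
  refine measurableSet_setOfPred.2 (Measurable.exists fun n => measurable_const.and
    (Measurable.and ?_ (Measurable.exists fun j => Measurable.exists fun n' =>
      measurable_const.and (measurable_const.and (measurable_const.and ?_)))))
  · exact measurableSet_setOfPred.1 (measurableSet_le
      ((Finset.measurable_sum _ fun k _ => hw k).add_const _) measurable_const)
  · exact measurableSet_setOfPred.1 (measurableSet_lt
      ((Finset.measurable_sum _ fun k _ => (hf k).add_const _).add_const _) measurable_const)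

/-- the event for a fixed path and a fixed pattern -/
private def tieA_ev (M : Model) (N : ℕ) (z z' : V) (Km : ℕ) (x : List V × Finset (ℕ × ℤ)) :
    Set Env :=
  {ω | IsGeo (bx 0 N) (M.Ψ ω) z z' x.1 ∧
    ∃ β ∈ Ico (0 : ℤ) (8 * N), pat (M.Ψ ω) N x.1 Km (bv N β) = x.2}

private theorem tieA_meas_ev (M : Model) (N : ℕ) (z z' : V) (Km : ℕ)
    (x : List V × Finset (ℕ × ℤ)) : MeasurableSet (tieA_ev M N z z' Km x) := by
  refine measurableSet_setOfPred.2 (Measurable.and ?_ (Measurable.exists fun β =>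
    measurable_const.and (tieA_meas_pat M N x.1 Km _ _)))
  exact measurableSet_setOfPred.1 (M.meas (measurableSet_isGeo _ _ _ _))

private theorem tieA_one (M : Model) {κ c K : ℝ} (hc0 : 0 ≤ c) (hc1 : c ≤ 1)
    (h1 : c ≤ M.G.real (Lo M.t0 M.M0 κ ∩ Set.Iic M.M0))
    (h2 : c ≤ M.G.real (Lo M.t0 M.M0 κ ∩ Set.Ioi M.M0)) (N L1 R Km : ℕ)
    (hL1 : 1 ≤ L1) {z z' : V} (x : List V × Finset (ℕ × ℤ)) (hx : IsPth (bx 0 N) z z' x.1) :
    (PP M.G).real (tieA_ev M N z z' Km x ∩ {ω | (∀ i, i < len x.1 →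
        Elig x.2 (fun k => M.Ψ ω (ed x.1 k)) (fun k => fl M.t0 M.M0 (ω (ed x.1 k))) K κ L1 i →
        ∃ k, i ≤ k ∧ k < i + L1 ∧ k < len x.1 ∧ ω (ed x.1 k) ∉ Lo M.t0 M.M0 κ) ∧
        R * L1 ≤ ((range (len x.1)).filter fun i => Elig x.2 (fun k => M.Ψ ω (ed x.1 k))
          (fun k => fl M.t0 M.M0 (ω (ed x.1 k))) K κ L1 i).card}) ≤
      (1 - c ^ L1) ^ R * (PP M.G).real (tieA_ev M N z z' Km x) := by
  refine harris_adapt hc0 hc1 h1 h2 (ed x.1) (len x.1) L1 R hL1
    (fun i j hi hj hij => hx.ed_inj hi hj hij) (tieA_meas_ev M N z z' Km x) ?_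
    (fun i => {ω : Env | Elig x.2 (fun k => M.Ψ ω (ed x.1 k))
      (fun k => fl M.t0 M.M0 (ω (ed x.1 k))) K κ L1 i})
    (fun i => tieA_meas_elig M x.1 x.2 K κ L1 i) ?_
  · rintro ω ⟨hg, β, hβ, hp⟩ ω' hs hle heq
    have hs' : SameP M.M0 ω' ω := fun e => (hs e).symm
    have hoff : ∀ e, e ∉ pedges x.1 → M.Ψ ω' e = M.Ψ ω e := fun e he =>
      M.eq_of_eq hs' (heq e fun k hk h => he (mem_pedges.2 ⟨k, hk, h.symm⟩))
    exact ⟨hg.lower (fun e => M.mono ω' ω hs' e (hle e)) hoff, β, hβ,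
      (tieA_pat_congr N x.1 Km _ hoff).trans hp⟩
  · rintro i ω ⟨n, hn, hS, j, n', hn', hij, hj, hlt⟩ ω' hs heq
    have hs' : SameP M.M0 ω' ω := fun e => (hs e).symm
    refine ⟨n, hn, ?_, j, n', hn', hij, hj, ?_⟩
    · refine le_of_eq_of_le ?_ hS
      congr 1
      refine sum_congr rfl fun k hk => M.eq_of_eq hs' (heq _ fun k' hk1 hk2 h => ?_)
      have hki := mem_range.1 hk
      have := hx.ed_inj (by omega) hk2 h
      omega
    · refine lt_of_eq_of_lt ?_ hlt
      congr 1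
      refine sum_congr rfl fun k _ => ?_
      simp only [fl, hs' (ed x.1 k)]

/-- For a fixed path `π` and pattern `P` apply `harris_adapt` with `E = ed π`,
`A = {IsGeo π ∧ ∃ β, pat (bv β) = P}` (`IsGeo.lower`; `ex` only sees edges inside `exD`, none of
which is an edge of `π`: `T_congr`, `on_of_mem_pedges`, `eq_of_eq`) and
`Z i = {Elig P ..  i}`; `elig_kill`, `le_of_lo`. Sum over `P ∈ powerset _` with `card_pat`, over the
disjoint events `IsGeo z z' π`, and over `z' ∈ box z L`. -/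
theorem elig_prob (M : Model) {κ c K : ℝ} (hκ : 0 ≤ κ) (hc0 : 0 ≤ c) (hc1 : c ≤ 1)
    (h1 : c ≤ M.G.real (Lo M.t0 M.M0 κ ∩ Set.Iic M.M0))
    (h2 : c ≤ M.G.real (Lo M.t0 M.M0 κ ∩ Set.Ioi M.M0)) {N : ℕ} (hN : 1 ≤ N) (L L1 R Km : ℕ)
    (hL1 : 1 ≤ L1) (z : V) :
    (PP M.G).real {ω | ∃ z' π b, IsGeo (bx 0 N) (M.Ψ ω) z z' π ∧ len π = L ∧
      (∀ i, i ≤ L → ¬ Out 0 N (vx π i)) ∧ Bd 0 N b ∧
      (∀ c ∈ pat (M.Ψ ω) N π Km b, -K ≤ ∑ k ∈ range c.1, M.Ψ ω (ed π k) + c.2) ∧
      R * L1 ≤ ((range L).filter fun i => Elig (pat (M.Ψ ω) N π Km b) (fun k => M.Ψ ω (ed π k))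
        (fun k => fl M.t0 M.M0 (ω (ed π k))) K κ L1 i).card} ≤
      (2 * L + 1) ^ 2 * (1 + 2 * ((L + 1) * (2 * Km + 2))) * (1 - c ^ L1) ^ R := by
  set C : ℝ := 1 + 2 * ((L + 1) * (2 * Km + 2)) with hC
  have hρ : 0 ≤ (1 - c ^ L1) ^ R := pow_nonneg (sub_nonneg.2 (pow_le_one₀ hc0 hc1)) _
  let I : V → Finset (List V × Finset (ℕ × ℤ)) := fun z' =>
    ((pth_finite (bx_finite 0 N) z z').toFinset.filter fun π =>
      len π = L ∧ ∀ i, i ≤ L → ¬ Out 0 N (vx π i)) ×ˢ
      (range (L + 1) ×ˢ Icc (-(Km : ℤ)) Km).powerset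
  let S : V → List V × Finset (ℕ × ℤ) → Set Env := fun z' x =>
    tieA_ev M N z z' Km x ∩ {ω | (∀ i, i < len x.1 →
        Elig x.2 (fun k => M.Ψ ω (ed x.1 k)) (fun k => fl M.t0 M.M0 (ω (ed x.1 k))) K κ L1 i →
        ∃ k, i ≤ k ∧ k < i + L1 ∧ k < len x.1 ∧ ω (ed x.1 k) ∉ Lo M.t0 M.M0 κ) ∧
        R * L1 ≤ ((range (len x.1)).filter fun i => Elig x.2 (fun k => M.Ψ ω (ed x.1 k))
          (fun k => fl M.t0 M.M0 (ω (ed x.1 k))) K κ L1 i).card}
  have hsum : ∀ z', ∑ x ∈ I z', (PP M.G).real (tieA_ev M N z z' Km x) ≤ C := fun z' => by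
    refine tieA_sum_le _ _ _ (fun x _ => tieA_meas_ev M N z z' Km x) fun ω => ?_
    rcases ((I z').filter fun x => ω ∈ tieA_ev M N z z' Km x).eq_empty_or_nonempty with h | ⟨x0, h0⟩
    · rw [h, card_empty, Nat.cast_zero, hC]; positivity
    · obtain ⟨h0I, h0g, -⟩ := mem_filter.1 h0
      obtain ⟨-, hlen, hin⟩ := mem_filter.1 (mem_product.1 h0I).1
      have hcp := card_pat (M.nonneg ω) hN h0g.1 (hlen ▸ hin) Km
      have hle : ((I z').filter fun x => ω ∈ tieA_ev M N z z' Km x).card ≤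
          ((Ico (0 : ℤ) (8 * N)).image fun β => pat (M.Ψ ω) N x0.1 Km (bv N β)).card := by
        refine card_le_card_of_injOn Prod.snd (fun x hx => ?_) fun x hx y hy hxy => ?_
        · obtain ⟨-, hg, β, hβ, hp⟩ := mem_filter.1 (mem_coe.1 hx)
          rw [hg.unique h0g] at hp
          exact mem_coe.2 (mem_image.2 ⟨β, hβ, hp⟩)
        · exact Prod.ext ((mem_filter.1 (mem_coe.1 hx)).2.1.unique
            (mem_filter.1 (mem_coe.1 hy)).2.1) hxy
      rw [hlen] at hcp
      rw [hC]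
      exact_mod_cast hle.trans hcp
  calc _ ≤ (PP M.G).real (⋃ z' ∈ box z L, ⋃ x ∈ I z', S z' x) := by
        refine measureReal_mono ?_ (measure_ne_top _ _)
        rintro ω ⟨z', π, b, hg, hlen, hin, hb, hbar, hR⟩
        obtain ⟨β, hβ0, hβ1, rfl⟩ := bv_surj hN hb
        have hz' : z' ∈ box z L := by
          have := hg.1.chain.near (Nat.zero_le 0) (Nat.zero_le _) le_rfl
          rw [hg.1.start, hg.1.stop, hlen, Nat.sub_zero] at this
          exact mem_box.2 this.symm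
        have hsub : pat (M.Ψ ω) N π Km (bv N β) ⊆ range (L + 1) ×ˢ Icc (-(Km : ℤ)) Km := by
          rw [← hlen]; exact filter_subset _ _
        simp only [Set.mem_iUnion]
        refine ⟨z', hz', (π, pat (M.Ψ ω) N π Km (bv N β)), mem_product.2 ⟨mem_filter.2
          ⟨(Set.Finite.mem_toFinset _).2 hg.1, hlen, hin⟩, mem_powerset.2 hsub⟩,
          ⟨hg, β, mem_Ico.2 ⟨hβ0, hβ1⟩, rfl⟩, fun i _ hE => ?_, hlen ▸ hR⟩
        obtain ⟨k, k1, k2, k3, k4⟩ := elig_kill (L := L)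
          (fun c hc => Nat.lt_succ_iff.1 (mem_range.1 (mem_product.1 (hsub hc)).1)) hbar hE
        exact ⟨k, k1, k2, hlen ▸ k3, fun hlo => absurd (M.le_of_lo hκ hlo) (not_le.2 k4)⟩
    _ ≤ ∑ z' ∈ box z L, ∑ x ∈ I z', (PP M.G).real (S z' x) :=
        (measureReal_biUnion_finset_le _ _).trans
          (sum_le_sum fun z' _ => measureReal_biUnion_finset_le _ _)
    _ ≤ ∑ _z' ∈ box z L, (1 - c ^ L1) ^ R * C := by
        refine sum_le_sum fun z' _ => le_trans ?_ (mul_le_mul_of_nonneg_left (hsum z') hρ)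
        rw [mul_sum]
        refine sum_le_sum fun x hx => tieA_one M hc0 hc1 h1 h2 N L1 R Km hL1 x ?_
        exact (Set.Finite.mem_toFinset _).1 (mem_filter.1 (mem_product.1 hx).1).1
    _ = _ := by
        rw [sum_const, card_box, nsmul_eq_mul]
        push_cast
        ring

end Vale.Agent.P158b
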