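import Vale.Agent.P158b.Cross
import Vale.Agent.P158b.PathC

/-! There are few patterns of exit costs. -/

open MeasureTheory ProbabilityTheory Finset
open scoped Classical

namespace Vale.Agent.P158b

/-- two paths with the same start form a walk between their ends -/
private theorem join {S : Set V} {a b c : V} {p q : List V} (hp : IsPth S a b p)
    (hq : IsPth S a c q) :
    ∃ f L, Chain {v | v ∈ S ∧ (On p v ∨ On q v)} f 0 L ∧ f 0 = b ∧ f L = c := by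
  have c1 : Chain {v | v ∈ S ∧ (On p v ∨ On q v)} (vx p) 0 (len p) :=
    ⟨hp.chain.1, fun k h0 hk => ⟨hp.chain.2 k h0 hk, Or.inl ⟨k, hk, rfl⟩⟩⟩
  have c2 : Chain {v | v ∈ S ∧ (On p v ∨ On q v)} (vx q) 0 (len q) :=
    ⟨hq.chain.1, fun k h0 hk => ⟨hq.chain.2 k h0 hk, Or.inr ⟨k, hk, rfl⟩⟩⟩
  obtain ⟨F, h1, h2, h3, -⟩ := exists_concat c1.rev c2 (by rw [Nat.sub_self, hp.start, hq.start])
  exact ⟨F, _, h1, (h2 0 (Nat.zero_le _)).trans hp.stop, (h3 _ le_rfl).trans hq.stop⟩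

/-- the tail of an exit path avoids `π` -/
private theorem tail {t : Env} (ht : ∀ e, 0 ≤ t e) {N i : ℕ} {π p : List V} {b z : V}
    (hi : i ≤ len π) (hp : IsPth (exD N π i) (vx π i) b p) (hw : wt t p = ex t N π b i)
    (hz : On p z) (hz' : ¬ On π z) :
    Reach (exD N π i) (vx π i) z ∧ Reach {v | Near N v 0 ∧ ¬ On π v} z b ∧
      T (exD N π i) t (vx π i) z + T {v | Near N v 0 ∧ ¬ On π v} t z b ≤ ex t N π b i := by
  obtain ⟨j, hj, rfl⟩ := hz
  have c1 := hp.chain.mono subset_rfl le_rfl hj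
  have c2 : Chain {v | Near N v 0 ∧ ¬ On π v} (vx p) j (len p) :=
    ⟨fun k _ => hp.chain.1 k (Nat.zero_le _), fun k h0 hk => by
      obtain ⟨a1, a2 | a2⟩ := hp.chain.2 k (Nat.zero_le _) hk
      · exact ⟨a1, a2⟩
      · obtain rfl := hp.inj k 0 hk (Nat.zero_le _) (a2.trans hp.start.symm)
        obtain rfl := Nat.le_zero.1 h0
        exact (hz' ⟨i, hi, a2.symm⟩).elim⟩
  have r1 := reach_of_chain (Nat.zero_le j) c1
  have r2 := reach_of_chain hj c2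
  have a1 := T_le_W ht (Nat.zero_le j) c1
  have a2 := T_le_W ht hj c2
  rw [hp.start] at r1 a1
  rw [hp.stop] at r2 a2
  exact ⟨r1, r2, (add_le_add a1 a2).trans_eq ((W_add t _ (Nat.zero_le j) hj).trans hw)⟩

private theorem exch {t : Env} (ht : ∀ e, 0 ≤ t e) {N i : ℕ} {π p q : List V} {b c z : V}
    (hi : i ≤ len π) (hp : IsPth (exD N π 0) (vx π 0) b p) (hw : wt t p = ex t N π b 0)
    (hq : IsPth (exD N π i) (vx π i) c q) (hw' : wt t q = ex t N π c i)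
    (hzp : On p z) (hzq : On q z) (hz : ¬ On π z) :
    ex t N π b i - ex t N π b 0 ≤ ex t N π c i - ex t N π c 0 := by
  obtain ⟨a1, a2, a3⟩ := tail ht (Nat.zero_le _) hp hw hzp hz
  obtain ⟨b1, b2, b3⟩ := tail ht hi hq hw' hzq hz
  have hS : ∀ j, {v | Near N v 0 ∧ ¬ On π v} ⊆ exD N π j := fun j v hv => ⟨hv.1, Or.inl hv.2⟩
  have c1 : ex t N π c 0 ≤ _ := T_triangle ht a1 (b2.imp fun _ h => h.mono (hS 0))
  have c2 : ex t N π b i ≤ _ := T_triangle ht b1 (a2.imp fun _ h => h.mono (hS i))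
  linarith [T_mono_set ht (hS 0) b2, T_mono_set ht (hS i) a2]

private theorem reach_bv {N : ℕ} (hN : 1 ≤ N) {π : List V}
    (hin : ∀ i, i ≤ len π → ¬ Out 0 N (vx π i)) {i : ℕ} {α : ℤ}
    (h : Reach (exD N π i) (vx π i) (bv N α)) (β : ℤ) : Reach (exD N π i) (vx π i) (bv N β) :=
  h.trans (reach_ring hN (S := exD N π i) (fun _ hx => ⟨hx.1, Or.inl fun h' =>
    h'.elim fun j hj => hin j hj.1 (hj.2 ▸ hx.2)⟩) (bv_bd hN α) (bv_bd hN β))

private theorem card_image_le' {γ : Type} [DecidableEq γ] (f : ℤ → γ) (n : ℕ) (s : Finset ℤ)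
    (hs : ∀ k : ℤ, 0 ≤ k → k + 1 < n → f k ≠ f (k + 1) → k ∈ s) :
    ((Ico (0 : ℤ) n).image f).card ≤ 1 + s.card := by
  have key : ∀ k : ℕ, k < n → f k ∈ insert (f 0) (s.image fun k => f (k + 1)) := by
    intro k
    induction k with
    | zero => exact fun _ => mem_insert_self _ _
    | succ k ih =>
      intro hk
      rw [Nat.cast_succ]
      rcases eq_or_ne (f k) (f (k + 1)) with e | e
      · exact e ▸ ih (by omega)
      · exact mem_insert_of_mem (mem_image.2 ⟨k, hs k (by omega) (by omega) e, rfl⟩)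
  refine (card_le_card fun y hy => ?_).trans ((card_insert_le (f 0) _).trans
    ((add_comm _ _).trans_le (Nat.add_le_add_left (card_image_le (f := fun k => f (k + 1))) 1)))
  obtain ⟨k, hk, rfl⟩ := mem_image.1 hy
  obtain ⟨k, rfl⟩ := Int.eq_ofNat_of_zero_le (mem_Ico.1 hk).1
  exact key k (by have := (mem_Ico.1 hk).2; omega)

/-- Take minimal paths from `vx π 0` to `bv β1`, `bv β3` in `exD N π 0` and from `vx π i` to
`bv β2`, `bv β4` in `exD N π i` (`exists_min`); the two concatenated walks meet (`cross`) at a point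
`z` off `π` when `i ≠ 0`; exchange the tails (they avoid `π`, so they lie in both domains). -/
theorem ex_arc {t : Env} (ht : ∀ e, 0 ≤ t e) {N : ℕ} (hN : 1 ≤ N) {π : List V} {z z' : V}
    (hπ : IsPth (bx 0 N) z z' π) (hin : ∀ i, i ≤ len π → ¬ Out 0 N (vx π i)) {i : ℕ}
    (hi : i ≤ len π) {β1 β2 β3 β4 : ℤ} (h12 : β1 ≤ β2) (h23 : β2 ≤ β3) (h34 : β3 ≤ β4)
    (h41 : β4 ≤ β1 + 8 * N) (r0 : Reach (exD N π 0) (vx π 0) (bv N β1))
    (ri : Reach (exD N π i) (vx π i) (bv N β1)) {n : ℝ}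
    (h1 : n ≤ ex t N π (bv N β1) i - ex t N π (bv N β1) 0)
    (h3 : n ≤ ex t N π (bv N β3) i - ex t N π (bv N β3) 0) :
    n ≤ ex t N π (bv N β2) i - ex t N π (bv N β2) 0 ∨
      n ≤ ex t N π (bv N β4) i - ex t N π (bv N β4) 0 := by
  rcases Nat.eq_zero_or_pos i with rfl | i0
  · left
    rwa [sub_self] at h1 ⊢
  have hS : ∀ j, exD N π j ⊆ bx 0 N := fun j v hv => hv.1
  have hf := fun j => (bx_finite 0 N).subset (hS j)
  obtain ⟨p1, a1, w1⟩ := exists_min (hf 0) t r0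
  obtain ⟨p3, a3, w3⟩ := exists_min (hf 0) t (reach_bv hN hin r0 β3)
  obtain ⟨p2, a2, w2⟩ := exists_min (hf i) t (reach_bv hN hin ri β2)
  obtain ⟨p4, a4, w4⟩ := exists_min (hf i) t (reach_bv hN hin ri β4)
  obtain ⟨f, L, f1, f2, f3⟩ := join a1 a3
  obtain ⟨g, M, g1, g2, g3⟩ := join a2 a4
  obtain ⟨j, k, hj, hk, e⟩ := cross hN h12 h23 h34 h41
    (f1.mono (fun v hv => hS 0 hv.1) le_rfl le_rfl) (g1.mono (fun v hv => hS i hv.1) le_rfl le_rfl)
    f2 f3 g2 g3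
  obtain ⟨u1, u2⟩ := f1.2 j (Nat.zero_le _) hj
  obtain ⟨v1, v2⟩ := e ▸ g1.2 k (Nat.zero_le _) hk
  have hz : ¬ On π (f j) := fun h => i0.ne (hπ.inj 0 i (Nat.zero_le _) hi
    ((u1.2.resolve_left (not_not.2 h)).symm.trans (v1.2.resolve_left (not_not.2 h))))
  rcases u2 with u2 | u2 <;> rcases v2 with v2 | v2
  · exact Or.inl (h1.trans (exch ht hi a1 w1 a2 w2 u2 v2 hz))
  · exact Or.inr (h1.trans (exch ht hi a1 w1 a4 w4 u2 v2 hz))
  · exact Or.inl (h3.trans (exch ht hi a3 w3 a2 w2 u2 v2 hz))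
  · exact Or.inr (h3.trans (exch ht hi a3 w3 a4 w4 u2 v2 hz))

/-- a sequence takes at most one more value than it has changes -/
theorem card_image_le_changes {γ : Type} (f : ℤ → γ) (n : ℕ) :
    ((Ico (0 : ℤ) n).image f).card ≤
      1 + ((Ico (0 : ℤ) n).filter fun k : ℤ => k + 1 < n ∧ f k ≠ f (k + 1)).card :=
  card_image_le' f n _ fun k h0 h1 h2 => mem_filter.2 ⟨mem_Ico.2 ⟨h0, by omega⟩, h1, h2⟩

/-- three changes of a predicate give an alternating quadruple -/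
theorem changes_le_two (P : ℤ → Prop) (n : ℕ)
    (h : ∀ a b c d : ℤ, 0 ≤ a → a ≤ b → b ≤ c → c ≤ d → d < n →
      ¬ (P a ∧ ¬ P b ∧ P c ∧ ¬ P d) ∧ ¬ (¬ P a ∧ P b ∧ ¬ P c ∧ P d)) :
    ((Ico (0 : ℤ) n).filter fun k : ℤ => k + 1 < n ∧ ¬ (P k ↔ P (k + 1))).card ≤ 2 := by
  have key : ∀ a b c : ℤ, (0 ≤ a ∧ ¬ (P a ↔ P (a + 1))) → ¬ (P b ↔ P (b + 1)) →
      (c + 1 < n ∧ ¬ (P c ↔ P (c + 1))) → ¬ (a < b ∧ b < c) := by
    rintro a b c ⟨a0, ha⟩ hb ⟨cn, hc⟩ ⟨ab, bc⟩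
    have h1 := h a (a + 1) b c a0 (by omega) (by omega) (by omega) (by omega)
    have h2 := h a (a + 1) b (c + 1) a0 (by omega) (by omega) (by omega) (by omega)
    have h3 := h a (a + 1) (b + 1) c a0 (by omega) (by omega) (by omega) (by omega)
    have h4 := h a (a + 1) (b + 1) (c + 1) a0 (by omega) (by omega) (by omega) (by omega)
    clear h
    by_cases pa : P a <;> by_cases pb : P b <;> by_cases pc : P c <;> simp_all
  by_contra hc
  obtain ⟨a, b, c, ha, hb, hc, ab, ac, bc⟩ := two_lt_card_iff.1 (not_le.1 hc)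
  simp only [mem_filter, mem_Ico] at ha hb hc
  have k1 := key a b c ⟨ha.1.1, ha.2.2⟩ hb.2.2 hc.2
  have k2 := key a c b ⟨ha.1.1, ha.2.2⟩ hc.2.2 hb.2
  have k3 := key b a c ⟨hb.1.1, hb.2.2⟩ ha.2.2 hc.2
  have k4 := key b c a ⟨hb.1.1, hb.2.2⟩ hc.2.2 ha.2
  have k5 := key c a b ⟨hc.1.1, hc.2.2⟩ ha.2.2 hb.2
  have k6 := key c b a ⟨hc.1.1, hc.2.2⟩ hb.2.2 ha.2
  omega

/-- Reachability does not depend on the boundary point (`reach_ring`). The pattern changes only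
where one of the predicates `n ≤ ex i - ex 0` (`i ≤ len π`, `-Km ≤ n ≤ Km + 1`) changes; `ex_arc`
(for the second alternation use `β2, β3, β4, β1 + 8 N` and `bv_period`). -/
theorem card_pat {t : Env} (ht : ∀ e, 0 ≤ t e) {N : ℕ} (hN : 1 ≤ N) {π : List V} {z z' : V}
    (hπ : IsPth (bx 0 N) z z' π) (hin : ∀ i, i ≤ len π → ¬ Out 0 N (vx π i)) (Km : ℕ) :
    ((Ico (0 : ℤ) (8 * N)).image fun β => pat t N π Km (bv N β)).card ≤
      1 + 2 * ((len π + 1) * (2 * Km + 2)) := by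
  obtain ⟨P, hP⟩ : ∃ P : ℕ × ℤ → ℤ → Prop, P = fun c β => Reach (exD N π 0) (vx π 0) (bv N β) ∧
    Reach (exD N π c.1) (vx π c.1) (bv N β) ∧
      (c.2 : ℝ) ≤ ex t N π (bv N β) c.1 - ex t N π (bv N β) 0 := ⟨_, rfl⟩
  have hm : ∀ β c, c ∈ pat t N π Km (bv N β) ↔
      c ∈ range (len π + 1) ×ˢ Icc (-(Km : ℤ)) Km ∧ P c β ∧ ¬ P (c.1, c.2 + 1) β := by
    intro β c
    simp only [hP, pat, mem_filter, Int.floor_eq_iff, Int.cast_add, Int.cast_one, ← not_le]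
    tauto
  have arc : ∀ c : ℕ × ℤ, c.1 ≤ len π → ∀ β1 β2 β3 β4 : ℤ, β1 ≤ β2 → β2 ≤ β3 → β3 ≤ β4 →
      β4 ≤ β1 + 8 * N → P c β1 → P c β3 → P c β2 ∨ P c β4 := by
    rw [hP]
    rintro c hc β1 β2 β3 β4 h12 h23 h34 h41 ⟨r0, ri, h1⟩ ⟨-, -, h3⟩
    exact (ex_arc ht hN hπ hin hc h12 h23 h34 h41 r0 ri h1 h3).imp
      (fun h => ⟨reach_bv hN hin r0 _, reach_bv hN hin ri _, h⟩)
      fun h => ⟨reach_bv hN hin r0 _, reach_bv hN hin ri _, h⟩
  have per : ∀ c β, P c (β + 8 * N) ↔ P c β := fun c β => by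
    have := bv_period N β 1
    rw [mul_one] at this
    simp only [hP, this]
  have h1 := card_image_le' (fun β => pat t N π Km (bv N β)) (8 * N)
    ((range (len π + 1) ×ˢ Icc (-(Km : ℤ)) (Km + 1)).biUnion fun c =>
      (Ico (0 : ℤ) (8 * N : ℕ)).filter fun k : ℤ =>
        k + 1 < (8 * N : ℕ) ∧ ¬ (P c k ↔ P c (k + 1))) fun k k1 k2 k3 => ?_
  · rw [Nat.cast_mul, Nat.cast_ofNat] at h1
    refine h1.trans (Nat.add_le_add_left
      ((card_biUnion_le_card_mul _ _ 2 fun c hc => ?_).trans_eq ?_) 1)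
    · have hc' := Nat.lt_succ_iff.1 (mem_range.1 (mem_product.1 hc).1)
      refine changes_le_two (P c) (8 * N) fun a b e d a0 ab be ed dn =>
        ⟨fun h => (arc c hc' a b e d ab be ed (by omega) h.1 h.2.2.1).elim h.2.1 h.2.2.2,
          fun h => ?_⟩
      exact (arc c hc' b e d (a + 8 * N) be ed (by omega) (by omega) h.2.1 h.2.2.2).elim h.2.2.1
        fun h' => h.1 ((per c a).1 h')
    · have : ((Km : ℤ) + 1 + 1 - -Km).toNat = 2 * Km + 2 := by omega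
      rw [card_product, card_range, Int.card_Icc, mul_comm, this]
  · by_contra hn
    simp only [mem_biUnion, mem_filter, mem_Ico, k1, k2, (lt_add_one k).trans k2, true_and,
      not_exists, not_and, not_not] at hn
    refine k3 (Finset.ext fun c => ?_)
    rw [hm, hm]
    refine and_congr_right fun hc => ?_
    simp only [mem_product, mem_Icc] at hc hn
    rw [hn c ⟨hc.1, by omega⟩, hn (c.1, c.2 + 1) ⟨hc.1, by omega⟩]

end Vale.Agent.P158b
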