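import Vale.Agent.P158b.PathA

/-! Connectivity of the visible boundary of a connected set. -/

open MeasureTheory ProbabilityTheory Finset
open scoped Classical

namespace Vale.Agent.P158b

/-- a primitive on the integers -/
private theorem int_primitive (f : ℤ → ZMod 2) :
    ∃ F : ℤ → ZMod 2, F 0 = 0 ∧ ∀ n : ℤ, F (n + 1) = F n + f n := by
  refine ⟨fun n => ∑ i ∈ range n.toNat, f i - ∑ i ∈ range (-n).toNat, f (-((i : ℤ) + 1)), by simp,
    fun n => ?_⟩
  rcases le_or_gt 0 n with hn | hn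
  · obtain ⟨m, rfl⟩ := Int.eq_ofNat_of_zero_le hn
    have e1 : ((m : ℤ) + 1).toNat = m + 1 := by omega
    have e2 : (-((m : ℤ) + 1)).toNat = 0 := by omega
    have e3 : (-(m : ℤ)).toNat = 0 := by omega
    have e4 : ((m : ℤ)).toNat = m := by omega
    simp only [e1, e2, e3, e4, sum_range_succ, sum_range_zero]
    ring
  · obtain ⟨m, hm⟩ : ∃ m : ℕ, n = -((m : ℤ) + 1) := ⟨(-n - 1).toNat, by omega⟩
    subst hm
    have e1 : (-((m : ℤ) + 1) + 1).toNat = 0 := by omega
    have e2 : (-(-((m : ℤ) + 1) + 1)).toNat = m := by omega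
    have e3 : (-(-((m : ℤ) + 1))).toNat = m + 1 := by omega
    have e4 : (-((m : ℤ) + 1)).toNat = 0 := by omega
    simp only [e1, e2, e3, e4, sum_range_succ, sum_range_zero]
    ring

private theorem z2_add_self (a : ZMod 2) : a + a = 0 := CharTwo.add_self_eq_zero a

/-- A closed `ZMod 2`-valued function on edges is exact: put
`ψ (a, b) = ∑` of `χ` along the horizontal segment from `(0,0)` to `(a,0)` and then the vertical
segment to `(a,b)`; induction on `b` in both directions. -/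
theorem exact_of_closed (h v : V → ZMod 2)
    (hc : ∀ x : V, h x + v (x.1 + 1, x.2) + h (x.1, x.2 + 1) + v x = 0) :
    ∃ ψ : V → ZMod 2, ∀ x : V, ψ (x.1 + 1, x.2) = ψ x + h x ∧ ψ (x.1, x.2 + 1) = ψ x + v x := by
  obtain ⟨F, -, hF⟩ := int_primitive fun a => h (a, 0)
  choose G hG0 hG using fun a : ℤ => int_primitive fun b => v (a, b)
  have step : ∀ a b : ℤ, F (a + 1) + G (a + 1) (b + 1) - (F a + G a (b + 1) + h (a, b + 1)) =
      F (a + 1) + G (a + 1) b - (F a + G a b + h (a, b)) := by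
    intro a b
    have h1 := hc (a, b)
    have h2 := z2_add_self (h (a, b + 1))
    have h3 := z2_add_self (v (a, b))
    rw [hG, hG]
    linear_combination h1 - h2 - h3
  have key : ∀ a b : ℤ, F (a + 1) + G (a + 1) b - (F a + G a b + h (a, b)) = 0 := by
    intro a b
    induction b using Int.induction_on with
    | zero => rw [hG0, hG0, hF]; ring
    | succ n ih => rw [step, ih]
    | pred n ih =>
      have h1 := step a (-(n : ℤ) - 1)
      have e : -(n : ℤ) - 1 + 1 = -(n : ℤ) := by ring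
      rw [e] at h1
      rw [← h1, ih]
  refine ⟨fun x => F x.1 + G x.1 x.2, fun x => ⟨?_, ?_⟩⟩
  · exact sub_eq_zero.1 (key x.1 x.2)
  · show F x.1 + G x.1 (x.2 + 1) = F x.1 + G x.1 x.2 + v (x.1, x.2)
    rw [hG]
    ring

/-- the indicator of the pairs joining `K \ C` to `C` -/
private noncomputable def chiE (C K : Set V) (x y : V) : ZMod 2 :=
  if (x ∈ C ∧ y ∉ C ∧ y ∈ K) ∨ (y ∈ C ∧ x ∉ C ∧ x ∈ K) then 1 else 0

private noncomputable def iotaC (C : Set V) (x : V) : ZMod 2 := if x ∈ C then 1 else 0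

private theorem chiE_symm (C K : Set V) (x y : V) : chiE C K x y = chiE C K y x := by
  unfold chiE
  simp only [or_comm]

private theorem adj_symm' {x y : V} (h : Adj x y) : Adj y x := by
  unfold Adj at h ⊢
  omega

private theorem chiE_eq_iota (C K : Set V)
    (hK : ∀ v ∈ K, ∀ v', v' ∉ C → (∃ c ∈ C, Adj v' c) → Near 1 v v' → v' ∈ K)
    {w x y : V} (hw : w ∈ K) (hx : Near 1 w x) (hy : Near 1 w y) (hxy : Adj x y) :
    chiE C K x y = iotaC C x + iotaC C y := by
  unfold chiE iotaC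
  by_cases hxC : x ∈ C <;> by_cases hyC : y ∈ C
  · rw [if_neg (by tauto), if_pos hxC, if_pos hyC]
    exact (z2_add_self 1).symm
  · have := hK w hw y hyC ⟨x, hxC, adj_symm' hxy⟩ hy
    rw [if_pos (Or.inl ⟨hxC, hyC, this⟩), if_pos hxC, if_neg hyC, add_zero]
  · have := hK w hw x hxC ⟨y, hyC, hxy⟩ hx
    rw [if_pos (Or.inr ⟨hyC, hxC, this⟩), if_neg hxC, if_pos hyC, zero_add]
  · rw [if_neg (by tauto), if_neg hxC, if_neg hyC, add_zero]

private theorem chiE_eq_zero (C K : Set V) {x y : V} (hx : x ∉ K) (hy : y ∉ K) :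
    chiE C K x y = 0 := by
  unfold chiE
  rw [if_neg (by tauto)]

private theorem chiE_closed (C K : Set V)
    (hK : ∀ v ∈ K, ∀ v', v' ∉ C → (∃ c ∈ C, Adj v' c) → Near 1 v v' → v' ∈ K) (a b : ℤ) :
    chiE C K (a, b) (a + 1, b) + chiE C K (a + 1, b) (a + 1, b + 1) +
      chiE C K (a, b + 1) (a + 1, b + 1) + chiE C K (a, b) (a, b + 1) = 0 := by
  by_cases hw : ∃ w ∈ K, a ≤ w.1 ∧ w.1 ≤ a + 1 ∧ b ≤ w.2 ∧ w.2 ≤ b + 1
  · obtain ⟨w, hwK, h1, h2, h3, h4⟩ := hw
    have n0 : Near 1 w (a, b) := by unfold Near; simp only; omega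
    have n1 : Near 1 w (a + 1, b) := by unfold Near; simp only; omega
    have n2 : Near 1 w (a + 1, b + 1) := by unfold Near; simp only; omega
    have n3 : Near 1 w (a, b + 1) := by unfold Near; simp only; omega
    rw [chiE_eq_iota C K hK hwK n0 n1 (Or.inl ⟨rfl, rfl⟩),
      chiE_eq_iota C K hK hwK n1 n2 (Or.inr (Or.inr (Or.inl ⟨rfl, rfl⟩))),
      chiE_eq_iota C K hK hwK n3 n2 (Or.inl ⟨rfl, rfl⟩),
      chiE_eq_iota C K hK hwK n0 n3 (Or.inr (Or.inr (Or.inl ⟨rfl, rfl⟩)))]
    have e0 := z2_add_self (iotaC C (a, b))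
    have e1 := z2_add_self (iotaC C (a + 1, b))
    have e2 := z2_add_self (iotaC C (a + 1, b + 1))
    have e3 := z2_add_self (iotaC C (a, b + 1))
    linear_combination e0 + e1 + e2 + e3
  · have n0 : (a, b) ∉ K := fun hk => hw ⟨_, hk, by simp only; omega⟩
    have n1 : (a + 1, b) ∉ K := fun hk => hw ⟨_, hk, by simp only; omega⟩
    have n2 : (a + 1, b + 1) ∉ K := fun hk => hw ⟨_, hk, by simp only; omega⟩
    have n3 : (a, b + 1) ∉ K := fun hk => hw ⟨_, hk, by simp only; omega⟩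
    rw [chiE_eq_zero C K n0 n1, chiE_eq_zero C K n1 n2, chiE_eq_zero C K n3 n2,
      chiE_eq_zero C K n0 n3]
    simp

private theorem const_of_reach (ψ : V → ZMod 2) (S : Set V)
    (hψ : ∀ x ∈ S, ∀ y ∈ S, Adj x y → ψ y = ψ x) {a b : V} (h : Reach S a b) : ψ b = ψ a := by
  obtain ⟨l, hl⟩ := h
  have key : ∀ k, k ≤ len l → ψ (vx l k) = ψ (vx l 0) := by
    intro k
    induction k with
    | zero => intro _; rfl
    | succ k ih =>
      intro hk
      rw [← ih (by omega)]
      exact hψ _ (hl.chain.2 k (Nat.zero_le _) (by omega)) _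
        (hl.chain.2 (k + 1) (Nat.zero_le _) hk) (hl.chain.1 k (Nat.zero_le _) (by omega))
  have := key (len l) le_rfl
  rwa [hl.start, hl.stop] at this

/-- Suppose `u' ∉ K`. Let `χ` be the indicator of the edges joining `K \ C` to `C`. A unit square
has an even number of edges between `C` and `Cᶜ`, and if one of them is counted by `χ` all are
(`hK`), so `χ` is closed, `χ = dψ`. Then `ψ` is constant along walks in `C` and along walks in `Cᶜ`,
`ψ u' = ψ c'`, but `ψ u ≠ ψ c`. -/
theorem timar (C K : Set V)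
    (hK : ∀ v ∈ K, ∀ v', v' ∉ C → (∃ c ∈ C, Adj v' c) → Near 1 v v' → v' ∈ K)
    {u u' c c' : V} (hu : u ∈ K) (huC : u ∉ C) (hc : c ∈ C) (huc : Adj u c) (hu' : u' ∉ C)
    (hc' : c' ∈ C) (huc' : Adj u' c') (h1 : Reach Cᶜ u u') (h2 : Reach C c c') : u' ∈ K := by
  by_contra hnK
  obtain ⟨ψ, hψ⟩ := exact_of_closed (fun x => chiE C K x (x.1 + 1, x.2))
    (fun x => chiE C K x (x.1, x.2 + 1)) (fun x => chiE_closed C K hK x.1 x.2)
  have hd : ∀ x y : V, Adj x y → ψ y = ψ x + chiE C K x y := by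
    intro x y hxy
    rcases hxy with ⟨e1, e2⟩ | ⟨e1, e2⟩ | ⟨e1, e2⟩ | ⟨e1, e2⟩
    · have e : y = (x.1 + 1, x.2) := Prod.ext e1 e2
      rw [e]
      exact (hψ x).1
    · have e : x = (y.1 + 1, y.2) := Prod.ext (by simp only; omega) e2.symm
      have h3 := (hψ y).1
      rw [← e] at h3
      have h4 := z2_add_self (chiE C K y x)
      rw [chiE_symm C K x y]
      linear_combination -h3 - h4
    · have e : y = (x.1, x.2 + 1) := Prod.ext e1 e2
      rw [e]
      exact (hψ x).2
    · have e : x = (y.1, y.2 + 1) := Prod.ext e1.symm (by simp only; omega)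
      have h3 := (hψ y).2
      rw [← e] at h3
      have h4 := z2_add_self (chiE C K y x)
      rw [chiE_symm C K x y]
      linear_combination -h3 - h4
  have a1 : ψ u' = ψ u := by
    refine const_of_reach ψ Cᶜ (fun x hx y hy hxy => ?_) h1
    have hx' : x ∉ C := hx
    have hy' : y ∉ C := hy
    rw [hd x y hxy]
    unfold chiE
    rw [if_neg (by tauto), add_zero]
  have a2 : ψ c' = ψ c := by
    refine const_of_reach ψ C (fun x hx y hy hxy => ?_) h2
    rw [hd x y hxy]
    unfold chiE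
    rw [if_neg (by tauto), add_zero]
  have a3 : ψ c = ψ u + 1 := by
    rw [hd u c huc]
    unfold chiE
    rw [if_pos (Or.inr ⟨hc, huC, hu⟩)]
  have a4 : ψ c' = ψ u' := by
    rw [hd u' c' huc']
    unfold chiE
    rw [if_neg (by tauto), add_zero]
  have a5 : (1 : ZMod 2) = 0 := by linear_combination a4 + a1 - a2 - a3
  exact one_ne_zero a5

end Vale.Agent.P158b
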