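import Vale.Agent.P158b.GeoB
import Vale.Agent.P158b.PathA

/-! The cells met by a straight walk. -/

open MeasureTheory ProbabilityTheory Finset
open scoped Classical

namespace Vale.Agent.P158b

namespace TubeDAux

theorem floor_sub {a b l : ℝ} (hl : 0 < l) {k : ℕ} (h : a - b < k * l) :
    ⌊a / l⌋ - ⌊b / l⌋ ≤ k := by
  have h1 : a / l < b / l + k := by
    rw [div_add' _ _ _ hl.ne', div_lt_div_iff_of_pos_right hl]
    linarith
  have h2 := Int.floor_le (a / l)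
  have h3 := Int.lt_floor_add_one (b / l)
  have h4 : ((⌊a / l⌋ - ⌊b / l⌋ : ℤ) : ℝ) < ((k + 1 : ℤ) : ℝ) := by
    push_cast
    linarith
  exact Int.lt_add_one_iff.1 (Int.cast_lt.1 h4)

theorem of_floor {a b l : ℝ} (hl : 0 < l) (h : ⌊a / l⌋ = ⌊b / l⌋) : a - b < l := by
  have h2 := Int.floor_le (b / l)
  have h3 := Int.lt_floor_add_one (a / l)
  have h1 : a / l < b / l + 1 := by
    rw [h] at h3
    linarith
  rw [div_add' _ _ _ hl.ne', div_lt_div_iff_of_pos_right hl] at h1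
  linarith

theorem floor_abs {a l : ℝ} (hl : 1 ≤ l) {k : ℕ} (h : |a| ≤ k) :
    ⌊a / l⌋ ≤ k ∧ -(k : ℤ) ≤ ⌊a / l⌋ := by
  have h1 : |a / l| ≤ k := by
    rw [abs_div, abs_of_pos (by linarith : 0 < l)]
    exact (div_le_self (abs_nonneg a) hl).trans h
  obtain ⟨h2, h3⟩ := abs_le.1 h1
  refine ⟨?_, Int.le_floor.2 (by exact_mod_cast h2)⟩
  exact_mod_cast (Int.floor_le (a / l)).trans h3

theorem walk {l d : ℝ} (hl : 1 ≤ l) (hd : 1 ≤ d) (P Q g : ℕ → ℝ) (L : ℕ)
    (hP : ∀ i < L, |P (i + 1) - P i| ≤ 1) (hQ : ∀ i < L, |Q (i + 1) - Q i| ≤ 1)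
    (hg : ∀ i ≤ L, |g i - Q i| ≤ d) (c : ℕ → V) (hc : ∀ i, c i = (⌊P i / l⌋, ⌊Q i / d⌋)) :
    ∀ n ≤ L, ∃ (f : ℕ → V) (J i : ℕ), i ≤ n ∧ f 0 = c 0 ∧ f J = c i ∧ |P n - P i| < l ∧
      |g n - g i| < d ∧
      J + |P n - P i| / l + |g n - g i| / d ≤ n / l + (∑ k ∈ range n, |g (k + 1) - g k|) / d ∧
      (∀ j, j < J → Near 4 (f j) (f (j + 1))) ∧ ∀ k ≤ n, ∃ j, j ≤ J ∧ Near 4 (c k) (f j) := by
  have l0 : 0 < l := by linarith
  have d0 : 0 < d := by linarith
  intro n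
  induction n with
  | zero =>
    intro _
    refine ⟨fun _ => c 0, 0, 0, le_rfl, rfl, rfl, by simpa using l0, by simpa using d0, by simp,
      fun j hj => absurd hj (Nat.not_lt_zero j), fun k hk => ⟨0, le_rfl, ?_⟩⟩
    rw [Nat.le_zero.1 hk]
    exact Near.refl _ _
  | succ n ih =>
    intro hn
    obtain ⟨f, J, i, hi, f0, fJ, h1, h2, h3, h4, h5⟩ := ih (by omega)
    have p1 := abs_le.1 (hP n (by omega))
    have p2 := abs_le.1 (hQ n (by omega))
    have p3 := abs_le.1 (hg n (by omega))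
    have p4 := abs_le.1 (hg i (by omega))
    have p5 := abs_lt.1 h1
    have p6 := abs_lt.1 h2
    have hn4 : Near 4 (c (n + 1)) (f J) := by
      rw [fJ, hc, hc]
      refine ⟨floor_sub l0 ?_, floor_sub l0 ?_, floor_sub d0 ?_, floor_sub d0 ?_⟩ <;>
        push_cast <;> linarith
    have q1 : |P (n + 1) - P i| / l ≤ |P n - P i| / l + 1 / l := by
      rw [← add_div]
      refine div_le_div_of_nonneg_right ?_ l0.le
      linarith [abs_sub_le (P (n + 1)) (P n) (P i), hP n (by omega)]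
    have q2 : |g (n + 1) - g i| / d ≤ |g n - g i| / d + |g (n + 1) - g n| / d := by
      rw [← add_div]
      refine div_le_div_of_nonneg_right ?_ d0.le
      linarith [abs_sub_le (g (n + 1)) (g n) (g i)]
    have q3 : J + |P (n + 1) - P i| / l + |g (n + 1) - g i| / d ≤
        ((n + 1 : ℕ) : ℝ) / l + (∑ k ∈ range (n + 1), |g (k + 1) - g k|) / d := by
      rw [sum_range_succ, Nat.cast_succ, add_div, add_div]
      linarith
    by_cases hs : |P (n + 1) - P i| < l ∧ |g (n + 1) - g i| < d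
    · refine ⟨f, J, i, by omega, f0, fJ, hs.1, hs.2, q3, h4, fun k hk => ?_⟩
      rcases Nat.of_le_succ hk with hk | rfl
      · exact h5 k hk
      · exact ⟨J, le_rfl, hn4⟩
    · have q4 : 1 ≤ |P (n + 1) - P i| / l + |g (n + 1) - g i| / d := by
        have r1 : 0 ≤ |P (n + 1) - P i| / l := by positivity
        have r2 : 0 ≤ |g (n + 1) - g i| / d := by positivity
        rcases not_and_or.1 hs with h | h
        · linarith [(one_le_div l0).2 (not_lt.1 h)]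
        · linarith [(one_le_div d0).2 (not_lt.1 h)]
      have hu : ∀ j ≤ J, Function.update f (J + 1) (c (n + 1)) j = f j := fun j hj =>
        Function.update_of_ne (by omega) _ _
      refine ⟨Function.update f (J + 1) (c (n + 1)), J + 1, n + 1, le_rfl,
        (hu 0 (Nat.zero_le _)).trans f0, Function.update_self _ _ _, by simpa using l0,
        by simpa using d0, ?_, fun j hj => ?_, fun k hk => ?_⟩
      · rw [sub_self, sub_self, abs_zero, zero_div, zero_div, Nat.cast_succ J]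
        linarith
      · rcases Nat.lt_succ_iff_lt_or_eq.1 hj with hj | rfl
        · rw [hu j hj.le, hu (j + 1) hj]
          exact h4 j hj
        · rw [hu j le_rfl, Function.update_self]
          exact hn4.symm
      · rcases Nat.of_le_succ hk with hk | rfl
        · obtain ⟨j, hj, h⟩ := h5 k hk
          exact ⟨j, by omega, (hu j hj).symm ▸ h⟩
        · exact ⟨J, by omega, (hu J le_rfl).symm ▸ hn4⟩

theorem step {sw : Bool} {s : ℝ} (hs : |s| ≤ 1) {x y : V} (h : Adj x y) :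
    |gP sw (cv y) - gP sw (cv x)| ≤ 1 ∧ |gQ sw s (cv y) - gQ sw s (cv x)| ≤ 1 := by
  have h' := abs_le.1 hs
  cases sw <;> rcases h with ⟨h1, h2⟩ | ⟨h1, h2⟩ | ⟨h1, h2⟩ | ⟨h1, h2⟩ <;>
    simp only [gP, gQ, cv, h1, h2, Bool.false_eq_true, if_false, if_true, abs_le] <;>
    push_cast <;> refine ⟨⟨?_, ?_⟩, ?_, ?_⟩ <;> linarith

theorem inbox {N : ℕ} {sw : Bool} {s : ℝ} (hs : |s| ≤ 1) {x : V} (h : Near N x 0) :
    |gP sw (cv x)| ≤ (2 * N : ℕ) ∧ |gQ sw s (cv x)| ≤ (2 * N : ℕ) := by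
  obtain ⟨h1, h2, h3, h4⟩ := h
  simp only [Prod.fst_zero, Prod.snd_zero, sub_zero, zero_sub] at h1 h2 h3 h4
  have a1 : |(x.1 : ℝ)| ≤ N := by exact_mod_cast abs_le.2 ⟨by omega, h1⟩
  have a2 : |(x.2 : ℝ)| ≤ N := by exact_mod_cast abs_le.2 ⟨by omega, h3⟩
  have b1 : |s * x.1| ≤ N := by
    rw [abs_mul]
    exact (mul_le_of_le_one_left (abs_nonneg _) hs).trans a1
  have b2 : |s * x.2| ≤ N := by
    rw [abs_mul]
    exact (mul_le_of_le_one_left (abs_nonneg _) hs).trans a2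
  have n0 : (0 : ℝ) ≤ N := Nat.cast_nonneg N
  cases sw <;> simp only [gP, gQ, cv, Bool.false_eq_true, if_false, if_true] <;> push_cast
  · exact ⟨by linarith, by linarith [abs_sub (x.2 : ℝ) (s * x.1)]⟩
  · exact ⟨by linarith, by linarith [abs_sub (x.1 : ℝ) (s * x.2)]⟩

theorem mem_rect {l d : ℕ} (hl : 1 ≤ l) (hd : 1 ≤ d) (s : ℝ) {u v a b : ℤ}
    (h1 : ⌊(u : ℝ) / l⌋ = a) (h2 : ⌊(v - s * u : ℝ) / d⌋ = b) :
    (u, v - ⌈b * d + s * u⌉) ∈ Ico (a * l) (a * l + l) ×ˢ Ico (0 : ℤ) d := by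
  have l0 : (0 : ℝ) < l := by exact_mod_cast hl
  have d0 : (0 : ℝ) < d := by exact_mod_cast hd
  rw [Int.floor_eq_iff, le_div_iff₀ l0, div_lt_iff₀ l0] at h1
  rw [Int.floor_eq_iff, le_div_iff₀ d0, div_lt_iff₀ d0] at h2
  have e1 : ((a * l : ℤ) : ℝ) ≤ u := by
    push_cast
    exact h1.1
  have e2 : (u : ℝ) < ((a * l + l : ℤ) : ℝ) := by
    push_cast
    linarith [h1.2]
  have e3 : ⌈b * d + s * u⌉ ≤ v := Int.ceil_le.2 (by linarith [h2.1])
  have e4 : v - d < ⌈b * d + s * u⌉ := Int.lt_ceil.2 (by push_cast; linarith [h2.2])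
  simp only [mem_product, mem_Ico]
  exact ⟨⟨Int.cast_le.1 e1, Int.cast_lt.1 e2⟩, by omega, by omega⟩

theorem close {l d : ℕ} (hl : 1 ≤ l) (hd : 1 ≤ d) {s : ℝ} (hs : |s| ≤ 1) {u v u' v' : ℤ}
    (h1 : ⌊(u : ℝ) / l⌋ = ⌊(u' : ℝ) / l⌋) (h2 : ⌊(v - s * u : ℝ) / d⌋ = ⌊(v' - s * u' : ℝ) / d⌋) :
    u - u' ≤ (l + d : ℕ) ∧ v - v' ≤ (l + d : ℕ) := by
  have l0 : (0 : ℝ) < l := by exact_mod_cast hl
  have d0 : (0 : ℝ) < d := by exact_mod_cast hd
  have a1 := of_floor l0 h1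
  have a2 := of_floor l0 h1.symm
  have a3 := of_floor d0 h2
  have a4 : |s * (u - u')| ≤ l := by
    rw [abs_mul]
    exact (mul_le_of_le_one_left (abs_nonneg _) hs).trans (abs_le.2 ⟨by linarith, a1.le⟩)
  have a5 := (abs_le.1 a4).2
  have e1 : ((u - u' : ℤ) : ℝ) ≤ ((l + d : ℕ) : ℤ) := by
    push_cast
    linarith
  have e2 : ((v - v' : ℤ) : ℝ) ≤ ((l + d : ℕ) : ℤ) := by
    push_cast
    linarith
  exact ⟨Int.cast_le.1 e1, Int.cast_le.1 e2⟩

end TubeDAux

/-- Stopping times: `i 0 = 0`, `i (j+1)` the first `i > i j` with `|gP (vx i) - gP (vx (i j))| ≥ l`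
or `|g i - g (i j)| ≥ d`; `f j = cell (vx p (i j))`. Before the stopping time the cell is within
`(1, 3)` of `f j`, at the stopping time within `(2, 4)`. A stop of the first kind uses `l` steps,
one of the second kind uses `d` of the total variation. (Induction on the remaining length, with
the potential `remaining steps / l + remaining variation / d`.) -/
theorem tube_walk {N l d : ℕ} {sw : Bool} {s C1 E H : ℝ} (hs : |s| ≤ 1) (hl : 1 ≤ l) (hd : 1 ≤ d)
    (hH : H ≤ d) {p : List V} (hp : Short N C1 p) (hst : Straight sw s E H p) :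
    ∃ (f : ℕ → V) (J : ℕ), (J : ℝ) ≤ C1 * N / l + E / d ∧ Near (2 * N) (f 0) 0 ∧
      (∀ j, j < J → Near 4 (f j) (f (j + 1))) ∧
      ∀ y, On p y → ∃ j, j ≤ J ∧ Near 4 (cell sw s l d y) (f j) := by
  obtain ⟨g, hg, hE⟩ := hst
  have l1 : (1 : ℝ) ≤ l := by exact_mod_cast hl
  have d1 : (1 : ℝ) ≤ d := by exact_mod_cast hd
  obtain ⟨f, J, i, -, f0, -, -, -, h3, h4, h5⟩ := TubeDAux.walk l1 d1
    (fun i => gP sw (cv (vx p i))) (fun i => gQ sw s (cv (vx p i))) g (len p)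
    (fun i hi => (TubeDAux.step hs (hp.1.1 i (Nat.zero_le _) hi)).1)
    (fun i hi => (TubeDAux.step hs (hp.1.1 i (Nat.zero_le _) hi)).2)
    (fun i hi => (hg i hi).trans hH) (fun i => cell sw s l d (vx p i)) (fun _ => rfl) (len p) le_rfl
  refine ⟨f, J, ?_, ?_, h4, ?_⟩
  · have e1 : (len p : ℝ) / l ≤ C1 * N / l := div_le_div_of_nonneg_right hp.2 (by linarith)
    have e2 := div_le_div_of_nonneg_right hE (by linarith : (0 : ℝ) ≤ d)
    have e3 : 0 ≤ |gP sw (cv (vx p (len p))) - gP sw (cv (vx p i))| / l := by positivity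
    have e4 : 0 ≤ |g (len p) - g i| / d := by positivity
    linarith
  · obtain ⟨a1, a2⟩ := TubeDAux.inbox (sw := sw) hs (hp.1.2 0 le_rfl (Nat.zero_le _))
    obtain ⟨b1, b2⟩ := TubeDAux.floor_abs l1 a1
    obtain ⟨b3, b4⟩ := TubeDAux.floor_abs d1 a2
    rw [f0]
    simp only [Near, cell, Prod.fst_zero, Prod.snd_zero]
    omega
  · rintro y ⟨k, hk, rfl⟩
    exact h5 k hk

/-- a cell has at most `l * (d + 1)` points -/
theorem card_cell {l d : ℕ} (hl : 1 ≤ l) (hd : 1 ≤ d) (sw : Bool) (s : ℝ) (A : Finset V) (κ : V) :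
    (A.filter fun x => cell sw s l d x = κ).card ≤ 2 * l * d := by
  have hc : (Ico (κ.1 * l) (κ.1 * l + l) ×ˢ Ico (0 : ℤ) d).card ≤ 2 * l * d := by
    rw [card_product, Int.card_Ico, Int.card_Ico, add_sub_cancel_left, sub_zero, Int.toNat_natCast,
      Int.toNat_natCast]
    nlinarith [Nat.zero_le (l * d)]
  refine le_trans ?_ hc
  cases sw
  · refine card_le_card_of_injOn (fun x => (x.1, x.2 - ⌈κ.2 * d + s * x.1⌉)) (fun x hx => ?_) ?_
    · have h := (mem_filter.1 hx).2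
      exact mem_coe.2 (TubeDAux.mem_rect hl hd s (congrArg Prod.fst h) (congrArg Prod.snd h))
    · intro x _ y _ h
      obtain ⟨h1, h2⟩ := Prod.ext_iff.1 h
      simp only at h1 h2
      rw [h1] at h2
      exact Prod.ext h1 (by omega)
  · refine card_le_card_of_injOn (fun x => (x.2, x.1 - ⌈κ.2 * d + s * x.2⌉)) (fun x hx => ?_) ?_
    · have h := (mem_filter.1 hx).2
      exact mem_coe.2 (TubeDAux.mem_rect hl hd s (congrArg Prod.fst h) (congrArg Prod.snd h))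
    · intro x _ y _ h
      obtain ⟨h1, h2⟩ := Prod.ext_iff.1 h
      simp only at h1 h2
      rw [h1] at h2
      exact Prod.ext (by omega) h1

theorem near_of_cell {l d : ℕ} (hl : 1 ≤ l) (hd : 1 ≤ d) {sw : Bool} {s : ℝ} (hs : |s| ≤ 1)
    {x y : V} (h : cell sw s l d x = cell sw s l d y) : Near (l + d) x y := by
  have h1 := congrArg Prod.fst h
  have h2 := congrArg Prod.snd h
  cases sw
  · obtain ⟨a1, a2⟩ := TubeDAux.close hl hd hs h1 h2
    obtain ⟨a3, a4⟩ := TubeDAux.close hl hd hs h1.symm h2.symm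
    exact ⟨a1, a3, a2, a4⟩
  · obtain ⟨a1, a2⟩ := TubeDAux.close hl hd hs h1 h2
    obtain ⟨a3, a4⟩ := TubeDAux.close hl hd hs h1.symm h2.symm
    exact ⟨a2, a4, a1, a3⟩

theorem mem_tube_of_on {N l d : ℕ} {sw : Bool} {s : ℝ} {p q : List V} {y : V} (hy : Near N y 0)
    (h : On p y ∨ On q y) : y ∈ tube N sw s l d p q :=
  mem_filter.2 ⟨mem_box.2 hy, y, h, rfl⟩

end Vale.Agent.P158b
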